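import Vale.Agent.P283R.Wd.Hz66

/-!
# P283R, block TB: Caratheodory with rescaled masses of the pages
-/

open Set

namespace Vale.Agent.P283R.Tb.C13

open Classical in
/-- Caratheodory with rescaled masses -/
theorem abs {ι π β : Type} [Fintype β] (S I : Finset ι) (ξ : ι → ℝ) (h0 : 0 ≤ ξ)
    (o : ι → β → ℝ) (n : ι → π → ℝ) (r : ι → π) (N : π → ℝ)
    (hr : ∀ P ∉ S, ξ P ≠ 0 → 0 < n P (r P) ∧ ∀ p, p ≠ r P → n P p = 0)
    (fo : ∀ j, (Function.support fun P => ξ P * o P j).Finite)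
    (fn : ∀ p, (Function.support fun P => ξ P * n P p).Finite)
    (hN : ∀ p, ∑ᶠ P, ξ P * n P p = N p)
    (di : ∀ ζ : ι → ℝ, 0 ≤ ζ → (∀ P ∈ I, ζ P = ξ P) → (∀ P, ζ P ≠ 0 → ξ P ≠ 0) →
      (∀ j, (∀ P ∉ S, ξ P ≠ 0 → o P j = 0) → ∑ P ∈ S, ζ P * o P j = ∑ P ∈ S, ξ P * o P j) → ∀ p,
      ∑ P ∈ S, ζ P * n P p ≤ N p ∧ (∑ P ∈ S, ζ P * n P p = N p ↔ ∑ P ∈ S, ξ P * n P p = N p)) :
    ∃ (ξ' : ι → ℝ) (t : Finset ι), 0 ≤ ξ' ∧ t ⊆ S ∧ t.card ≤ I.card + Fintype.card β ∧
      (∀ P ∈ S, ξ' P ≠ 0 → P ∈ t) ∧ (∀ P, ξ' P ≠ 0 → ξ P ≠ 0) ∧ (∀ P ∉ S, ξ P ≠ 0 → ξ' P ≠ 0) ∧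
      (∀ j, ∑ᶠ P, ξ' P * o P j = ∑ᶠ P, ξ P * o P j) ∧ ∀ p, ∑ᶠ P, ξ' P * n P p = N p := by
  let M : π → ℝ := fun p => N p - ∑ P ∈ S, ξ P * n P p
  let cR : ι → (ι → ℝ) → ℝ := fun R a =>
    ∑ᶠ P, if P ∈ S then 0 else n R (r P) / M (r P) * (ξ P * a P)
  let A := (S \ I).filter fun P => ξ P ≠ 0
  obtain ⟨z, z0, z1, z2⟩ := Vale.Agent.P283R.Wd.Z66.car
    (fun (R : A) j => o R j - cR R fun P => o P j) _ (fun R => ξ R) le_rfl fun R => h0 R
  let ζ : ι → ℝ := fun P => if k : P ∈ A then z ⟨P, k⟩ else ξ P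
  have e1 : ∀ P : A, ζ P = z P := fun P => dif_pos P.2
  have e2 : ∀ P ∉ A, ζ P = ξ P := fun P k => dif_neg k
  have AS : A ⊆ S := fun P k => (Finset.mem_sdiff.1 (Finset.mem_filter.1 k).1).1
  have ζ0 : 0 ≤ ζ := fun P => by
    by_cases k : P ∈ A
    · exact (e1 ⟨P, k⟩).symm ▸ z0 _
    · exact (e2 P k).symm ▸ h0 P
  have ζ1 : ∀ P, ζ P ≠ 0 → ξ P ≠ 0 := fun P h => by
    by_cases k : P ∈ A
    · exact (Finset.mem_filter.1 k).2
    · exact e2 P k ▸ h
  have z3 : ∀ j, ∑ R ∈ S, (ζ R - ξ R) * (o R j - cR R fun P => o P j) = 0 := fun j => by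
    have := congrFun z1 j
    simp only [Finset.sum_apply, Pi.smul_apply, smul_eq_mul] at this
    rw [← Finset.sum_subset AS fun P _ k => by rw [e2 P k, sub_self, zero_mul],
      ← Finset.sum_coe_sort]
    simp only [e1, sub_mul, Finset.sum_sub_distrib, this, sub_self]
  have dd := di ζ ζ0 (fun P k => e2 P fun m => (Finset.mem_sdiff.1 (Finset.mem_filter.1 m).1).2 k)
    ζ1 fun j h => by
      have := z3 j
      have c : ∀ R, (cR R fun P => o P j) = 0 := fun R => finsum_eq_zero_of_forall_eq_zero fun P => by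
        split_ifs with k
        · rfl
        · by_cases m : ξ P = 0
          · simp [m]
          · simp [h P k m]
      simp only [c, sub_zero, sub_mul, Finset.sum_sub_distrib] at this
      exact sub_eq_zero.1 this
  -- the mass of a page
  have sp : ∀ a : ι → ℝ, (Function.support a).Finite →
      ∑ᶠ P, a P = ∑ P ∈ S, a P + ∑ᶠ P, if P ∈ S then 0 else a P := fun a f => by
    have e : ∑ P ∈ S, a P = ∑ᶠ P, if P ∈ S then a P else 0 := by
      rw [finsum_eq_sum_of_support_subset (s := S) (fun P => if P ∈ S then a P else 0)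
        fun P k => by_contra fun m => k (if_neg fun c => m (Finset.mem_coe.2 c))]
      exact Finset.sum_congr rfl fun P k => (if_pos k).symm
    rw [e, ← finsum_add_distrib (f.subset fun P k m => k (by simp [m]))
      (f.subset fun P k m => k (by simp [m]))]
    exact finsum_congr fun P => by split_ifs <;> simp
  have hM : ∀ p, M p = ∑ᶠ P, if P ∈ S then 0 else ξ P * n P p := fun p => by
    simp only [M, ← hN p, sp _ (fn p), add_sub_cancel_left]
  have Mp : ∀ P ∉ S, ξ P ≠ 0 → 0 < M (r P) := fun P k m => by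
    rw [hM]
    have : ∀ R, 0 ≤ if R ∈ S then 0 else ξ R * n R (r P) := fun R => by
      split_ifs with c
      · exact le_rfl
      · by_cases b : ξ R = 0
        · simp [b]
        · by_cases e : r P = r R
          · exact mul_nonneg (h0 R) (e ▸ (hr R c b).1.le)
          · rw [(hr R c b).2 _ e, mul_zero]
    refine lt_of_lt_of_le ?_ (single_le_finsum P ((fn (r P)).subset fun R c b => c (by simp [b])) this)
    rw [if_neg k]
    exact mul_pos ((h0 P).lt_of_ne' m) (hr P k m).1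
  let ξ' : ι → ℝ := fun P => if P ∈ S then ζ P else
    ξ P * ((N (r P) - ∑ R ∈ S, ζ R * n R (r P)) / M (r P))
  have g1 : ∀ P ∈ S, ξ' P = ζ P := fun P k => if_pos k
  have g2 : ∀ P ∉ S, ξ P ≠ 0 → 0 < ξ' P := fun P k m => by
    simp only [ξ', if_neg k]
    refine mul_pos ((h0 P).lt_of_ne' m) (div_pos (sub_pos.2 ((dd _).1.lt_of_ne fun e => ?_)) (Mp P k m))
    exact (Mp P k m).ne' (sub_eq_zero.2 ((dd _).2.1 e).symm)
  have g3 : ∀ P, ξ' P ≠ 0 → ξ P ≠ 0 := fun P h => by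
    by_cases k : P ∈ S
    · exact ζ1 P (g1 P k ▸ h)
    · simp only [ξ', if_neg k] at h
      exact left_ne_zero_of_mul h
  have key : ∀ a : ι → ℝ, (Function.support fun P => ξ P * a P).Finite →
      ∑ᶠ P, ξ' P * a P = ∑ᶠ P, ξ P * a P + ∑ R ∈ S, (ζ R - ξ R) * (a R - cR R a) := fun a f => by
    have f' : (Function.support fun P => ξ' P * a P).Finite := f.subset fun P k =>
      mul_ne_zero (g3 P (left_ne_zero_of_mul k)) (right_ne_zero_of_mul k)
    have fR : ∀ R, (Function.support fun P =>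
        if P ∈ S then 0 else n R (r P) / M (r P) * (ξ P * a P)).Finite := fun R =>
      f.subset fun P k m => k (by simp [m])
    have : (∑ᶠ P, if P ∈ S then 0 else ξ' P * a P) = (∑ᶠ P, if P ∈ S then 0 else ξ P * a P) -
        ∑ R ∈ S, (ζ R - ξ R) * cR R a := by
      simp only [cR, mul_finsum]
      rw [← finsum_sum_comm _ _ fun R _ => (fR R).subset fun P k m => k (by
        simp only [m, mul_zero]), ← finsum_sub_distrib (f.subset fun P k m => k (by simp [m]))
        (f.subset fun P k m => k (by simp [m]))]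
      refine finsum_congr fun P => ?_
      split_ifs with k
      · simp
      · by_cases m : ξ P = 0
        · simp [ξ', k, m]
        · have := (Mp P k m).ne'
          have e : ∑ R ∈ S, (ζ R - ξ R) * (n R (r P) / M (r P) * (ξ P * a P)) =
              (∑ R ∈ S, ζ R * n R (r P) - ∑ R ∈ S, ξ R * n R (r P)) * (ξ P * a P / M (r P)) := by
            rw [← Finset.sum_sub_distrib, Finset.sum_mul]
            exact Finset.sum_congr rfl fun _ _ => by ring
          simp only [ξ', if_neg k, e]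
          field_simp
          simp only [M]
          ring
    rw [sp _ f', sp _ f, this, Finset.sum_congr rfl fun P k => by rw [g1 P k]]
    simp only [mul_sub, sub_mul, Finset.sum_sub_distrib]
    ring
  refine ⟨ξ', S.filter (· ∈ I) ∪ (Finset.univ.filter fun P : A => z P ≠ 0).image (↑), fun P => ?_,
    Finset.union_subset (Finset.filter_subset _ _) fun P k => ?_, (Finset.card_union_le _ _).trans
      (Nat.add_le_add (Finset.card_le_card fun P k => (Finset.mem_filter.1 k).2)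
        (Finset.card_image_le.trans (z2.trans (by simp)))), fun P k m => ?_, g3,
    fun P k m => (g2 P k m).ne', fun j => by rw [key _ (fo j), z3, add_zero], fun p => ?_⟩
  · by_cases k : P ∈ S
    · exact (g1 P k).symm ▸ ζ0 P
    · by_cases m : ξ P = 0
      · simp [ξ', k, m]
      · exact (g2 P k m).le
  · obtain ⟨P, -, rfl⟩ := Finset.mem_image.1 k
    exact AS P.2
  · by_cases i : P ∈ I
    · exact Finset.mem_union_left _ (Finset.mem_filter.2 ⟨k, i⟩)
    · have a : P ∈ A := Finset.mem_filter.2 ⟨Finset.mem_sdiff.2 ⟨k, i⟩, g3 P m⟩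
      exact Finset.mem_union_right _ (Finset.mem_image.2
        ⟨⟨P, a⟩, by simpa [← e1, ← g1 P k] using m, rfl⟩)
  · rw [key _ (fn p), hN, add_eq_left]
    have c : ∀ R, (cR R fun P => n P p) = n R p / M p * M p := fun R => by
      conv_rhs => rw [mul_comm, hM p, finsum_mul, ← hM p]
      refine finsum_congr fun P => ?_
      split_ifs with k
      · simp
      · by_cases m : ξ P = 0
        · simp [m]
        · by_cases e : p = r P
          · rw [e, mul_comm]
          · simp [(hr P k m).2 p e]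
    by_cases m : M p = 0
    · have a := (sub_eq_zero.1 m).symm
      simp only [c, m, mul_zero, sub_zero, sub_mul, Finset.sum_sub_distrib, a, (dd p).2.2 a,
        sub_self]
    · simp only [c, div_mul_cancel₀ _ m, sub_self, mul_zero, Finset.sum_const_zero]

/-- the dichotomy for the mass of a page -/
theorem dic {ι α : Type} (S I : Finset ι) {ξ ζ : ι → ℝ} (h0 : 0 ≤ ξ) (z0 : 0 ≤ ζ) (IS : I ⊆ S)
    (hI : ∀ P ∈ I, ζ P ≠ 0) (sup : ∀ P, ζ P ≠ 0 → ξ P ≠ 0) (A : Set α) (u : α → ι → ℝ)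
    (n : ι → ℝ) (N : ℝ) (hn : ∀ P ∈ S, ξ P ≠ 0 → (∀ a ∈ A, n P ≤ u a P) ∧ ∃ a ∈ A, n P = u a P)
    (gen : ∀ a ∈ A, ∀ a' ∈ A, (∀ R ∈ I, u a R ≤ u a' R) → ∀ P ∈ S, ξ P ≠ 0 → u a P ≤ u a' P)
    {a : α} (ha : a ∈ A) (e : ∑ P ∈ S, ζ P * u a P = ∑ P ∈ S, ξ P * u a P)
    (hN : ∑ P ∈ S, ξ P * u a P ≤ N) :
    ∑ P ∈ S, ζ P * n P ≤ N ∧ (∑ P ∈ S, ζ P * n P = N ↔ ∑ P ∈ S, ξ P * n P = N) := by
  have le : ∀ η : ι → ℝ, 0 ≤ η → (∀ P, η P ≠ 0 → ξ P ≠ 0) → ∀ P ∈ S, η P * n P ≤ η P * u a P :=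
    fun η p s P k => by
      by_cases m : η P = 0
      · simp [m]
      · exact mul_le_mul_of_nonneg_left ((hn P k (s P m)).1 a ha) (p P)
  have l1 := Finset.sum_le_sum (le ζ z0 sup)
  have l2 := Finset.sum_le_sum (le ξ h0 fun _ h => h)
  have tr : ∀ η : ι → ℝ, (∀ P ∈ S, η P ≠ 0 → n P = u a P) →
      ∑ P ∈ S, η P * n P = ∑ P ∈ S, η P * u a P := fun η h => Finset.sum_congr rfl fun P k => by
    by_cases m : η P = 0
    · simp [m]
    · rw [h P k m]
  refine ⟨by linarith, fun h => ?_, fun h => ?_⟩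
  · have k := (Finset.sum_eq_sum_iff_of_le (le ζ z0 sup)).1 (by linarith)
    rw [tr ξ fun P p m => ?_]
    · linarith
    obtain ⟨b, a', c, e'⟩ := hn P p m
    refine le_antisymm (b a ha) (e' ▸ gen a ha a' c (fun R r => ?_) P p m)
    rw [← mul_left_cancel₀ (hI R r) (k R (IS r))]
    exact (hn R (IS r) (sup R (hI R r))).1 a' c
  · have k := (Finset.sum_eq_sum_iff_of_le (le ξ h0 fun _ h => h)).1 (by linarith)
    rw [tr ζ fun P p m => mul_left_cancel₀ (sup P m) (k P p)]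
    linarith

end Vale.Agent.P283R.Tb.C13
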