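import Mathlib

/-!
# P283R, block TB: few vectors with the same dual cone
-/

namespace Vale.Agent.P283R.Tb

variable {ι : Type}

namespace F96

theorem half (S : Finset ι) (x y : ι → ℤ) (h : ∀ E ∈ S, 0 < y E) : ∃ S₀ ⊆ S, S₀.card ≤ 2 ∧
    ∀ a b : ℤ, (∀ E ∈ S₀, 0 ≤ a * x E + b * y E) → ∀ E ∈ S, 0 ≤ a * x E + b * y E := by
  classical
  rcases S.eq_empty_or_nonempty with rfl | ne
  · exact ⟨∅, by simp, by simp, fun _ _ _ E h => by simp at h⟩
  obtain ⟨E₁, h1, m1⟩ := S.exists_min_image (fun E => (x E : ℚ) / y E) ne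
  obtain ⟨E₂, h2, m2⟩ := S.exists_max_image (fun E => (x E : ℚ) / y E) ne
  refine ⟨{E₁, E₂}, by simp [Finset.insert_subset_iff, h1, h2], Finset.card_le_two,
    fun a b H E hE => ?_⟩
  have k : ∀ E ∈ S, 0 ≤ a * x E + b * y E ↔ 0 ≤ a * ((x E : ℚ) / y E) + b := fun E hE => by
    have p : (0 : ℚ) < y E := Int.cast_pos.2 (h E hE)
    rw [← mul_nonneg_iff_of_pos_right p, add_mul, mul_assoc, div_mul_cancel₀ _ p.ne']
    norm_cast
  have a1 := (k _ h1).1 (H E₁ (by simp))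
  have a2 := (k _ h2).1 (H E₂ (by simp))
  have b1 := m1 E hE
  have b2 := m2 E hE
  rw [k E hE]
  rcases le_total (0 : ℚ) a with z | z
  · nlinarith [mul_le_mul_of_nonneg_left b1 z]
  · nlinarith [mul_le_mul_of_nonpos_left b2 z]

theorem two (S : Finset ι) (x y : ι → ℤ) : ∃ S₀ ⊆ S, S₀.card ≤ 4 ∧
    ∀ a b : ℤ, (∀ E ∈ S₀, 0 ≤ a * x E + b * y E) → ∀ E ∈ S, y E ≠ 0 → 0 ≤ a * x E + b * y E := by
  classical
  obtain ⟨S₁, a1, a2, a3⟩ := half (S.filter fun E => 0 < y E) x y fun E h =>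
    (Finset.mem_filter.1 h).2
  obtain ⟨S₂, b1, b2, b3⟩ := half (S.filter fun E => y E < 0) x (fun E => -y E) fun E h =>
    neg_pos.2 (Finset.mem_filter.1 h).2
  refine ⟨S₁ ∪ S₂, Finset.union_subset (a1.trans (Finset.filter_subset _ _))
    (b1.trans (Finset.filter_subset _ _)), (Finset.card_union_le _ _).trans (by omega),
    fun a b H E hE n => ?_⟩
  rcases lt_or_gt_of_ne n with z | z
  · simpa using b3 a (-b) (fun E h => by simpa using H E (Finset.mem_union_right _ h)) E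
      (Finset.mem_filter.2 ⟨hE, z⟩)
  · exact a3 a b (fun E h => H E (Finset.mem_union_left _ h)) E (Finset.mem_filter.2 ⟨hE, z⟩)

end F96

open F96

/-- the plane -/
theorem few2 {c : ℕ} (hc : c ≤ 2) (A : Finset ι) (v : ι → Fin c → ℤ) : ∃ A₀ ⊆ A, A₀.card ≤ 4 * c ∧
    ∀ m : Fin c → ℤ, (∀ E ∈ A₀, 0 ≤ m ⬝ᵥ v E) → ∀ E ∈ A, 0 ≤ m ⬝ᵥ v E := by
  classical
  interval_cases c
  · exact ⟨∅, by simp, by simp, fun m _ E _ => by simp [dotProduct]⟩
  · obtain ⟨S, a1, a2, a3⟩ := two A 0 fun E => v E 0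
    refine ⟨S, a1, a2, fun m H E hE => ?_⟩
    by_cases z : v E 0 = 0
    · simp [dotProduct, z]
    · simpa [dotProduct] using a3 0 (m 0) (fun E h => by simpa [dotProduct] using H E h) E hE z
  · obtain ⟨S₁, a1, a2, a3⟩ := two A (fun E => v E 0) fun E => v E 1
    obtain ⟨S₂, b1, b2, b3⟩ := two (A.filter fun E => v E 1 = 0) (fun E => v E 1) fun E => v E 0
    refine ⟨S₁ ∪ S₂, Finset.union_subset a1 (b1.trans (Finset.filter_subset _ _)),
      (Finset.card_union_le _ _).trans (by omega), fun m H E hE => ?_⟩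
    simp only [dotProduct, Fin.sum_univ_two] at H ⊢
    by_cases z : v E 1 = 0
    · by_cases z' : v E 0 = 0
      · simp [z, z']
      · rw [add_comm]
        exact b3 (m 1) (m 0) (fun E h => add_comm (m 0 * _) _ ▸ H E (Finset.mem_union_right _ h)) E
          (Finset.mem_filter.2 ⟨hE, z⟩) z'
    · exact a3 (m 0) (m 1) (fun E h => H E (Finset.mem_union_left _ h)) E hE z

/-- few rays -/
theorem fewR {c : ℕ} (R : Finset (Fin c → ℤ)) (A : Finset ι) (v : ι → Fin c → ℤ)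
    (h : ∀ E ∈ A, ∃ r ∈ R, ∃ k : ℕ, v E = k • r) : ∃ A₀ ⊆ A, A₀.card ≤ R.card ∧
    ∀ m : Fin c → ℤ, (∀ E ∈ A₀, 0 ≤ m ⬝ᵥ v E) → ∀ E ∈ A, 0 ≤ m ⬝ᵥ v E := by
  classical
  have : ∀ r : Fin c → ℤ, ∃ B ⊆ A, B.card ≤ 1 ∧ ∀ m : Fin c → ℤ, (∀ E ∈ B, 0 ≤ m ⬝ᵥ v E) →
      ∀ E ∈ A, ∀ k : ℕ, v E = k • r → 0 ≤ m ⬝ᵥ v E := fun r => by
    by_cases e : ∃ E ∈ A, ∃ k : ℕ, 0 < k ∧ v E = k • r
    · obtain ⟨E₀, a, k₀, b, d⟩ := e
      refine ⟨{E₀}, by simpa using a, by simp, fun m H E _ k hk => ?_⟩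
      have := H E₀ (by simp)
      rw [d, dotProduct_smul, nsmul_eq_mul] at this
      rw [hk, dotProduct_smul, nsmul_eq_mul]
      exact mul_nonneg (Int.natCast_nonneg k)
        (nonneg_of_mul_nonneg_right this (by exact_mod_cast b))
    · refine ⟨∅, by simp, by simp, fun m _ E hE k hk => ?_⟩
      obtain rfl : k = 0 := by_contra fun n => e ⟨E, hE, k, Nat.pos_of_ne_zero n, hk⟩
      simp [hk]
  choose B b1 b2 b3 using this
  refine ⟨R.biUnion B, Finset.biUnion_subset.2 fun r _ => b1 r,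
    (Finset.card_biUnion_le_card_mul _ _ 1 fun r _ => b2 r).trans (by simp), fun m H E hE => ?_⟩
  obtain ⟨r, hr, k, hk⟩ := h E hE
  exact b3 r m (fun E a => H E (Finset.mem_biUnion.2 ⟨r, hr, a⟩)) E hE k hk

end Vale.Agent.P283R.Tb
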