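import Vale.Agent.P283R.Tb.St

/-!
# P283R, block TB: only finitely many pages are empty
-/

open Set CategoryTheory AlgebraicGeometry

noncomputable section

namespace Vale.Agent.P283R.Tb

open Vale.Agent.P287D Vale.Agent.P283M Vale.Agent.P283R.To Vale.Agent.P297Z
open Vale.Agent.P283M.Stm Vale.Agent.P283M.Stm.Var Vale.Agent.P283M.Br Vale.Agent.P283R.Gl
open Pq (At lam fr Pg)

/-- an affine open subset which misses finitely many prime divisors -/
theorem off29 {X : Var} {W : X.X.Opens} {x : X.X} (hx : x ∈ W) {S : Set X.PrimeDiv}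
    (hS : S.Finite) : ∃ U : X.X.Opens, IsAffineOpen U ∧ genericPoint X.X ∈ U ∧
      ∀ E : X.PrimeDiv, E.1 ∈ U → E.1 ∈ W ∧ E ∉ S := by
  have c : IsClosed (⋃ E ∈ S, closure {(E.1 : X.X)}) :=
    hS.isClosed_biUnion fun _ _ => isClosed_closure
  have g : genericPoint X.X ∈ (W : Set X.X) ∩ (⋃ E ∈ S, closure {(E.1 : X.X)})ᶜ := by
    refine ⟨(genericPoint_specializes x).mem_open W.2 hx, fun a => ?_⟩
    obtain ⟨E, -, a⟩ := mem_iUnion₂.1 a
    have e : (E.1 : X.X) = genericPoint X.X :=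
      ((specializes_iff_mem_closure.2 a).antisymm (genericPoint_specializes _)).eq
    have z : Order.coheight (E.1 : X.X) = 0 := by
      rw [e, Order.coheight_eq_zero]
      exact fun b _ => genericPoint_specializes b
    exact zero_ne_one (z.symm.trans E.2)
  obtain ⟨_, ⟨U, hU, rfl⟩, gU, le⟩ :=
    X.X.isBasis_affineOpens.exists_subset_of_mem_open g (W.2.inter c.isOpen_compl)
  exact ⟨U, hU, gU, fun E a => ⟨(le a).1, fun b =>
    (le a).2 (mem_iUnion₂.2 ⟨E, b, subset_closure rfl⟩)⟩⟩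

/-- **MISR** -/
theorem misr29 : MISR := fun dic c ρ X W s y x h hx ov => by
  obtain ⟨r, -⟩ := Pq.rat80 c ρ X W s y x h hx
  obtain ⟨U, hU, xU, a⟩ := off29 hx (finite_iUnion fun i => fin X (s i))
  obtain ⟨T, -, hT⟩ := Am.Str.fg (Am.str X) hU xU
  have hs : AlgebraicIndependent ℂ s := by
    have := h.1.comp (Fin.castAdd ρ) (Fin.castAdd_injective _ _)
    rwa [show fr s y ∘ Fin.castAdd ρ = s from funext (Fin.append_left s y)] at this
  refine (Pq.M29.units Pq.pol T hs).subset fun p hp =>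
    hT _ (Am.mem_reg.2 fun x' hx' => har X _ x' fun E hE => ?_)
  obtain ⟨m, n⟩ := a E (hE.mem_open U.isOpen hx')
  rw [pq_ord, (pq E).ord_inv, neg_nonneg]
  refine Pq.M29.at_le ((ov E m).imp (fun v => (dic c ρ X.K s y r).2.2.1 _ v fun i => ?_)
    fun ⟨p', v⟩ => ⟨_, v.1⟩) fun a => hp ⟨E, m, a⟩
  rw [← pq_ord]
  exact by_contra fun z => n (mem_iUnion.2 ⟨i, z⟩)

end Vale.Agent.P283R.Tb
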