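import Vale.Agent.P283R.Pq.Cnt67

/-!
# P283R, block TB: the inequality at Gauss places
-/

open Set

noncomputable section

namespace Vale.Agent.P283R.Tb.C85

open Vale.Agent.P287D Vale.Agent.P283M Vale.Agent.P283R.To
open Pq hiding hw0 fs_hm oa_of hwc

variable {c ρ : ℕ} {K : Type} [Field K] [Algebra ℂ K] {ι : Type} {s : Fin c → K} {y : Fin ρ → K}
  {w : ι → Prop} {P : ι → Pl K} {ε : ℝ} {q : ℕ} {κ : ι → ℤ}

/-- a family of places -/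
structure F0 (s : Fin c → K) (y : Fin ρ → K) (w : ι → Prop) (P : ι → Pl K) : Prop where
  rat : D.Rat (fr s y)
  fin : ∀ a : K, {E | w E ∧ (P E).ord a ≠ 0}.Finite

/-- the inequality at the trivial valuation -/
theorem hw0 (X : F0 s y w P) {g : K} (hw : Hw ε q s y w P g κ) (κf : {E | w E ∧ κ E ≠ 0}.Finite)
    (Q : Pl K) (ζ : ι → ℝ) (ζ0 : 0 ≤ ζ) (hζ : ∀ E, ζ E ≠ 0 → w E ∧ ¬ Tv s y (P E))
    (oζ : ∀ u, ∀ x ∈ Hm s y u, x ≠ 0 → ∑ᶠ E, ζ E * (P E).ord x ≤ Q.ord x)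
    (ξ : ι → ℝ) (ξ0 : 0 ≤ ξ) (hξ : ∀ E, ξ E ≠ 0 → w E ∧ ¬ Tv s y (P E))
    (oa : ∀ u, ∀ x ∈ Hm s y u, x ≠ 0 → ∑ᶠ E, ξ E * (P E).ord x ≤ 0) : ∑ᶠ E, ξ E * κ E ≤ 0 := by
  have ad : ∀ (a : ℝ) (F : ι → ℤ), {E | w E ∧ F E ≠ 0}.Finite →
      ∑ᶠ E, (a * ξ E + ζ E) * F E = a * ∑ᶠ E, ξ E * F E + ∑ᶠ E, ζ E * F E := fun a F hF => by
    simp only [add_mul]
    rw [finsum_add_distrib (fs_fin (fun E hE => hξ E (right_ne_zero_of_mul hE)) hF)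
      (fs_fin hζ hF), fs_mul]
  have key : ∀ a : ℝ, 0 ≤ a → ε * q ≤ q * (cz s y Q + 1) - Q.ord g -
      (a * ∑ᶠ E, ξ E * κ E + ∑ᶠ E, ζ E * κ E) := fun a a0 => by
    have := hw Q (fun E => a * ξ E + ζ E) (fun E => add_nonneg (mul_nonneg a0 (ξ0 E)) (ζ0 E))
      (fun E hE => by
        by_cases z : ζ E = 0
        · exact hξ E fun z' => hE (by simp [z, z'])
        · exact hζ E z)
      fun u x hx x0 => by
        rw [ad a (fun E => (P E).ord x) (X.fin x)]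
        linarith [mul_nonpos_of_nonneg_of_nonpos a0 (oa u x hx x0), oζ u x hx x0]
    rwa [ad a κ κf] at this
  by_contra hc
  rw [not_le] at hc
  obtain ⟨m, hm⟩ := exists_nat_gt ((q * (cz s y Q + 1) - Q.ord g - ∑ᶠ E, ζ E * κ E - ε * q) /
    ∑ᶠ E, ξ E * κ E)
  rw [div_lt_iff₀ hc] at hm
  have := key m (Nat.cast_nonneg m)
  linarith

/-- the weighted order of a homogeneous function -/
theorem fs_hm (fac : FAC) (X : F0 s y w P) {ξ : ι → ℝ}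
    (hξ : ∀ E, ξ E ≠ 0 → w E ∧ ¬ Tv s y (P E)) (n : Pg c →₀ ℤ) (u : Fin ρ → ℤ) :
    ∑ᶠ E, ξ E * (P E).ord (hm s y n u) = ∑ j, u j * ∑ᶠ E, ξ E * (P E).ord (y j) +
      ∑ p ∈ n.support, n p * ∑ᶠ E, ξ E * (P E).ord (lam s p) := by
  have f := (fac c ρ K s y X.rat).2.2.2.2.2.2.2.1
  have fi : ∀ (a : ℝ) (x : K), (Function.support fun E => a * ξ E * ((P E).ord x : ℝ)).Finite :=
    fun a x => fs_fin (fun E hE => hξ E (right_ne_zero_of_mul hE)) (X.fin x)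
  simp only [← fs_mul _ _ fun E => (P E).ord _]
  rw [← finsum_sum_comm _ _ fun j _ => fi _ _, ← finsum_sum_comm _ _ fun j _ => fi _ _,
    ← finsum_add_distrib]
  · refine finsum_congr fun E => ?_
    rw [f, Finsupp.sum]
    push_cast
    simp only [mul_add, Finset.mul_sum]
    congr 1 <;> exact Finset.sum_congr rfl fun _ _ => by ring
  · exact ((Finset.univ.finite_toSet.biUnion fun j _ => fi (u j) (y j))).subset
      (Finset.support_sum _ _)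
  · exact ((n.support.finite_toSet.biUnion fun p _ => fi (n p) (lam s p))).subset
      (Finset.support_sum _ _)

/-- it is enough to compare on the frame and on the pages -/
theorem oa_of (fac : FAC) (X : F0 s y w P) {ξ : ι → ℝ}
    (hξ : ∀ E, ξ E ≠ 0 → w E ∧ ¬ Tv s y (P E)) (R : Pl K) (e : ℝ)
    (h1 : ∀ j, ∑ᶠ E, ξ E * (P E).ord (y j) = e * R.ord (y j))
    (h2 : ∀ p, ∑ᶠ E, ξ E * (P E).ord (lam s p) = e * R.ord (lam s p)) :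
    ∀ u, ∀ x ∈ Hm s y u, x ≠ 0 → ∑ᶠ E, ξ E * (P E).ord x = e * R.ord x := fun u x hx x0 => by
  obtain ⟨b, n, b0, rfl⟩ := (fac c ρ K s y X.rat).1 u x hx x0
  simp only [Pl.ord_smul _ b0]
  rw [fs_hm fac X hξ, (fac c ρ K s y X.rat).2.2.2.2.2.2.2.1, Finsupp.sum]
  push_cast
  simp only [h1, h2, mul_add, Finset.mul_sum]
  congr 1 <;> exact Finset.sum_congr rfl fun _ _ => by ring

/-- **the counting inequality**: weights `ξ` with the integral vector `v` and the orders `a p` of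
the pages, at a Gauss place or at the trivial valuation -/
theorem hwc (fac : FAC) (sums : SUMS) (X : F0 s y w P) (ε0 : 0 ≤ ε) {G : (Fin ρ → ℤ) →₀ K}
    (hG : Hg s y G) (g0 : tot G ≠ 0) (hw : Hw ε q s y w P (tot G) κ)
    (κf : {E | w E ∧ κ E ≠ 0}.Finite) (Q : Pl K) (ζ : ι → ℝ) (ζ0 : 0 ≤ ζ)
    (hζ : ∀ E, ζ E ≠ 0 → w E ∧ ¬ Tv s y (P E))
    (oζ : ∀ u, ∀ x ∈ Hm s y u, x ≠ 0 → ∑ᶠ E, ζ E * (P E).ord x ≤ Q.ord x)
    (ξ : ι → ℝ) (ξ0 : 0 ≤ ξ) (hξ : ∀ E, ξ E ≠ 0 → w E ∧ ¬ Tv s y (P E)) (v : Fin ρ → ℤ)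
    (a : Pg c → ℤ) (A : ℤ) (h1 : ∀ j, ∑ᶠ E, ξ E * (P E).ord (y j) = v j)
    (h2 : ∀ p, ∑ᶠ E, ξ E * (P E).ord (lam s p) = a p)
    (H : (v = 0 ∧ (∀ p, a p = 0) ∧ 0 ≤ A) ∨ ∃ (R : Pl K) (e : ℕ), 0 < e ∧ (∀ j, v j = e * R.ord (y j)) ∧
      (∀ p, e * R.ord (lam s p) = a p) ∧ e * (cz s y R + 1) ≤ A) :
    ∃ u, G u ≠ 0 ∧ ∑ᶠ E, ξ E * (P E).ord (G u) + ∑ᶠ E, ξ E * κ E ≤ q * A := by
  obtain ⟨v0, a0, A0⟩ | ⟨R, e, e0, r1, r2, r3⟩ := H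
  · have oa : ∀ u, ∀ x ∈ Hm s y u, x ≠ 0 → ∑ᶠ E, ξ E * (P E).ord x = 0 := fun u x hx x0 => by
      rw [oa_of fac X hξ Q 0 (fun j => by rw [h1, v0]; simp) (fun p => by rw [h2, a0]; simp)
        u x hx x0, zero_mul]
    obtain ⟨u, hu, -⟩ := (sums c ρ K s y X.rat).2.1 G Q g0
    refine ⟨u, hu, ?_⟩
    rw [oa u _ (hG u) hu, zero_add]
    exact (hw0 X hw κf Q ζ ζ0 hζ oζ ξ ξ0 hξ fun u x hx x0 => (oa u x hx x0).le).trans
      (by positivity)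
  · obtain ⟨u, hu, k⟩ := hwg (A := A) sums X.rat ε0 hG g0 hw R e0 (by exact_mod_cast r3) ξ ξ0 hξ
      (oa_of fac X hξ R e (fun j => by rw [h1, r1]; simp) fun p => by rw [h2, ← r2]; simp)
    exact ⟨u, hu, by linarith [mul_nonneg ε0 (Nat.cast_nonneg (α := ℝ) q)]⟩

end Vale.Agent.P283R.Tb.C85
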