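import Vale.Agent.P283R.Pq.Gp67
import Vale.Agent.P283R.Wd.Spl25

/-!
# P283R, block TB: log canonical places of a frame are monomial
-/

set_option linter.unusedSimpArgs false

open Set MvPolynomial Matrix
open Vale.Agent.P285N.Brep (jac Fr)

noncomputable section

namespace Vale.Agent.P283R.Tb.G80

open Vale.Agent.P287D Vale.Agent.P283M Vale.Agent.P283R.To Vale.Agent.P297Z
open Pq (fr cz)

variable {K : Type} [Field K] [Algebra ℂ K] {d c ρ : ℕ} {z : Fin d → K}

/-- no cancellation at a log canonical place of the frame -/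
theorem mono (hK : FF K d) (hz : AlgebraicIndependent ℂ z) {j : Fin c → Fin d}
    (hj : Function.Injective j) {P : Pl K} (hP : la z P ≤ 0) {ι : Type} (ex : ι → Fin c → ℤ)
    (m : ι) (T : Finset ι) : ∀ κ : ι → ℂ, (∀ n ∈ T, ex n ≠ ex m) → κ m ≠ 0 →
      κ m • mon (fun a => z (j a)) (ex m) + ∑ n ∈ T, κ n • mon (fun a => z (j a)) (ex n) ≠ 0 ∧
      P.ord (κ m • mon (fun a => z (j a)) (ex m) + ∑ n ∈ T, κ n • mon (fun a => z (j a)) (ex n)) ≤
        ∑ i, ex m i * P.ord (z (j i)) := by
  classical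
  obtain ⟨D, h⟩ := Cb.fr_of hK hz
  have s0 : ∀ a, z (j a) ≠ 0 := fun a => hz.ne_zero _
  have eu : ∀ i n, z (j i) * D (j i) (mon (fun a => z (j a)) n) =
      (n i : ℂ) • mon (fun a => z (j a)) n := fun i n => by
    rw [der_mon _ s0, Finset.sum_eq_single i (fun a _ q => by
      rw [h.dual, if_neg fun e => q (hj e).symm, zero_div, zero_mul]) (by simp), h.dual,
      if_pos rfl, Algebra.smul_def, map_intCast]
    have := s0 i
    field_simp
  induction T using Finset.induction_on with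
  | empty =>
    intro κ _ k0
    rw [Finset.sum_empty, add_zero, P.ord_smul k0, ord_mon P s0]
    exact ⟨smul_ne_zero k0 (mon_ne s0 _), le_rfl⟩
  | insert a T ha ih =>
    intro κ hm k0
    obtain ⟨i, hi⟩ := Function.ne_iff.1 (hm a (Finset.mem_insert_self _ _))
    obtain ⟨n0, le⟩ := ih (fun n => κ n * (ex n i - ex a i))
      (fun n hn => hm n (Finset.mem_insert_of_mem hn))
      (mul_ne_zero k0 (sub_ne_zero.2 (by exact_mod_cast hi.symm)))
    set F := κ m • mon (fun a => z (j a)) (ex m) +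
      ∑ n ∈ insert a T, κ n • mon (fun a => z (j a)) (ex n) with hF
    set F' := (κ m * (ex m i - ex a i)) • mon (fun a => z (j a)) (ex m) +
      ∑ n ∈ T, (κ n * (ex n i - ex a i)) • mon (fun a => z (j a)) (ex n) with hF'
    have u0 := mon_ne s0 (-ex a)
    have e : z (j i) * D (j i) (F * mon (fun a => z (j a)) (-ex a)) =
        F' * mon (fun a => z (j a)) (-ex a) := by
      rw [hF, hF', Finset.sum_insert ha]
      simp only [add_mul, Finset.sum_mul, smul_mul_assoc, ← mon_add s0, map_add, map_sum,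
        Derivation.map_smul, mul_add, Finset.mul_sum, mul_smul_comm, eu, smul_smul, Pi.sub_apply,
        Pi.zero_apply, Int.cast_sub, Int.cast_zero, ← sub_eq_add_neg, sub_self, mul_zero,
        zero_smul, smul_zero, zero_add]
    have d0 : D (j i) (F * mon (fun a => z (j a)) (-ex a)) ≠ 0 :=
      right_ne_zero_of_mul (e ▸ mul_ne_zero n0 u0)
    have f0 : F ≠ 0 := fun q => d0 (by rw [q, zero_mul, map_zero])
    refine ⟨f0, le_trans ?_ le⟩
    have k := Pq.R80.rep hK h (j i) d0 P
    have k' := congrArg P.ord e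
    rw [Pl.ord_mul _ (s0 i) d0, Pl.ord_mul _ n0 u0] at k'
    rw [Pl.ord_mul _ f0 u0] at k
    have k2 : (P.ord (z (j i)) + P.ord (D (j i) (F * mon (fun a => z (j a)) (-ex a))) : ℝ) =
        P.ord F' + P.ord (mon (fun a => z (j a)) (-ex a)) := by exact_mod_cast k'
    have : (P.ord F : ℝ) ≤ P.ord F' := by
      push_cast at k
      linarith
    exact_mod_cast this

theorem mono_poly (hK : FF K d) (hz : AlgebraicIndependent ℂ z) {j : Fin c → Fin d}
    (hj : Function.Injective j) {P : Pl K} (hP : la z P ≤ 0) {g : MvPolynomial (Fin c) ℂ}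
    {m : Fin c →₀ ℕ} (hm : m ∈ g.support) :
    P.ord (aeval (fun a => z (j a)) g) ≤ ∑ i, m i * P.ord (z (j i)) := by
  classical
  have := (mono hK hz hj hP (fun (n : Fin c →₀ ℕ) i => (n i : ℤ)) m (g.support.erase m)
    (fun n => coeff n g) (fun n hn e => Finset.ne_of_mem_erase hn (Finsupp.ext fun i => by
      exact_mod_cast congrFun e i)) (mem_support_iff.1 hm)).2
  rwa [Finset.add_sum_erase _ (fun n : Fin c →₀ ℕ =>
    coeff n g • mon (fun a => z (j a)) fun i => (n i : ℤ)) hm,
    show ∑ n ∈ g.support, coeff n g • mon (fun a => z (j a)) (fun i => (n i : ℤ)) =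
      aeval (fun a => z (j a)) g by simp only [Pq.G67.aev_eq, mon, zpow_natCast]] at this

variable {s x : Fin c → K} {y : Fin ρ → K}

theorem mono_fr (h : D.Rat (fr x y)) {P : Pl K} (hP : la (fr x y) P ≤ 0)
    {g : MvPolynomial (Fin c) ℂ} {m : Fin c →₀ ℕ} (hm : m ∈ g.support) :
    P.ord (aeval x g) ≤ ∑ i, m i * P.ord (x i) := by
  simpa only [Pq.I80.fr_l] using mono_poly h.ff h.ind (Fin.castAdd_injective c ρ) hP hm

/-- two monomial places with proportional weights -/
theorem cmp (h : D.Rat (fr x y)) {R R₁ : Pl K} {e e₁ t : ℕ} (hR : la (fr x y) R ≤ 0)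
    (h₁ : e₁ = 0 ∨ la (fr x y) R₁ ≤ 0)
    (hw : ∀ i, e * R.ord (x i) = t * (e₁ * R₁.ord (x i))) {φ : K}
    (hφ : φ ∈ IntermediateField.adjoin ℂ (range x)) (φ0 : φ ≠ 0) :
    e * R.ord φ = t * (e₁ * R₁.ord φ) := by
  have x0 := Pq.I80.s_ne h.ind
  have k : ∀ g, aeval x g ≠ 0 → e * R.ord (aeval x g) = t * (e₁ * R₁.ord (aeval x g)) :=
    fun g g0 => by
      have sm : ∀ m : Fin c →₀ ℕ, (e : ℤ) * ∑ i, m i * R.ord (x i) =
          t * (e₁ * ∑ i, m i * R₁.ord (x i)) := fun m => by
        simp only [Finset.mul_sum]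
        exact Finset.sum_congr rfl fun i _ => by linear_combination (m i : ℤ) * hw i
      refine le_antisymm ?_ ?_
      · obtain ⟨m, hm, a⟩ := Pq.G67.exm R₁ x0 g0
        exact (mul_le_mul_of_nonneg_left (mono_fr h hR hm) (Int.natCast_nonneg e)).trans
          ((sm m).trans_le (by gcongr))
      · obtain ⟨m, hm, a⟩ := Pq.G67.exm R x0 g0
        refine le_trans ?_ ((sm m).symm.trans_le (by gcongr))
        rcases h₁ with rfl | h₁
        · simp
        · have := mono_fr h h₁ hm
          gcongr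
  obtain ⟨p, q, rfl⟩ := (IntermediateField.mem_adjoin_range_iff ℂ x φ).1 hφ
  have p0 := (div_ne_zero_iff.1 φ0).1
  have q0 := (div_ne_zero_iff.1 φ0).2
  rw [Pl.ord_div _ p0 q0, Pl.ord_div _ p0 q0]
  linear_combination k p p0 - k q q0

/-- change of the basis of the lattice of the invariant part -/
theorem bas (h : D.Rat (fr s y)) {A B : Matrix (Fin c) (Fin c) ℤ} (hB : B * A = 1) :
    D.Rat (fr (fun i => mon s (A i)) y) ∧
      ∀ P, la (fr (fun i => mon s (A i)) y) P = la (fr s y) P := by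
  let bl : Matrix (Fin c) (Fin c) ℤ → Matrix (Fin (c + ρ)) (Fin (c + ρ)) ℤ := fun M =>
    (Matrix.fromBlocks M 0 0 1).submatrix finSumFinEquiv.symm finSumFinEquiv.symm
  have hB' : bl B * bl A = 1 := by
    simp only [bl, Matrix.submatrix_mul_equiv, Matrix.fromBlocks_multiply, hB, Matrix.mul_zero,
      Matrix.zero_mul, add_zero, zero_add, Matrix.mul_one, Matrix.fromBlocks_one,
      Matrix.submatrix_one_equiv]
  have e : (fr (fun i => mon s (A i)) y) = fun i => mon (fr s y) (bl A i) := funext fun i => by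
    rw [mon, Fin.prod_univ_add]
    refine Fin.addCases (fun i => ?_) (fun i => ?_) i
    · simp [bl, fr, mon]
    · simp only [bl, fr, Fin.append_left, Fin.append_right, Matrix.submatrix_apply,
        finSumFinEquiv_symm_apply_castAdd, finSumFinEquiv_symm_apply_natAdd,
        Matrix.fromBlocks_apply₂₁, Matrix.fromBlocks_apply₂₂, Matrix.zero_apply, zpow_zero,
        Finset.prod_const_one, one_mul]
      rw [Finset.prod_eq_single i (fun a _ q => by rw [Matrix.one_apply_ne' q, zpow_zero])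
        (by simp), Matrix.one_apply_eq, zpow_one]
  exact ⟨e ▸ rat_bas h hB', fun P => e ▸ la_mon h.ff h.ind (det_ne hB') P⟩

/-- Laurent polynomials -/
theorem lp {u : Fin c → K} (u0 : ∀ i, u i ≠ 0) {φ : K} (h : φ ∈ Submodule.span ℂ (range (mon u))) :
    ∃ (T : ℕ) (g : MvPolynomial (Fin c) ℂ), φ * (∏ i, u i) ^ T = aeval u g := by
  induction h using Submodule.span_induction with
  | mem a ha =>
    obtain ⟨n, rfl⟩ := ha
    refine ⟨∑ i, (n i).natAbs, ∏ i, X i ^ (n i + ∑ i, (n i).natAbs).toNat, ?_⟩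
    rw [map_prod, mon, ← Finset.prod_pow, ← Finset.prod_mul_distrib]
    refine Finset.prod_congr rfl fun i _ => ?_
    have := Finset.single_le_sum (f := fun i => (n i).natAbs) (fun _ _ => Nat.zero_le _)
      (Finset.mem_univ i)
    rw [map_pow, aeval_X, ← zpow_natCast, ← zpow_natCast, ← zpow_add₀ (u0 i),
      Int.toNat_of_nonneg (by omega)]
  | zero => exact ⟨0, 0, by simp⟩
  | add a b _ _ p q =>
    obtain ⟨T, g, e⟩ := p
    obtain ⟨T', g', e'⟩ := q
    refine ⟨T + T', g * (∏ i, X i) ^ T' + g' * (∏ i, X i) ^ T, ?_⟩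
    simp only [map_add, map_mul, map_pow, map_prod, aeval_X, ← e, ← e']
    ring
  | smul b a _ p =>
    obtain ⟨T, g, e⟩ := p
    exact ⟨T, b • g, by rw [map_smul, ← e, smul_mul_assoc]⟩

/-- the degree place at a point -/
theorem pt {u : Fin c → K} {a : Fin c → ℂ} {R : Pl K} {e : ℕ}
    (hw : ∀ i, e * R.ord (u i - algebraMap ℂ K (a i)) = 1) (g : MvPolynomial (Fin c) ℂ) :
    (aeval a g = 0 → aeval u g ≠ 0 → 1 ≤ e * R.ord (aeval u g)) ∧
      (aeval a g ≠ 0 → aeval u g ≠ 0 ∧ e * R.ord (aeval u g) = 0) := by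
  let sh : MvPolynomial (Fin c) ℂ →ₐ[ℂ] MvPolynomial (Fin c) ℂ := aeval fun i => X i + C (a i)
  have e1 : ∀ f, aeval (fun i => u i - algebraMap ℂ K (a i)) (sh f) = aeval u f := fun f => by
    rw [comp_aeval_apply]
    simp
  have e2 : ∀ f, coeff 0 (sh f) = aeval a f := fun f => by
    have := comp_aeval_apply (fun i => X i + C (a i) : Fin c → MvPolynomial (Fin c) ℂ)
      (aeval fun _ => (0 : ℂ)) f
    rw [aeval_zero'] at this
    simpa [sh, constantCoeff_eq] using this
  have k : ∀ g, aeval a g = 0 → aeval u g ≠ 0 → 1 ≤ e * R.ord (aeval u g) := fun g z n => by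
    obtain ⟨m, hm, k⟩ := Pq.G67.exm R (s := fun i => u i - algebraMap ℂ K (a i))
      (fun i q => by simpa [q] using hw i) (f := sh g) (e1 g ▸ n)
    obtain ⟨i, hi⟩ := Finsupp.ne_iff.1 (show m ≠ 0 by
      rintro rfl
      exact mem_support_iff.1 hm ((e2 g).trans z))
    rw [e1] at k
    refine le_trans ?_ (mul_le_mul_of_nonneg_left k (Int.natCast_nonneg e))
    simp only [Finset.mul_sum, mul_left_comm (e : ℤ), hw, mul_one]
    exact le_trans (by exact_mod_cast Nat.pos_of_ne_zero hi)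
      (Finset.single_le_sum (f := fun i => (m i : ℤ)) (fun _ _ => Int.natCast_nonneg _)
        (Finset.mem_univ i))
  refine ⟨k g, fun n => ?_⟩
  have c0 : algebraMap ℂ K (aeval a g) ≠ 0 := (map_ne_zero _).2 n
  have e3 : aeval u g = algebraMap ℂ K (aeval a g) + aeval u (g - C (aeval a g)) := by simp
  by_cases q : aeval u (g - C (aeval a g)) = 0
  · rw [e3, q, add_zero, R.ord_const, mul_zero]
    exact ⟨c0, rfl⟩
  have p : 0 < R.ord (aeval u (g - C (aeval a g))) := by
    have := k (g - C (aeval a g)) (by simp) q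
    by_contra n
    nlinarith [Int.natCast_nonneg e, not_lt.1 n]
  refine ⟨fun z => ?_, ?_⟩
  · rw [e3, add_eq_zero_iff_neg_eq] at z
    rw [← z, ← map_neg, R.ord_const] at p
    exact p.false
  · rw [e3, Pl.ord_add_eq_of_lt _ c0 q (by rwa [R.ord_const]), R.ord_const, mul_zero]

end Vale.Agent.P283R.Tb.G80
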