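import Vale.Agent.P283R.Tb.Cnt85

/-!
# P283R, block TB: places over coordinate pages and over infinity are monomial
-/

open Set

noncomputable section

namespace Vale.Agent.P283R.Tb.C85

open Vale.Agent.P287D Vale.Agent.P283M Vale.Agent.P283R.To Vale.Agent.P297Z Pq
open MvPolynomial

variable {c ρ : ℕ} {K : Type} [Field K] [Algebra ℂ K] {s : Fin c → K} {y : Fin ρ → K} {E : Pl K}

theorem mn_co (h : D.Rat (fr s y)) {p : Pg c} (a : At s E (some p)) (n : ¬ Nc p) : Mn s E := by
  classical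
  obtain ⟨-, -, -, -, -, f6, -, -, -, f10, -⟩ := fac c ρ K s y h
  obtain ⟨-, -, -, -, z5, -⟩ := czr c ρ K s y h
  obtain ⟨i, hi⟩ : ∃ i, p.l ∣ X i := by simpa [Nc] using n
  intro f m hm
  obtain ⟨b, k, b0, e⟩ := (pol c).2.2.1 f (by rintro rfl; simp at hm)
  have l0 := F60.lam_ne (F60.ind_s h.ind)
  have o : E.ord (aeval s f) = k p * mu s E (some p) := by
    rw [e, map_smul, Pl.ord_smul _ b0, Finsupp.prod, map_prod,
      E.ord_prod _ fun p' _ => by rw [map_pow]; exact pow_ne_zero _ (l0 p'),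
      Finset.sum_eq_single p (fun p' _ z => by
        rw [map_pow, Pl.ord_pow, show E.ord (aeval s p'.l) = 0 from at_ne a z, mul_zero])
        (fun z => by rw [Finsupp.notMem_support_iff.1 z]; simp), map_pow, Pl.ord_pow]
    rfl
  have d : X i ^ k p ∣ f := by
    rw [e, smul_eq_C_mul]
    refine Dvd.dvd.mul_left ?_ _
    by_cases z : p ∈ k.support
    · exact (pow_dvd_pow_of_dvd (((pol c).1 p).1.irreducible.dvd_symm
        (X_prime (R := ℂ) (i := i)).irreducible hi) _).trans (Finset.dvd_prod_of_mem _ z)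
    · rw [Finsupp.notMem_support_iff.1 z, pow_zero]
      exact one_dvd _
  obtain ⟨g, rfl⟩ := d
  have le : k p ≤ m i := by
    have := mem_support_iff.1 hm
    rw [X_pow_eq_monomial, coeff_monomial_mul'] at this
    exact Finsupp.single_le_iff.1 (by_contra fun z => this (if_neg z))
  obtain ⟨b', n', b0', n0, -, k1, e'⟩ := f10 (X i) (X_ne_zero i)
  rw [aeval_X] at e'
  have o' : mu s E (some p) ≤ E.ord (s i) := by
    rw [e', Pl.ord_smul _ b0', f6 _ _ _ _ a, od]
    have := (n0 p).lt_of_ne' fun z => (k1 p).1 z hi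
    simpa using le_mul_of_one_le_right a.1.le this
  rw [o]
  exact (mul_le_mul (Nat.cast_le.2 le) o' a.1.le (Nat.cast_nonneg _)).trans
    (Finset.single_le_sum (f := fun j => (m j : ℤ) * E.ord (s j))
      (fun j _ => mul_nonneg (Nat.cast_nonneg _) (z5 E (.inr ⟨p, a⟩) j)) (Finset.mem_univ i))

theorem pg_nc (h : D.Rat (fr s y)) (k : Mn s E ∨ ∃ p, At s E (some p)) :
    Mn s E ∨ ∃ p, Nc p ∧ At s E (some p) := by
  obtain k | ⟨p, k⟩ := k
  · exact .inl k
  · by_cases n : Nc p
    exacts [.inr ⟨p, n, k⟩, .inl (mn_co h k n)]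

theorem not_mn (h : D.Rat (fr s y)) {p : Pg c} (a : At s E (some p)) (n : Nc p) : ¬ Mn s E :=
  fun k => by
    obtain ⟨m, hm⟩ := support_nonempty.2 (F60.irr p).ne_zero
    have := k _ m hm
    simp only [s0 h n a, mul_zero, Finset.sum_const_zero] at this
    exact this.not_gt a.1

end Vale.Agent.P283R.Tb.C85
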