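import Vale.Agent.P283R.Tb.All
import Vale.Agent.P283R.Tq.Cmp48
import Vale.Agent.P283R.Sl.Oq
import Vale.Agent.P283R.Sl.Sq5
import Vale.Agent.P283R.Cq.All
import Vale.Agent.P283R.Sl.Un3

/-!
# P283R, block TB: toric surfaces as orbit spaces
-/

open Set CategoryTheory AlgebraicGeometry

noncomputable section

namespace Vale.Agent.P283R.Tb.O52

open Vale.Agent.P287D Vale.Agent.P283M Vale.Agent.P297Z Vale.Agent.P283R.To Vale.Agent.P283R.Gl

theorem nn {L K : Type} [Field L] [Algebra ℂ L] [Field K] [Algebra ℂ K] (φ : L →ₐ[ℂ] K)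
    (P : Pl K) (p : Pl L) (μ : ℤ) (h : ∀ c, P.ord (φ c) = μ * p.ord c) : 0 ≤ μ := by
  refine not_lt.1 fun z => ?_
  obtain ⟨t0, t1⟩ := Bm.ord_t p
  have a := h (p.t + 1)
  rw [map_add, map_one, P.ord_add_eq_of_lt ((map_ne_zero φ).2 t0) one_ne_zero
    (by rw [h, t1]; simpa using z), h, t1, add_comm,
    p.ord_add_eq_of_lt one_ne_zero t0 (by rw [t1]; simp)] at a
  exact absurd (by simpa using a) z.ne

variable {Y : Stm.Var} {d : ℕ} {s : Fin d → Y.K}

/-- the prime divisors of a toric variety -/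
theorem prm (h : TorY ⊤ s) (F : Y.PrimeDiv) :
    (∃ l : MvPolynomial (Fin d) ℂ, Prime l ∧
      ∀ g, ¬ l ∣ g → (pq F).ord (MvPolynomial.aeval s g) = 0) ∨
    ∀ g : MvPolynomial (Fin d) ℂ, ∀ a ∈ g.support,
      (pq F).ord (MvPolynomial.aeval s g) ≤ ∑ i, a i * (pq F).ord (s i) := by
  have hr := h.rat (x := F.1) trivial
  have h0 := hr.ind.ne_zero
  by_cases z : ∀ i, (pq F).ord (s i) = 0
  · have tp := h.tpr (E := F) trivial z
    obtain ⟨t0, t1⟩ := Bm.ord_t (pq F)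
    obtain ⟨p, q, u, e⟩ := Pri.mem_loc h0 tp ((Pl.ord_nonneg_iff _ t0).1 (t1 ▸ zero_le_one))
    have p0 : MvPolynomial.aeval s p ≠ 0 := e ▸ mul_ne_zero t0 u.1
    obtain ⟨π, hπ, o⟩ := Pri.exists_prime hr z p (fun z => p0 (by rw [z, map_zero]))
      (by rw [← e, Pl.ord_mul _ t0 u.1, t1, u.2, add_zero])
    exact .inl ⟨π, hπ, fun g n => le_antisymm (not_lt.1 fun w => n (Pri.dvd hr tp hπ
      (o ▸ zero_lt_one) (fun k => n (k ▸ dvd_zero π)) w))
      (Pl.ord_nonneg_of_mem _ (Pri.aev_mem h0 z g))⟩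
  · refine .inr fun g a ha => ?_
    let e : (Fin d →₀ ℕ) ↪ (Fin d → ℤ) := ⟨fun a i => a i, fun a b k => Finsupp.ext fun i =>
      Nat.cast_injective (congrFun k i)⟩
    let f : (Fin d →₀ ℕ) →₀ ℂ := ⟨g.support, fun a => g.coeff a,
      fun _ => MvPolynomial.mem_support_iff⟩
    have k := h.ray (E := F) trivial z (g := f.embDomain e) (m := e a) (by
      rw [Finsupp.support_embDomain]
      exact Finset.mem_map_of_mem _ ha)
    rw [lau, Finsupp.sum_embDomain, ord_mon _ h0] at k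
    rw [MvPolynomial.aeval_def, MvPolynomial.eval₂_eq']
    refine le_of_eq_of_le (congrArg _ (Finset.sum_congr rfl fun b _ => ?_)) k
    rw [← Algebra.smul_def]
    exact congrArg _ (Finset.prod_congr rfl fun i _ => (zpow_natCast _ _).symm)

end Vale.Agent.P283R.Tb.O52

namespace Vale.Agent.P283R.Sl

open Var Tb.O52 Vale.Agent.P283R.Gl

theorem OrbitQuot.old {l : ℕ} {X : Var} {V : X.X.Opens} (h : OrbitQuot l V) (x : Pt X.X)
    (hx : x.In V) : CoxBase l V ∨ ToricBase V := by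
  classical
  obtain ⟨Y, φ, r, y, a, b, ⟨s, t⟩ | ⟨k, D, c, e⟩⟩ := h
  swap
  · exact .inl ⟨Y, φ, r, k, y, D, a, b, c, e⟩
  obtain ⟨-, -, -, -, ⟨ψ, rfl, iy⟩, -⟩ := a x hx
  have hs : AlgebraicIndependent ℂ s := by
    obtain ⟨-, -, -, ⟨ψ₀, e0, i⟩, -⟩ := t (genericPoint Y.X)
    refine algebraicIndependent_iff.2 fun p hp => i p ?_
    rwa [show (ψ₀ : ℂ →+* Y.K) = algebraMap ℂ Y.K from RingHom.ext (congrFun e0)]
  have ty : TorY (X := Y.o) ⊤ s := ⟨hs, fun x _ => by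
    obtain ⟨U, u1, u2, -, u3⟩ := t x
    obtain ⟨S, e, k⟩ := Tq.ring_reg (X := Y.o) hs u1 u2 fun g hg =>
      Submodule.span_mono (by
        rintro _ ⟨i, c, m, j⟩
        exact ⟨i, _, IntermediateField.algebraMap_mem _ c, m, j⟩) (u3 g hg)
    exact ⟨U, le_top, u1, u2, S, e, fun g => Set.ext_iff.1 k g⟩⟩
  have hr := ty.rat (x := genericPoint Y.X) trivial
  let _ : Algebra Y.K X.K := ψ.toRingHom.toAlgebra
  have : IsScalarTower ℂ Y.K X.K := .of_algebraMap_eq fun c => (ψ.commutes c).symm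
  have ai : AlgebraicIndependent Y.K y := algebraicIndependent_iff.2 iy
  have ev : ∀ g, MvPolynomial.aeval (fun i => ψ (s i)) g = ψ (MvPolynomial.aeval s g) := fun g =>
    (MvPolynomial.comp_aeval_apply s ψ g).symm
  have fi : {E : X.PrimeDiv | ∃ i, ord (ψ (s i)) E ≠ 0}.Finite :=
    (finite_iUnion fun i => P283M.Br.fin X.o (ψ (s i))).subset fun E ⟨i, k⟩ =>
      mem_iUnion.2 ⟨i, k⟩
  obtain ⟨N, hN⟩ : ∃ N : Finset (Fin 2 → ℤ), ∀ E : X.PrimeDiv, (fun i => ord (ψ (s i)) E) ∈ N := by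
    refine ⟨insert 0 (fi.toFinset.image fun E i => ord (ψ (s i)) E), fun E => ?_⟩
    by_cases z : ∃ i, ord (ψ (s i)) E ≠ 0
    · exact Finset.mem_insert_of_mem (Finset.mem_image_of_mem _ (fi.mem_toFinset.2 z))
    · exact Finset.mem_insert.2 (.inl (funext fun i => by_contra fun n => z ⟨i, n⟩))
  refine .inr ⟨2, r, fun i => ψ (s i), y, N, ?_, .inl le_rfl, fun x hx => ?_, fun E hE => ?_⟩
  · have := (hs.sumElim_comp ai).comp _
      (finSumFinEquiv.symm.trans (Equiv.sumComm _ _)).injective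
    refine (congrArg (fun z => AlgebraicIndependent ℂ (A := X.K) z) (funext fun i => ?_)).mp this
    induction i using Fin.addCases
    · simp
      rfl
    · simp
  · obtain ⟨U, u1, u2, u3, -, u4⟩ := a x hx
    refine ⟨U, u1, u2, u3, fun g hg => Submodule.span_mono ?_ (u4 g hg)⟩
    rintro _ ⟨i, c, m, j⟩
    refine ⟨i, ψ c, ?_, m, j⟩
    have := IntermediateField.adjoin_map ℂ (range s) ψ
    rw [← range_comp] at this
    exact this ▸ mem_image_of_mem ψ (hr.gen c)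
  · obtain z | ⟨F, μ, z⟩ := b E hE
    · exact .inr ⟨_, hN E, ⟨1, fun i => by simp⟩, fun g a _ => by simp [ev, z]⟩
    have eF : ∀ g : Y.K, ord g F = (pq (X := Y.o) F).ord g := pq_ord (X := Y.o) F
    have eE : ∀ g : X.K, ord g E = (pq (X := X.o) E).ord g := pq_ord (X := X.o) E
    obtain ⟨π, p1, p2⟩ | k := prm ty F
    · exact .inl ⟨π, p1, fun g n => by
        rw [ev, z, eF]
        exact mul_eq_zero_of_right _ (p2 g n)⟩
    · refine .inr ⟨_, hN E, ⟨1, fun i => by simp⟩, fun g a ha => ?_⟩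
      have m0 := nn ψ (pq (X := X.o) E) (pq (X := Y.o) F) μ fun c => by rw [← eE, z, eF]
      simp only [ev, z, eF, mul_left_comm _ μ, ← Finset.mul_sum]
      exact mul_le_mul_of_nonneg_left (k g a ha) m0

/-- orbit spaces which are toric surfaces or have few Cox generators -/
theorem onN_oq (M : ℕ → ℕ) :
    OnN fun d _ _ f _ _ z => ∃ V, z.In V ∧ OrbitQuot (M d) (pre f V) := by
  intro d hd ε hε R hR
  obtain ⟨n, hn, H⟩ := ((on_cxq M).or on_tb) d hd ε hε R hR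
  refine ⟨n, hn, fun X Z f ω B z a b c i s t ⟨u, v, V, p, q⟩ => H X Z f ω B z a b c i s t ?_⟩
  obtain ⟨x, hx⟩ := s.2.2.1.surj z
  have k : Pt.In x (pre f V) := show f x ∈ V from hx ▸ p
  exact (q.old x k).imp (fun j => ⟨u, v, V, p, j.old x k⟩) fun j => ⟨u, v, V, p, j⟩

end Vale.Agent.P283R.Sl
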