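import Vale.Agent.P283R.Tb.St

/-!
# P283R, block TB: the package of a pair
-/

open Set

noncomputable section

namespace Vale.Agent.P283R.Tb

open Vale.Agent.P287D Vale.Agent.P283M Vale.Agent.P283M.Br Cx Cy
open Pq (Tv At cz)
open Pq.H45 (fs_ext)
open Wc (Lk)

namespace C46

/-- the inequality on the tier -/
theorem hw_tier {n q c ρ : ℕ} {ε : ℝ} {K : Type}
    [Field K] [Algebra ℂ K] {ι : Type} {u : Finset K} {Λ Γ Γ' : BD K} {s : Fin c → K}
    {y : Fin ρ → K} {w : ι → Prop} {P : ι → Pl K} (hq : 0 < q) (hn : c + ρ = n + 1)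
    (a : Dat n u Λ Γ Γ') (fm : Fm s y w P) (inj : Function.Injective P)
    (oo : ∀ E, w E → P E ∈ Cx.Tt n u Λ) (lc : ∀ R, Ov u R → ε ≤ 1 + dsc (n + 1) Γ R)
    (nf : NefO n K u (-Γ)) {g : K} {κ : ι → ℤ}
    (hκ : ∀ E, w E → (κ E : ℝ) = q * cz s y (P E) - q * dsc (n + 1) Γ (P E) - (P E).ord g)
    (κ0 : ∀ E, w E → Tv s y (P E) → κ E = 0) : Pq.Hw ε q s y w P g κ := by
  classical
  intro Q ξ ξ0 hξ hQ
  obtain ⟨-, -, -, -, -, h, -, ec⟩ := Pq.czr _ _ _ s y fm.rat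
  rw [hn] at ec
  have q0 : (0 : ℝ) < q := Nat.cast_pos.2 hq
  have fi : ∀ b : K, (Function.support fun E => ξ E * ((P E).ord b : ℝ)).Finite := fun b =>
    (fm.fin b).subset fun E c => ⟨(hξ E (left_ne_zero_of_mul c)).1,
      Int.cast_ne_zero.1 (right_ne_zero_of_mul c)⟩
  have eψ : ∀ E, w E → (dv h + (q : ℝ)⁻¹ • dv g - Γ) (P E) = -(q : ℝ)⁻¹ * κ E := fun E c => by
    have x' := hκ E c
    have x'' := ec (P E)
    simp only [dsc, Pi.sub_apply, Pi.add_apply, Pi.smul_apply, smul_eq_mul, dv_apply] at x' ⊢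
    rw [x', x'']
    field_simp
    ring
  obtain ⟨o, k⟩ := C3.conv n K u Λ Γ Γ' (fun R => ∃ E, (w E ∧ Tv s y (P E)) ∧ P E = R)
    (Function.extend P ξ 0) Q a (by rintro _ ⟨E, c, rfl⟩; exact oo E c.1)
    (fun R => by
      by_cases c : ∃ E, P E = R
      · obtain ⟨E, rfl⟩ := c
        rw [inj.extend_apply]
        exact ξ0 E
      · rw [Function.extend_apply' _ _ _ c])
    (fun R r => by
      obtain ⟨E, rfl⟩ : ∃ E, P E = R := by_contra fun c => r (Function.extend_apply' _ _ _ c)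
      rw [inj.extend_apply] at r
      exact oo E (hξ E r).1)
    (fun c hc => by
      obtain ⟨φ, φ0, e⟩ := fm.eqn (fun E => if w E ∧ Tv s y (P E) then c (P E) else 0)
        ((hc.preimage inj.injOn).subset fun E r => by
          have m : w E ∧ Tv s y (P E) := by_contra fun m => r (if_neg m)
          exact ⟨⟨E, m, rfl⟩, (if_pos m).symm.trans_ne r⟩)
      exact ⟨φ, φ0, by rintro _ ⟨E, m, rfl⟩; exact (e E m.1 m.2).trans (if_pos m)⟩)
    fun b b0 hb => by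
      obtain ⟨G, hG, rfl⟩ := fm.lau b b0 fun E c t => hb _ ⟨E, ⟨c, t⟩, rfl⟩
      obtain ⟨v, v0, e⟩ := (Pq.sums _ _ _ s y fm.rat).2.1 G Q b0
      rw [fs_ext inj]
      refine le_trans (finsum_le_finsum' (fi _) (fi (G v)) fun E => ?_)
        ((hQ v _ (hG v) v0).trans (Int.cast_le.2 e))
      by_cases c : ξ E = 0
      · simp [c]
      · exact mul_le_mul_of_nonneg_left
          (Int.cast_le.2 (fm.inv E (hξ E c).1 (hξ E c).2 G hG v v0)) (ξ0 E)
  replace k := k (dv h + (q : ℝ)⁻¹ • dv g - Γ)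
    (sub_mem (add_mem (dv_mem_Car _) (Submodule.smul_mem _ _ (dv_mem_Car _))) a.dn.car) (-Γ')
    (neg_mem a.dn'.car) (fun δ e => by
      obtain ⟨γ, s, f⟩ := Br.klr a a.dn.neg nf e
      refine ⟨dv h + (q : ℝ)⁻¹ • dv g + γ,
        ((smp_dv h).add ((smp_dv _).smul (inv_pos.2 q0).le)).add s, fun P o => ?_⟩
      have := f P o
      simp only [Pi.add_apply, Pi.sub_apply, Pi.smul_apply, Pi.neg_apply, smul_eq_mul] at this ⊢
      linarith)
    (by
      rintro _ ⟨E, c, rfl⟩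
      rw [eψ E c.1, κ0 E c.1 c.2, Int.cast_zero, mul_zero])
  have e : ∑ᶠ E, ξ E * (dv h + (q : ℝ)⁻¹ • dv g - Γ) (P E) = -(q : ℝ)⁻¹ * ∑ᶠ E, ξ E * κ E := by
    rw [mul_finsum]
    refine finsum_congr fun E => ?_
    by_cases c : ξ E = 0
    · simp [c]
    · rw [eψ E (hξ E c).1, mul_left_comm]
  rw [fs_ext inj, e] at k
  have l := lc Q o
  have x := ec Q
  simp only [dsc, Pi.sub_apply, Pi.add_apply, Pi.smul_apply, smul_eq_mul, dv_apply] at k l
  have k' := mul_le_mul_of_nonneg_left k q0.le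
  rw [neg_mul, mul_neg, mul_inv_cancel_left₀ q0.ne', mul_sub, mul_add,
    mul_inv_cancel_left₀ q0.ne'] at k'
  nlinarith [mul_le_mul_of_nonneg_left l q0.le]

/-- the family as a set of places -/
theorem fm_set {K ι : Type} [Field K] [Algebra ℂ K] {c ρ : ℕ} {s : Fin c → K} {y : Fin ρ → K}
    {w : ι → Prop} {P : ι → Pl K} {T : Set (Pl K)} (fm : Fm s y w P) (inj : Function.Injective P)
    (h : ∀ R, R ∈ T ↔ ∃ E, w E ∧ P E = R) : Fm s y (· ∈ T) id := by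
  have al : ∀ {p : Pl K → Prop}, (∀ E, w E → p (P E)) → ∀ R ∈ T, p R := fun k R r => by
    obtain ⟨E, e, rfl⟩ := (h R).1 r
    exact k E e
  have fi : ∀ {p : Pl K → Prop}, {E | w E ∧ p (P E)}.Finite → {R | R ∈ T ∧ p R}.Finite :=
    fun k => (k.image P).subset fun R r => by
      obtain ⟨E, e, rfl⟩ := (h R).1 r.1
      exact ⟨E, ⟨e, r.2⟩, rfl⟩
  refine ⟨fm.rat, fun a => fi (p := fun R => R.ord a ≠ 0) (fm.fin a),
    fi (p := fun R => cz s y R ≠ 0) fm.finc, al fm.inv,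
    fun φ φ0 k => fm.lau φ φ0 fun E e => k (P E) ((h _).2 ⟨E, e, rfl⟩), fun a ha => ?_,
    al fm.kt, fm.mis.subset fun p k ⟨E, e, t⟩ => k ⟨P E, (h _).2 ⟨E, e, rfl⟩, t⟩, al fm.pg,
    fun A hA => fm.gen A fun R r => ⟨(hA R r).1, let ⟨_, t, e⟩ := (hA R r).2; (h R).1 (e ▸ t)⟩⟩
  obtain ⟨φ, φ0, e⟩ := fm.eqn (a ∘ P) (ha.preimage inj.injOn)
  exact ⟨φ, φ0, al e⟩

end C46

open C46 in
theorem cd046 : CD0 := by
  classical
  intro n K _ _ u Λ Γ Γ' a q c ρ ε ι s y w P hq hε hn fm inj hT co lc nf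
  replace fm := fm_set fm inj hT
  obtain ⟨-, -, -, -, -, j, j0, ec⟩ := Pq.czr _ _ _ s y fm.rat
  rw [hn] at ec
  let m : Pl K → ℤ := fun R => ⌊q * dsc (n + 1) Γ R⌋
  have em : ∀ R ∈ Tt n u Λ, (m R : ℝ) = q * dsc (n + 1) Γ R := fun R r => by
    obtain ⟨k, e⟩ := (co R r).2
    simp only [m, e, Int.floor_intCast]
  have m0 : ∀ R ∈ Tt n u Λ, m R ≤ 0 := fun R r => Int.cast_nonpos (R := ℝ).1
    ((em R r).trans_le (mul_nonpos_of_nonneg_of_nonpos q.cast_nonneg (co R r).1))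
  have fi : {R | R ∈ Tt n u Λ ∧ m R ≠ 0}.Finite :=
    ((fm.finc.union (fm.fin j)).union (To.Cv.fin_car a a.dn.car)).subset fun R ⟨t, z⟩ => by
      by_contra k
      simp only [mem_union, mem_ofPred_eq, not_or, not_and, not_not, id] at k
      refine z ?_
      simp only [m, dsc, Pi.sub_apply, ec, k.1.1 t, k.1.2 t, k.2 t.2]
      simp
  obtain ⟨g, g0, eg⟩ := fm.eqn (fun R => if R ∈ Tt n u Λ then -m R else 0)
    (fi.subset fun R r => by
      have t : R ∈ Tt n u Λ := by_contra fun t => r (if_neg t)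
      exact ⟨t, neg_ne_zero.1 ((if_pos t).symm.trans_ne r)⟩)
  replace eg : ∀ R ∈ Tt n u Λ, Tv s y R → R.ord g = -m R := fun R r t =>
    (eg R r t).trans (if_pos r)
  have fk : {R | R ∈ Tt n u Λ ∧ q * cz s y R - m R - R.ord g ≠ 0}.Finite :=
    ((fm.finc.union fi).union (fm.fin g)).subset fun R ⟨t, z⟩ => by
      by_contra k
      simp only [mem_union, mem_ofPred_eq, not_or, not_and, not_not, id] at k
      exact z (by rw [k.1.1 t, k.1.2 t, k.2 t]; simp)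
  have k0 : ∀ R ∈ Tt n u Λ, Tv s y R → q * cz s y R - m R - R.ord g = 0 := fun R r t => by
    rw [eg R r t, show cz s y R = 0 from fm.kt R r t]
    simp
  have lk : Lk n q Γ (cz s y) (Tt n u Λ) g fun R => q * cz s y R - m R - R.ord g :=
    ⟨⟨j, j0, ec⟩, fm.finc, fk, g0, fun R r => by rw [← em R r]; push_cast; rfl⟩
  exact ⟨g, _, lk, hn, fm, g0, fun R r t => ⟨eg R r t ▸ neg_nonneg.2 (m0 R r), k0 R r t⟩, fk,
    fun R r => by linarith [m0 R r],
    hw_tier hq hn a fm Function.injective_id (fun _ r => r) lc nf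
      lk.eq k0, Wc.avr95 Wc.cox36 Wc.loc24 n K u Λ Γ Γ' a q ε _ g _ hq hε lk
      (fun R r => (co R r).1) lc nf⟩

end Vale.Agent.P283R.Tb
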