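import Vale.Agent.P283R.Tb.Hg85

/-!
# P283R, block TB: the count of the pages
-/

open Set

noncomputable section

namespace Vale.Agent.P283R.Tb.C85

open Vale.Agent.P287D Vale.Agent.P283M Vale.Agent.P283R.To Vale.Agent.P297Z
open Pq hiding hw0 fs_hm oa_of hwc
open MvPolynomial (aeval X)
open C67 (le_fs den)

variable {c ρ : ℕ} {K : Type} [Field K] [Algebra ℂ K] {s : Fin c → K} {y : Fin ρ → K}
  {T : Set (Pl K)} {ε : ℝ} {q : ℕ} {κ : Pl K → ℤ}

/-- monomial places -/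
def Mn (s : Fin c → K) (P : Pl K) : Prop :=
  ∀ f : MvPolynomial (Fin c) ℂ, ∀ a ∈ f.support, P.ord (aeval s f) ≤ ∑ i, a i * P.ord (s i)

/-- not a coordinate page -/
def Nc (p : Pg c) : Prop := ∀ i, ¬ p.l ∣ X i

/-- one monomial is minimal -/
def Fl (s : Fin c → K) (Q : Pl K) (I : Finset (Pl K)) (f : MvPolynomial (Fin c) ℂ) : Prop :=
  ∃ a ∈ f.support, (∀ P ∈ I, P.ord (aeval s f) = ∑ i, a i * P.ord (s i)) ∧
    Q.ord (aeval s f) = ∑ i, a i * Q.ord (s i)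

/-- the Gauss places -/
def GP0 : Prop := ∀ (c ρ : ℕ) (K : Type) [Field K] [Algebra ℂ K] (s : Fin c → K) (y : Fin ρ → K),
  D.Rat (fr s y) → ∀ (Q : Pl K) (I : Finset (Pl K)), (∀ P ∈ I, Mn s P) →
    (∀ a : Fin c → ℤ, (∀ P ∈ I, 0 ≤ ∑ i, a i * P.ord (s i)) → 0 ≤ ∑ i, a i * Q.ord (s i) ∧
      (∑ i, a i * Q.ord (s i) = 0 → ∀ P ∈ I, ∑ i, a i * P.ord (s i) = 0)) →
    ∀ Em : Set (MvPolynomial (Fin c) ℂ), Em.Finite → (∀ f ∈ Em, Fl s Q I f) →
      ∃ m : MvPolynomial (Fin c) ℂ → ℕ, (∀ f, f ≠ 0 → ¬ Fl s Q I f → 1 ≤ m f) ∧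
        (∀ f ∈ Em, m f = 0) ∧ ∀ (t : ℕ) (v : Fin ρ → ℤ),
          (v = 0 ∧ ∀ f, f ≠ 0 → (t : ℤ) * (m f + ∑ P ∈ I, P.ord (aeval s f)) = 0) ∨
          ∃ (R : Pl K) (e : ℕ), 0 < e ∧ (∀ j, v j = e * R.ord (y j)) ∧
            (∀ f, f ≠ 0 → e * R.ord (aeval s f) = t * (m f + ∑ P ∈ I, P.ord (aeval s f))) ∧
            e * (cz s y R + 1) ≤ t * (c + ∑ P ∈ I, ∑ i, P.ord (s i))

/-- the family -/
structure F1 (s : Fin c → K) (y : Fin ρ → K) (T : Set (Pl K)) : Prop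
    extends F0 s y (· ∈ T) id where
  finc : {E | E ∈ T ∧ cz s y E ≠ 0}.Finite
  inv : ∀ E ∈ T, ¬ Tv s y E → ∀ G, Hg s y G → ∀ u, G u ≠ 0 → E.ord (tot G) ≤ E.ord (G u)
  mis : {p : Pg c | Nc p ∧ ¬ ∃ E ∈ T, At s E (some p)}.Finite
  pg : ∀ E ∈ T, Mn s E ∨ ∃ p, Nc p ∧ At s E (some p)

/-- the weights of `Q`, and the generators `I` of the cone -/
structure Wt (s : Fin c → K) (y : Fin ρ → K) (T : Set (Pl K)) (Q : Pl K) (ζ : Pl K → ℝ)
    (I : Finset (Pl K)) : Prop where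
  nn : 0 ≤ ζ
  sup : ∀ E, ζ E ≠ 0 → E ∈ T ∧ ¬ Tv s y E
  eq : ∀ u, ∀ x ∈ Hm s y u, x ≠ 0 → ∑ᶠ E, ζ E * E.ord x = Q.ord x
  pos : ∀ P ∈ I, Mn s P ∧ ζ P ≠ 0
  gen : ∀ a : Fin c → ℤ, (∀ P ∈ I, 0 ≤ ∑ i, a i * P.ord (s i)) →
    ∀ E, ζ E ≠ 0 → Mn s E → 0 ≤ ∑ i, a i * E.ord (s i)

theorem s0 (h : D.Rat (fr s y)) {E : Pl K} {p : Pg c} (n : Nc p) (a : At s E (some p))
    (i : Fin c) : E.ord (s i) = 0 := by
  obtain ⟨-, -, -, -, -, f6, -, -, -, f10, -⟩ := fac c ρ K s y h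
  obtain ⟨b, m, b0, -, -, k, e⟩ := f10 (X i) (MvPolynomial.X_ne_zero i)
  rw [MvPolynomial.aeval_X] at e
  rw [e, Pl.ord_smul _ b0, f6 _ _ _ _ a, od, (k p).2 (n i)]
  simp

theorem at_ne {E : Pl K} {p p' : Pg c} (h : At s E (some p)) (n : p' ≠ p) :
    E.ord (lam s p') = 0 := by
  rw [h.2, od, Finsupp.single_eq_of_ne n.symm, mul_zero]

theorem nc_fin : {p : Pg c | ¬ Nc p}.Finite := by
  refine (finite_iUnion fun i : Fin c => Set.Subsingleton.finite (s := {p : Pg c | p.l ∣ X i})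
    fun p a p' b => ?_).subset fun p h => ?_
  · exact (pol c).2.1 _ _ (a.trans (((pol c).1 p').1.irreducible.dvd_symm
      (MvPolynomial.X_prime (R := ℂ) (i := i)).irreducible b))
  · simpa [Nc] using h

variable {Q : Pl K} {ζ : Pl K → ℝ} {I : Finset (Pl K)}

theorem lin (F : F1 s y T) (W : Wt s y T Q ζ I) (a : Fin c → ℤ) :
    ∑ᶠ E, ζ E * (∑ i, a i * E.ord (s i) : ℤ) = (∑ i, a i * Q.ord (s i) : ℤ) ∧
      {E | E ∈ T ∧ ∑ i, a i * E.ord (s i) ≠ 0}.Finite := by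
  have z : ∀ i, s i ≠ 0 := (F60.ind_s F.rat.ind).ne_zero
  simp only [← ord_mon _ z]
  refine ⟨W.eq 0 _ ⟨mon s a, prod_mem fun i _ => zpow_mem
    (IntermediateField.subset_adjoin _ _ (mem_range_self i)) _, ?_⟩ (mon_ne z a), F.fin _⟩
  rw [F60.mon_zero, mul_one]

theorem mass (F : F1 s y T) (W : Wt s y T Q ζ I) (p : Pg c) (a : Fin c → ℤ) :
    ∑ᶠ E, ζ E * (E.ord (lam s p) - ∑ i, a i * E.ord (s i) : ℤ) =
      (Q.ord (lam s p) - ∑ i, a i * Q.ord (s i) : ℤ) ∧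
    (Function.support fun E => ζ E * (E.ord (lam s p) - ∑ i, a i * E.ord (s i) : ℤ)).Finite := by
  have k1 := fs_fin (P := id) W.sup (F.fin (lam s p))
  have k2 := fs_fin (P := id) W.sup (lin F W a).2
  simp only [Int.cast_sub, mul_sub]
  refine ⟨?_, (k1.union k2).subset (Function.support_sub _ _)⟩
  rw [← (lin F W a).1, ← W.eq 0 _ (F60.lam_mem p) (F60.lam_ne (F60.ind_s F.rat.ind) p)]
  exact finsum_sub_distrib k1 k2

theorem int (F : F1 s y T) (W : Wt s y T Q ζ I) (a : Fin c → ℤ)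
    (h : ∀ P ∈ I, 0 ≤ ∑ i, a i * P.ord (s i)) : 0 ≤ ∑ i, a i * Q.ord (s i) ∧
      (∑ i, a i * Q.ord (s i) = 0 → ∀ P ∈ I, ∑ i, a i * P.ord (s i) = 0) := by
  have nn : ∀ E, 0 ≤ ζ E * (∑ i, a i * E.ord (s i) : ℤ) := fun E => by
    by_cases z : ζ E = 0
    · simp [z]
    refine mul_nonneg (W.nn E) (Int.cast_nonneg_iff.2 ?_)
    obtain m | ⟨p, n, b⟩ := F.pg E (W.sup E z).1
    · exact W.gen a h E z m
    · simp [s0 F.rat n b]
  refine ⟨by exact_mod_cast (lin F W a).1 ▸ finsum_nonneg nn, fun e P hP => ?_⟩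
  have := le_fs (fs_fin (P := id) W.sup (lin F W a).2) nn {P}
  rw [Finset.sum_singleton, (lin F W a).1, e, Int.cast_zero] at this
  exact_mod_cast (mul_eq_zero.1 (this.antisymm (nn P))).resolve_left (W.pos P hP).2

theorem fl_of (F : F1 s y T) (W : Wt s y T Q ζ I) {p : Pg c}
    (h : ¬ (Nc p ∧ ∃ E ∈ T, At s E (some p))) : Fl s Q I p.l := by
  have z := F60.ind_s F.rat.ind
  obtain ⟨a, ha, k⟩ := G67.exm Q z.ne_zero (F60.lam_ne z p)
  obtain ⟨m1, m2⟩ := mass F W p fun i => a i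
  have nn : ∀ E, 0 ≤ -(ζ E * (E.ord (lam s p) - ∑ i, (a i : ℤ) * E.ord (s i) : ℤ)) := fun E => by
    by_cases z : ζ E = 0
    · simp [z]
    rw [neg_nonneg]
    refine mul_nonpos_of_nonneg_of_nonpos (W.nn E) (Int.cast_nonpos.2 ?_)
    obtain m | ⟨p', n, b⟩ := F.pg E (W.sup E z).1
    · exact sub_nonpos.2 (m _ a ha)
    · simp [s0 F.rat n b, at_ne b fun e : p = p' => h (e ▸ ⟨n, E, (W.sup E z).1, b⟩)]
  have k0 := finsum_nonneg nn
  have k1 := fun P => le_fs (m2.subset fun E h => neg_ne_zero.1 h) nn {P}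
  rw [finsum_neg_distrib, m1] at k0 k1
  have e : Q.ord (lam s p) = ∑ i, (a i : ℤ) * Q.ord (s i) := by
    have : (0 : ℤ) ≤ -(Q.ord (lam s p) - ∑ i, (a i : ℤ) * Q.ord (s i)) := by exact_mod_cast k0
    exact le_antisymm (by omega) k
  refine ⟨a, ha, fun P hP => ?_, e⟩
  have := k1 P
  rw [Finset.sum_singleton, e, sub_self, Int.cast_zero, neg_zero] at this
  exact sub_eq_zero.1 (by exact_mod_cast (mul_eq_zero.1 (neg_eq_zero.1
    (this.antisymm (nn P)))).resolve_left (W.pos P hP).2)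

theorem not_fl (F : F1 s y T) (W : Wt s y T Q ζ I) {p : Pg c} (n : Nc p) {E₀ : Pl K}
    (z0 : ζ E₀ ≠ 0) (b0 : At s E₀ (some p)) : ¬ Fl s Q I p.l := by
  rintro ⟨a, ha, h1, h2⟩
  have z := F60.ind_s F.rat.ind
  obtain ⟨m1, m2⟩ := mass F W p fun i => a i
  have nn : ∀ E, 0 ≤ ζ E * (E.ord (lam s p) - ∑ i, (a i : ℤ) * E.ord (s i) : ℤ) := fun E => by
    by_cases z' : ζ E = 0
    · simp [z']
    refine mul_nonneg (W.nn E) (Int.cast_nonneg_iff.2 ?_)
    obtain m | ⟨p', n', b⟩ := F.pg E (W.sup E z').1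
    · obtain ⟨a', ha', k⟩ := G67.exm E z.ne_zero (F60.lam_ne z p)
      have := W.gen (fun i => a' i - a i) (fun P hP => by
        have k1 := (W.pos P hP).1 _ a' ha'
        simp only [sub_mul, Finset.sum_sub_distrib, ← h1 P hP]
        omega) E z' m
      simp only [sub_mul, Finset.sum_sub_distrib] at this
      exact this.trans (sub_le_sub_right k _)
    · simp only [s0 F.rat n' b, mul_zero, Finset.sum_const_zero, sub_zero]
      by_cases e : p = p'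
      · exact e ▸ b.1.le
      · exact (at_ne b e).ge
  have := le_fs m2 nn {E₀}
  rw [Finset.sum_singleton, m1, show Q.ord (lam s p) = _ from h2, sub_self, Int.cast_zero] at this
  simp only [s0 F.rat n b0, mul_zero, Finset.sum_const_zero, sub_zero] at this
  exact this.not_gt (mul_pos ((W.nn E₀).lt_of_ne' z0) (Int.cast_pos.2 b0.1))

open Classical in
/-- **COUNT** -/
theorem cnt (gp : GP0) (F : F1 s y T) (ε0 : 0 ≤ ε) {G : (Fin ρ → ℤ) →₀ K} (hG : Hg s y G)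
    (g0 : tot G ≠ 0) (hw : Hw ε q s y (· ∈ T) id (tot G) κ) (κf : {E | E ∈ T ∧ κ E ≠ 0}.Finite)
    (eff : ∀ E ∈ T, q * cz s y E ≤ E.ord (tot G) + κ E) (W : Wt s y T Q ζ I)
    (J : Set (Option (Pg c)))
    (hJ : ∀ r ∈ J, ∃ p, r = some p ∧ Nc p ∧ ∃ E, ζ E ≠ 0 ∧ At s E r) (D : Finset (Pl K))
    (pt : Pl K → Option (Pg c)) (hD : ∀ E ∈ D, E ∈ T ∧ At s E (pt E) ∧ pt E ∈ J) (ξ : Pl K → ℚ)
    (ξ0 : ∀ E, 0 ≤ ξ E) (h1 : ∀ r ∈ J, ∑ E ∈ D with pt E = r, ξ E * mu s E r = 1) :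
    ∃ u, G u ≠ 0 ∧ ∑ E ∈ D, ξ E * (E.ord (G u) + κ E : ℤ) ≤ q * (c + I.card) := by
  obtain ⟨-, -, -, f4, f5, -⟩ := fac c ρ K s y F.rat
  obtain ⟨c1, -⟩ := czr c ρ K s y F.rat
  obtain ⟨m', m1, m2, m3⟩ := gp c ρ K s y F.rat Q I (fun P a => (W.pos P a).1) (int F W)
    (Pg.l '' {p | ¬ (Nc p ∧ ∃ E ∈ T, At s E (some p))} ∪ range X)
    ((((nc_fin.union F.mis).subset fun p h => by
      by_cases n : Nc p
      exacts [.inr ⟨n, fun k => h ⟨n, k⟩⟩, .inl n]).image _).union (finite_range _))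
    (by
      rintro _ (⟨p, h, rfl⟩ | ⟨i, rfl⟩)
      · exact fl_of F W h
      · refine ⟨Finsupp.single i 1, by simp [MvPolynomial.support_X], fun P _ => ?_, ?_⟩ <;>
          simp [Finsupp.single_apply])
  let m : Option (Pg c) → ℕ := fun r => r.elim 0 fun p => m' p.l
  have mI : ∀ r ∈ J, 1 ≤ m r := fun r hr => by
    obtain ⟨p, rfl, n, E, z, a⟩ := hJ r hr
    exact m1 _ (F60.irr p).ne_zero (not_fl F W n z a)
  have mN : ∀ r, m r ≠ 0 → ∃ p, r = some p ∧ Nc p ∧ ∃ E ∈ T, At s E r := by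
    rintro (_ | p) h
    · exact (h rfl).elim
    · exact ⟨p, rfl, by_contra fun n => h (m2 _ (.inl ⟨p, n, rfl⟩))⟩
  obtain ⟨θ, θ0, θ1, θ2, θ3⟩ : ∃ θ : Option (Pg c) → Pl K → ℚ, (∀ r E, 0 ≤ θ r E) ∧
      (∀ r E, θ r E ≠ 0 → E ∈ T ∧ At s E r) ∧
      (∀ r, m r ≠ 0 → ∑ᶠ E, (θ r E : ℝ) * mu s E r = 1) ∧ ∀ E ∈ D, θ (pt E) E = ξ E := by
    have : ∀ r, ∃ θ : Pl K → ℚ, (∀ E, 0 ≤ θ E) ∧ (∀ E, θ E ≠ 0 → E ∈ T ∧ At s E r) ∧
        (m r ≠ 0 → ∑ᶠ E, (θ E : ℝ) * mu s E r = 1) ∧ ∀ E ∈ D, pt E = r → θ E = ξ E := fun r => by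
      by_cases hr : r ∈ J
      · refine ⟨fun E => if E ∈ D ∧ pt E = r then ξ E else 0, fun E => ?_, fun E z => ?_,
          fun _ => ?_, fun E a b => if_pos ⟨a, b⟩⟩
        · exact ite_nonneg (ξ0 E) le_rfl
        · have k : E ∈ D ∧ pt E = r := by_contra fun n => z (if_neg n)
          exact ⟨(hD E k.1).1, k.2 ▸ (hD E k.1).2.1⟩
        · rw [finsum_eq_sum_of_support_subset _ (s := D.filter fun E => pt E = r) fun E z => by
            by_contra n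
            rw [Finset.mem_coe, Finset.mem_filter] at n
            simp [if_neg n] at z, Finset.sum_congr rfl
              (g := fun E => (ξ E : ℝ) * mu s E r) fun E n => by
                simp only [if_pos (Finset.mem_filter.1 n)]]
          exact_mod_cast h1 r hr
      by_cases z : m r = 0
      · exact ⟨0, fun _ => le_rfl, fun _ n => absurd rfl n, fun n => absurd z n,
          fun E a b => absurd (b ▸ (hD E a).2.2) hr⟩
      obtain ⟨-, -, -, E₀, a, b⟩ := mN r z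
      have p : (0 : ℚ) < mu s E₀ r := Int.cast_pos.2 b.1
      refine ⟨Pi.single E₀ (mu s E₀ r : ℚ)⁻¹, fun E => ?_, fun E n => ?_, fun _ => ?_,
        fun E a b => absurd (b ▸ (hD E a).2.2) hr⟩
      · rw [Pi.single_apply]
        split_ifs
        exacts [(inv_pos.2 p).le, le_rfl]
      · obtain rfl : E = E₀ := by_contra fun k => n (Pi.single_eq_of_ne k _)
        exact ⟨a, b⟩
      · rw [finsum_eq_single _ E₀ fun E n => by simp [n], Pi.single_eq_same]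
        push_cast
        exact inv_mul_cancel₀ (Int.cast_ne_zero.2 b.1.ne')
    choose θ a b d e using this
    exact ⟨θ, a, b, d, fun E n => e _ E n rfl⟩
  obtain ⟨π, hπ⟩ : ∃ π : Pl K → Option (Pg c), ∀ E r, At s E r → π E = r :=
    ⟨fun E => Classical.epsilon (At s E), fun E r a => f4 _ _ _ (Classical.epsilon_spec ⟨r, a⟩) a⟩
  obtain ⟨t, v, t0, hv⟩ := den fun j => ∑ᶠ E, m (π E) * θ (π E) E * E.ord (y j)
  obtain ⟨η, hη⟩ : ∃ η : Pl K → ℝ, ∀ E, η E = t * (m (π E) * θ (π E) E) := ⟨_, fun _ => rfl⟩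
  have η0 : 0 ≤ η := fun E => by
    have : (0 : ℝ) ≤ θ (π E) E := Rat.cast_nonneg.2 (θ0 _ E)
    rw [hη]
    positivity
  have η1 : ∀ E, η E ≠ 0 → E ∈ T ∧ ∃ p, At s E (some p) ∧ π E = some p := fun E z => by
    have a := θ1 (π E) E fun n => z (by simp [hη, n])
    obtain ⟨p, e, -⟩ := mN (π E) fun n => z (by simp [hη, n])
    exact ⟨a.1, p, e ▸ a.2, e⟩
  have η2 : ∀ E, η E ≠ 0 → E ∈ T ∧ ¬ Tv s y E := fun E z =>
    ⟨(η1 E z).1, (f5 _ _ (η1 E z).2.choose_spec.1).1⟩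
  have η3 : ∀ p, ∑ᶠ E, η E * E.ord (lam s p) = t * m (some p) := fun p => by
    have : ∀ E, η E * E.ord (lam s p) = t * m (some p) * (θ (some p) E * mu s E (some p)) :=
      fun E => by
        by_cases a : At s E (some p)
        · rw [hη, hπ E _ a, mu]
          ring
        · rw [show θ (some p) E = 0 from by_contra fun n => a (θ1 _ E n).2]
          by_cases z : η E = 0
          · simp [z]
          · obtain ⟨-, p', b, -⟩ := η1 E z
            simp [at_ne b fun e : p = p' => a (e ▸ b)]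
    simp only [this]
    rw [← mul_finsum]
    by_cases z : m (some p) = 0
    · simp [z]
    · rw [θ2 _ z, mul_one]
  let χ : Pl K → ℝ := fun E => if E ∈ I then t else 0
  have χ2 : ∀ E, χ E ≠ 0 → E ∈ T ∧ ¬ Tv s y E := fun E z =>
    W.sup E (W.pos E (by_contra fun n => z (if_neg n))).2
  have sp : ∀ Φ : Pl K → ℤ, {E | E ∈ T ∧ Φ E ≠ 0}.Finite → ∑ᶠ E, (η + χ) E * Φ E =
      ∑ᶠ E, η E * Φ E + t * ∑ P ∈ I, (Φ P : ℝ) := fun Φ h => by
    simp only [Pi.add_apply, add_mul]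
    rw [finsum_add_distrib (fs_fin (P := id) η2 h) (fs_fin (P := id) χ2 h),
      finsum_eq_sum_of_support_subset (fun E => χ E * Φ E) (s := I) fun E z =>
        by_contra fun n => left_ne_zero_of_mul z (if_neg n), Finset.mul_sum]
    exact congrArg _ (Finset.sum_congr rfl fun E a => by rw [show χ E = t from if_pos a])
  obtain ⟨u, hu, k⟩ := hwc fac sums F.toF0 ε0 hG g0 hw κf Q ζ W.nn W.sup
    (fun u x a b => (W.eq u x a b).le) (η + χ)
    (add_nonneg η0 fun E => ite_nonneg (Nat.cast_nonneg t) le_rfl)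
    (fun E z => by
      by_cases a : η E = 0
      · exact χ2 E (by simpa [a] using z)
      · exact η2 E a)
    (v + fun j => t * ∑ P ∈ I, P.ord (y j))
    (fun p => t * (m (some p) + ∑ P ∈ I, P.ord (lam s p))) (t * (c + ∑ P ∈ I, ∑ i, P.ord (s i)))
    (fun j => by
      have a := congrArg (Rat.castHom ℝ) (hv j)
      have b := (Rat.castHom ℝ).toAddMonoidHom.map_finsum_of_injective Rat.cast_injective
        fun E => m (π E) * θ (π E) E * E.ord (y j)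
      refine (sp (fun E => E.ord (y j)) (F.fin _)).trans ?_
      simp only [hη, fs_mul]
      simp only [RingHom.toAddMonoidHom_eq_coe, AddMonoidHom.coe_coe, map_mul, map_natCast,
        map_intCast] at a b
      rw [Pi.add_apply, Int.cast_add, ← a, b]
      push_cast
      rfl)
    (fun p => by
      refine (sp (fun E => E.ord (lam s p)) (F.fin _)).trans ?_
      rw [η3]
      push_cast
      ring)
    ((m3 t _).imp (fun a => ⟨a.1, fun p => a.2 _ (F60.irr p).ne_zero, by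
        have : ∀ i, (t : ℤ) * ∑ P ∈ I, P.ord (s i) = 0 := fun i => by
          simpa [m2 _ (.inr ⟨i, rfl⟩)] using a.2 _ (MvPolynomial.X_ne_zero i)
        rw [Finset.sum_comm, mul_add, Finset.mul_sum, Finset.sum_eq_zero fun i _ => this i]
        positivity⟩)
      fun ⟨R, e, a1, a2, a3, a4⟩ => ⟨R, e, a1, a2, fun p => a3 _ (F60.irr p).ne_zero, a4⟩)
  refine ⟨u, hu, ?_⟩
  have q0 : (0 : ℤ) ≤ q := Int.natCast_nonneg q
  have lo : ∀ E ∈ T, ¬ Tv s y E → q * cz s y E ≤ E.ord (G u) + κ E := fun E a b => by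
    have := F.inv E a b G hG u hu
    have := eff E a
    omega
  have nn : ∀ E ∈ T, ∀ p, At s E (some p) → 0 ≤ E.ord (G u) + κ E := fun E a p b =>
    (mul_nonneg q0 (by have := c1 _ p b; have := b.1; omega)).trans (lo E a (f5 _ _ b).1)
  have s1 := fs_fin (P := id) η2 (F.fin (G u))
  have s2 := fs_fin (P := id) η2 κf
  have s4 := le_fs (f := fun E => η E * E.ord (G u) + η E * κ E)
    ((s1.union s2).subset (Function.support_add _ _)) (fun E => by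
      by_cases z : η E = 0
      · simp [z]
      · obtain ⟨a, p, b, -⟩ := η1 E z
        rw [← mul_add, ← Int.cast_add]
        exact mul_nonneg (η0 E) (Int.cast_nonneg_iff.2 (nn E a p b))) D
  simp only [id] at k s1
  rw [finsum_add_distrib s1 s2] at s4
  rw [sp (fun E => E.ord (G u)) (F.fin _), sp κ κf] at k
  have s6 : (q : ℝ) * (∑ P ∈ I, ∑ i, (P.ord (s i) : ℝ) - I.card) ≤
      ∑ P ∈ I, (P.ord (G u) : ℝ) + ∑ P ∈ I, (κ P : ℝ) := by
    have : (q : ℤ) * (∑ P ∈ I, ∑ i, P.ord (s i) - I.card) ≤ ∑ P ∈ I, (P.ord (G u) + κ P) := by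
      rw [Finset.cast_card, ← Finset.sum_sub_distrib, Finset.mul_sum]
      refine Finset.sum_le_sum fun P a => le_trans (mul_le_mul_of_nonneg_left ?_ q0)
        (lo P (W.sup P (W.pos P a).2).1 (W.sup P (W.pos P a).2).2)
      have := Z80.la_int F.rat P
      omega
    rw [← Finset.sum_add_distrib]
    exact_mod_cast this
  have t1 : (0 : ℝ) < t := Nat.cast_pos.2 t0
  have s5 : t * ∑ E ∈ D, (ξ E : ℝ) * (E.ord (G u) + κ E : ℤ) ≤ t * (q * (c + I.card)) := by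
    rw [Finset.mul_sum]
    refine (Finset.sum_le_sum fun E n => ?_).trans (s4.trans ?_)
    · obtain ⟨a1, a2, a3⟩ := hD E n
      obtain ⟨p, e, -⟩ := hJ _ a3
      rw [← mul_add, ← Int.cast_add, hη, hπ E _ a2, θ3 E n, ← mul_assoc]
      exact mul_le_mul_of_nonneg_right (mul_le_mul_of_nonneg_left (le_mul_of_one_le_left
        (Rat.cast_nonneg.2 (ξ0 E)) (Nat.one_le_cast.2 (mI _ a3))) t1.le)
        (Int.cast_nonneg_iff.2 (nn E a1 p (e ▸ a2)))
    · push_cast at k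
      nlinarith [mul_le_mul_of_nonneg_left s6 t1.le]
  refine (Rat.cast_le (K := ℝ)).1 ?_
  simpa only [Rat.cast_sum, Rat.cast_mul, Rat.cast_intCast, Rat.cast_add, Rat.cast_natCast]
    using le_of_mul_le_mul_left s5 t1

end Vale.Agent.P283R.Tb.C85
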