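import Vale.Agent.P283R.Tb.St
import Vale.Agent.P283R.Tb.Cnt85

/-!
# P283R, block TB: monomial places, superadditivity and the dichotomy
-/

open Set MvPolynomial

namespace Vale.Agent.P283R.Tb

open Vale.Agent.P287D Pq

/-- **DIC** -/
theorem dic80 : DIC := fun c ρ K _ _ s y h => by
  have z := F60.ind_s h.ind
  have d1 : ∀ (P : Pl K) (g : MvPolynomial (Fin c) ℂ), g ≠ 0 →
      ∃ a ∈ g.support, dt s P (fun i => a i) ≤ P.ord (aeval s g) := fun P g g0 =>
    G67.exm P z.ne_zero fun e => g0 (z.eq_zero_of_aeval_eq_zero _ e)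
  have l0 : ∀ p : Pg c, p.l ≠ 0 := fun p => ((pol c).1 p).1.ne_zero
  have d4 : ∀ P p p', Ax s P p → p' ≠ p → ∀ a, Cm s P p' a := fun P p p' a n m => by
    simp only [Cm, dt, a.2, C85.at_ne a.1 n, mul_zero, Finset.sum_const_zero]
  have sb : ∀ (P : Pl K) (a b : Fin c → ℤ), dt s P (a - b) = dt s P a - dt s P b := fun P a b => by
    simp only [dt, Pi.sub_apply, sub_mul, Finset.sum_sub_distrib]
  refine ⟨d1, fun P p a n => ⟨a, C85.s0 h n a⟩, fun P m s0 p => ?_, d4,
    fun D A p a ha mv du cm R hR => ?_, fun Q S ξ p x0 hS e => ?_⟩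
  · obtain ⟨a, ha, k⟩ := d1 P _ (l0 p)
    have := m _ a ha
    simp only [dt, s0, mul_zero, Finset.sum_const_zero] at this k
    exact le_antisymm this k
  · obtain ⟨b, hb, k⟩ := d1 R _ (l0 p)
    have := du.2 ((fun i => (b i : ℤ)) - fun i => (a i : ℤ)) (fun R' h' => by
      rw [sb, ← cm R' h']
      exact sub_nonneg.2 (mv R' (du.1 h') _ b hb)) R hR
    rw [sb] at this
    exact le_antisymm (mv R hR _ a ha) ((sub_nonneg.1 this).trans k)
  · have lin : ∀ a : Fin c →₀ ℕ, ∑ P ∈ S, ξ P * (dt s P fun i => a i : ℤ) =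
        (dt s Q fun i => a i : ℤ) := fun a => by
      simp only [dt, Int.cast_sum, Int.cast_mul, ← e, Finset.mul_sum]
      rw [Finset.sum_comm]
      exact Finset.sum_congr rfl fun i _ => Finset.sum_congr rfl fun P _ => by ring
    obtain ⟨a, ha, k⟩ := d1 Q _ (l0 p)
    have k' : ((dt s Q fun i => a i : ℤ) : ℝ) ≤ Q.ord (lam s p) := Int.cast_le.2 k
    have le : ∀ P ∈ S, ξ P * P.ord (lam s p) ≤ ξ P * (dt s P fun i => a i : ℤ) := fun P hP => by
      by_cases n : ξ P = 0
      · simp [n]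
      refine mul_le_mul_of_nonneg_left (Int.cast_le.2 ?_) (x0 P hP)
      obtain m | ⟨p', q, b⟩ := hS P hP n
      exacts [m _ a ha, (d4 P p' p b q.symm a).le]
    have l1 := (Finset.sum_le_sum le).trans_eq (lin a)
    refine ⟨l1.trans k', fun q => ⟨a, ha, le_antisymm (by exact_mod_cast q.symm.trans_le l1) k,
      fun P hP n => ?_⟩, fun ⟨b, _, b1, b2⟩ => ?_⟩
    · have := (Finset.sum_eq_sum_iff_of_le le).1
        (le_antisymm (Finset.sum_le_sum le) ((lin a).trans_le (k'.trans_eq q.symm))) P hP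
      exact_mod_cast mul_left_cancel₀ n this
    · rw [show Q.ord (lam s p) = _ from b1, ← lin b]
      refine Finset.sum_congr rfl fun P hP => ?_
      by_cases n : ξ P = 0
      · simp [n]
      · rw [show P.ord (lam s p) = _ from b2 P hP n]

end Vale.Agent.P283R.Tb
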