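import Vale.Agent.P283R.Tb.St

/-!
# P283R, block TB: invariant primes are dropped
-/

set_option linter.all false

open Set

noncomputable section

namespace Vale.Agent.P283R.Tb

open Vale.Agent.P287D Vale.Agent.P283M

/-- **DRP** -/
theorem drp47 : DRP := by
  intro K _ _ c ρ s y T d q ε g κ X h hf hX
  have F := h.fm
  refine ⟨h.dim, ?_, h.g0, fun P p => h.reg P p.1, h.fin.subset fun P p => ⟨p.1.1, p.2⟩,
    fun P p => h.eff P p.1, fun Q ξ a b => h.hw Q ξ a fun E e => ⟨(b E e).1.1, (b E e).2⟩,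
    fun a h₀ X' k e t a0 h0 f' ie => ?_⟩
  · refine ⟨F.rat, fun a => (F.fin a).subset fun P p => ⟨p.1.1, p.2⟩,
      F.finc.subset fun P p => ⟨p.1.1, p.2⟩, fun E e => F.inv E e.1, fun φ φ0 k => F.lau φ φ0
        fun E e t => k E ⟨e, fun x => hX E x t⟩ t, fun a f =>
      let ⟨φ, φ0, k⟩ := F.eqn a f; ⟨φ, φ0, fun E e => k E e.1⟩, fun E e => F.kt E e.1,
      (F.mis.union (hf.biUnion (t := fun E => {p | Pq.At s E (some p)}) fun E _ =>
        Set.Subsingleton.finite fun p a p' b => by_contra fun ne => ?_)).subset fun p a => ?_,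
      fun E e => F.pg E e.1,
      fun A a => F.gen A fun R r => ⟨(a R r).1, let ⟨E, e, k⟩ := (a R r).2; ⟨E, e.1, k⟩⟩⟩
    · have k : E.ord (Pq.lam s p) = Pq.mu s E (some p') * Finsupp.single p (1 : ℤ) p' := b.2 p
      have k' : 0 < E.ord (Pq.lam s p) := a.1
      rw [Finsupp.single_eq_of_ne (Ne.symm ne), mul_zero] at k
      omega
    · by_contra w
      rw [mem_union, not_or] at w
      obtain ⟨E, e, b⟩ := not_not.1 w.1
      exact a ⟨E, ⟨e, fun x => w.2 (mem_biUnion x b)⟩, b⟩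
  · rw [Set.diff_diff]
    exact h.av a h₀ (X ∪ X') k e t a0 h0 (hf.union f') ie

end Vale.Agent.P283R.Tb
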