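import Vale.Agent.P283R.Tb.St

/-!
# P283R, block TB: change of the frame
-/

open Set

noncomputable section

namespace Vale.Agent.P283R.Tb

open Vale.Agent.P287D Vale.Agent.P283M
open Pq (Hm Hg tot Tv At cz fr)
open Wc (Eqf)
open Wc.E78 (hg sy tv ho)

theorem Fm.eqf78 {K : Type} [Field K] [Algebra ℂ K] {c ρ ρ' : ℕ} {s : Fin c → K} {y : Fin ρ → K}
    {y' : Fin ρ' → K} {ι : Type} {w : ι → Prop} {P : ι → Pl K} (f : Fm s y w P) (h : Eqf s y y') :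
    Fm s y' w P := by
  have t := tv h
  obtain ⟨-, r, z, e, h⟩ := h
  have z' : cz s y' = cz s y := funext z
  refine ⟨r, f.fin, z' ▸ f.finc, fun E a b G g u u0 => ?_, fun φ φ0 k => ?_, t ▸ f.eqn,
    fun E a b => z' ▸ f.kt E a (t ▸ b), f.mis, f.pg, f.gen⟩
  · obtain ⟨G', g1, g2, g3⟩ := hg e.symm (sy e h) g
    rw [← g3, ← g2]
    exact f.inv E a (t ▸ b) G' g1 _ (g2 u ▸ u0)
  · obtain ⟨G, g, rfl⟩ := f.lau φ φ0 (t ▸ k)
    obtain ⟨G', g1, -, g3⟩ := hg e h g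
    exact ⟨G', g1, g3.symm⟩

theorem eqf78 : EQF := fun K _ _ c ρ s y T ρ' y' h => by
  have t := tv h
  have z : cz s y' = cz s y := funext h.2.2.1
  refine ⟨fun d q ε g κ p => ⟨h.1 ▸ p.dim, p.fm.eqf78 h, p.g0, t ▸ p.reg, p.fin, z ▸ p.eff,
    fun Q ξ a b k => ?_, z ▸ p.av⟩, (Wc.eqf78 K c ρ s y T ρ' y' h).2⟩
  obtain ⟨-, -, -, e, h⟩ := h
  rw [z]
  exact p.hw Q ξ a (t ▸ b) fun u x hx => k (e u) x (h u ▸ hx)

end Vale.Agent.P283R.Tb
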