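import Vale.Agent.P283R.Tb.St
import Vale.Agent.P283R.Wd.Gen70

/-!
# P283R, block TB, row GEN: the generators
-/

open Set

noncomputable section

namespace Vale.Agent.P283R.Tb

open Vale.Agent.P287D Vale.Agent.P297Z Vale.Agent.P283M Vale.Agent.P283R.To
open Cx (Sp dg)
open Pq (Hm Hg tot Tv At cz lam mu fr Pg hm od Hz)
open Wc (Dr Kt)
open Wd (Sb sb)
open Wd.G70

/-- **GEN** -/
theorem gen8 : GEN := by
  intro K _ _ c r ρ s y u T J κ f k e h hod un ⟨Em, hE, hf⟩ ei er
  classical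
  obtain ⟨f1, f2, f3, -, -, f6, -, -, -, f10, -⟩ := Pq.fac c _ K s _ h.rat
  have ind := (Pq.B25.tower h.rat).2.1.ind
  let φ := IsScalarTower.toAlgHom ℂ (Sb (fr s y)) K
  let s₁ : Fin c → Sb (fr s y) := fun i => sb _ (Fin.castAdd r i)
  let y₁ : Fin r → Sb (fr s y) := fun i => sb _ (Fin.natAdd c i)
  have hs : (fun i => φ (s₁ i)) = s := funext fun i => Fin.append_left s y i
  have hy : (fun i => φ (y₁ i)) = y := funext fun i => Fin.append_right s y i
  have y0 : ∀ i, y i ≠ 0 := fun i => by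
    have := h.rat.ind.ne_zero (Fin.natAdd c (Fin.castAdd ρ i))
    rwa [fr, Fin.append_right, Fin.append_left] at this
  let F : Pg c →₀ ℤ := ∑ p ∈ Em, Finsupp.single p 1
  have hF : ∀ p, F p = if p ∈ Em then 1 else 0 := fun p => by
    simp [F, Finsupp.finsetSum_apply, Finsupp.single_apply]
  let H : (Pg c →₀ ℤ) × (Fin r → ℤ) → K := fun q => hm s (Fin.append y u) q.1 (Fin.append q.2 0)
  have H0 : ∀ q, H q ≠ 0 := fun q => (f2 _ _).1
  have Ha : ∀ q q', H (q + q') = H q * H q' := fun q q' => by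
    rw [← f3]
    refine congrArg (hm s _ _) (funext fun j => ?_)
    refine Fin.addCases (fun i => ?_) (fun i => ?_) j <;> simp
  have Hy : ∀ q, H q = hm s y q.1 q.2 := fun q => by
    simp only [H, hm, mon, Fin.prod_univ_add, Fin.append_left, Fin.append_right, Pi.zero_apply,
      zpow_zero, Finset.prod_const_one, mul_one]
  have Hφ : ∀ q, φ (hm s₁ y₁ q.1 q.2) = H q := fun q => by rw [hm_map, hs, hy, Hy]
  have Hs : ∀ {I : Type} [Fintype I] (g : I → _) (n : I → ℕ),
      H (∑ j, n j • g j) = ∏ j, H (g j) ^ n j := fun g n => by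
    simpa only [natCast_zsmul, mon, zpow_natCast] using hom_mon H H0 Ha g fun j => n j
  have Hf : H (F, 0) = f := by
    have := Hs (fun p : Em => ((Finsupp.single p.1 1, 0) : (Pg c →₀ ℤ) × (Fin r → ℤ))) fun _ => 1
    simp only [one_smul, pow_one] at this
    rw [hf, ← Finset.prod_coe_sort Em]
    refine Eq.trans (congrArg H (Prod.ext ?_ ?_)) (this.trans (Finset.prod_congr rfl fun p _ => ?_))
    · rw [Prod.fst_sum]
      exact (Finset.sum_coe_sort Em fun p => Finsupp.single p (1 : ℤ)).symm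
    · simp [Prod.snd_sum]
    · simp [Hy, hm, mon]
  have Ho : ∀ P ∈ T, ∀ p ∉ J, At s P (some p) → ∀ q, P.ord (H q) = q.1 p := fun P a p v z q => by
    rw [f6 _ _ _ _ z, (hod.od P a p v z).1, Fin.sum_univ_add]
    simp [un P a p v z _ (y0 _), od]
  have ke : ∀ i, e i ∈ Kt s (Fin.append y u) T J := fun i => er ▸ mem_range_self i
  have h1 : ∀ i, Dr e (e i) = Pi.single i 1 := fun i => funext fun j => by
    simp only [Dr, ei.eq_iff, Pi.single_apply, eq_comm]
  have h2 : ∀ P ∈ T, (∃ i, e i = P) ∨ Dr e P = 0 ∧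
      (Tv s (Fin.append y u) P ∨ ∃ p ∉ J, At s P (some p)) := fun P a => by
    by_cases z : P ∈ range e
    · exact .inl z
    refine .inr ⟨funext fun i => if_neg fun w => z ⟨i, w.symm⟩, ?_⟩
    by_contra w
    exact z (er ▸ ⟨a, fun t => w (.inl t), fun p v t => w (.inr ⟨p, v, t⟩)⟩)
  let g₀ : J ⊕ Fin r → (Pg c →₀ ℤ) × (Fin r → ℤ) :=
    Sum.elim (fun p => (Finsupp.single p.1 1, 0)) fun i => (0, Pi.single i 1)
  let g₂ : Option ((J ⊕ Fin r) ⊕ (J ⊕ Fin r)) → (Pg c →₀ ℤ) × (Fin r → ℤ) :=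
    fun j => j.elim (-(F, 0)) (Sum.elim g₀ fun x => -g₀ x)
  let g : Fin k ⊕ Option ((J ⊕ Fin r) ⊕ (J ⊕ Fin r)) → (Pg c →₀ ℤ) × (Fin r → ℤ) :=
    Sum.elim 0 g₂
  let τ : Fin k ⊕ Option ((J ⊕ Fin r) ⊕ (J ⊕ Fin r)) → Fin k → ℤ :=
    Sum.elim (fun i => Pi.single i 1) 0
  have τ0 : ∀ j i, 0 ≤ τ j i := by
    rintro (j | j) i
    · simp only [τ, Sum.elim_inl, Pi.single_apply]
      split_ifs <;> simp
    · exact le_rfl
  have gM : ∀ j, ∃ a : ℕ, ∀ p ∉ J, (g j).1 p + a * F p = 0 := by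
    have k0 : ∀ x, ∀ p ∉ J, (g₀ x).1 p = 0 := by
      rintro (x | x) p v
      · exact Finsupp.single_eq_of_ne fun w => v (w ▸ x.2)
      · rfl
    rintro (j | _ | x | x)
    · exact ⟨0, fun p _ => by simp [g]⟩
    · exact ⟨1, fun p _ => by simp [g, g₂]⟩
    · exact ⟨0, fun p v => by simp [g, g₂, k0 x p v]⟩
    · exact ⟨0, fun p v => by simp [g, g₂, k0 x p v]⟩
  have cl : ∀ (n : Pg c →₀ ℤ) (m : Fin r → ℤ) (N : ℕ), (∀ p ∉ J, n p + N * F p = 0) →
      (n, m) ∈ AddSubmonoid.closure (range g₂) := fun n m N a => by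
    have k1 : ∀ x (z : ℤ), z • g₀ x ∈ AddSubmonoid.closure (range g₂) := fun x z => by
      obtain ⟨l, rfl | rfl⟩ := Int.eq_nat_or_neg z
      · rw [natCast_zsmul]
        exact nsmul_mem (AddSubmonoid.subset_closure (mem_range_self (f := g₂) (some (.inl x)))) _
      · rw [neg_smul, ← smul_neg, natCast_zsmul]
        exact nsmul_mem (AddSubmonoid.subset_closure (mem_range_self (f := g₂) (some (.inr x)))) _
    have : (n, m) = ∑ x, (Sum.elim (fun p : J => n p + N * F p) m x) • g₀ x + N • -(F, 0) := by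
      refine Prod.ext (Finsupp.ext fun p => ?_) (funext fun i => ?_)
      · have t : ∑ x : J, (n x.1 + N * F x.1) * (Finsupp.single x.1 (1 : ℤ)) p =
            n p + N * F p := by
          rw [Finset.sum_coe_sort J fun x => (n x + N * F x) * (Finsupp.single x (1 : ℤ)) p]
          by_cases v : p ∈ J
          · simp [Finsupp.single_apply, v]
          · simp [Finsupp.single_apply, v, a p v]
        simp only [Prod.fst_sum, Fintype.sum_sum_type, g₀, Sum.elim_inl, Sum.elim_inr,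
          Prod.smul_fst, Prod.fst_add, Finsupp.add_apply, Prod.fst_neg, Finsupp.neg_apply,
          Finsupp.finsetSum_apply, Finsupp.smul_apply, smul_eq_mul, t, Finsupp.zero_apply,
          mul_zero, Finset.sum_const_zero, nsmul_eq_mul]
        ring
      · simp [Prod.snd_sum, Fintype.sum_sum_type, g₀, Finset.sum_apply, Pi.single_apply]
    rw [this]
    exact add_mem (sum_mem fun x _ => k1 x _)
      (nsmul_mem (AddSubmonoid.subset_closure (mem_range_self (f := g₂) none)) _)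
  let q := (Fintype.equivFin (Fin k ⊕ Option ((J ⊕ Fin r) ⊕ (J ⊕ Fin r)))).symm
  let a' := fun j i => -(e i).ord (H (g (q j))) + τ (q j) i
  have key : ∀ (n : Pg c →₀ ℤ) (m : Fin r → ℤ) (N : ℕ) (δ : Fin k → ℤ),
      (∀ p ∉ J, n p + N * F p = 0) → (∀ i, 0 ≤ (e i).ord (H (n, m)) + δ i) →
      H (n, m) ∈ Sp (fun j => H (g (q j))) a' δ := fun n m N δ a b => by
    obtain ⟨ν, hν⟩ := AddSubmonoid.mem_closure_range_iff_of_fintype.1 (cl n m N a)
    let ν' := Sum.elim (fun i => ((e i).ord (H (n, m)) + δ i).toNat) ν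
    have e1 : H (n, m) = ∏ j, H (g j) ^ ν' j := by
      rw [← Hs, hν]
      simp [Fintype.sum_sum_type, g, ν']
    refine Submodule.subset_span ⟨fun j => ν' (q j), funext fun i => ?_,
      (q.prod_comp fun j => H (g j) ^ ν' j).trans e1.symm⟩
    have e2 : (e i).ord (H (n, m)) = ∑ j, ν' j * (e i).ord (H (g j)) := by
      rw [e1, Pl.ord_prod _ _ fun j _ => pow_ne_zero _ (H0 _)]
      simp only [Pl.ord_pow]
    have e3 : ∑ j, (ν' j : ℤ) * τ j i = (e i).ord (H (n, m)) + δ i := by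
      simp [Fintype.sum_sum_type, τ, ν', Pi.single_apply, b i]
    rw [dg, q.sum_comp fun j => (ν' j : ℤ) * (-(e i).ord (H (g j)) + τ j i)]
    simp only [mul_add, mul_neg, Finset.sum_add_distrib, Finset.sum_neg_distrib]
    rw [← e2, e3]
    ring
  have eT : (fun j => φ (hm s₁ y₁ (g (q j)).1 (g (q j)).2)) = fun j => H (g (q j)) :=
    funext fun j => Hφ _
  refine ⟨_, fun j => hm s₁ y₁ (g (q j)).1 (g (q j)).2, a', by simp; omega,
    fun j z => H0 (g (q j)) (by rw [← Hφ, z, map_zero]), fun n => ?_, fun δ z z0 => ?_⟩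
  · choose a ha using gM
    refine ⟨1, (∑ j, n j • g (q j)).1 + (∑ j, n j * a (q j)) • F, (∑ j, n j • g (q j)).2,
      ∑ j, n j * a (q j), one_ne_zero, fun p hp => by_contra fun v =>
        Finsupp.mem_support_iff.1 hp ?_, ?_⟩
    · simp only [Prod.fst_sum, Finsupp.add_apply, Finsupp.finsetSum_apply, Prod.smul_fst,
        Finsupp.smul_apply, nsmul_eq_mul, Nat.cast_sum, Finset.sum_mul, ← Finset.sum_add_distrib]
      exact Finset.sum_eq_zero fun j _ => by
        rw [Nat.cast_mul, mul_assoc, ← mul_add, ha _ p v, mul_zero]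
    · have e1 : ∀ N : ℕ, H (N • (F, 0)) = f ^ N := fun N => by
        simpa [Hf] using Hs (fun _ : Unit => ((F, 0) : (Pg c →₀ ℤ) × (Fin r → ℤ))) fun _ => N
      rw [one_smul, eq_div_iff (e1 _ ▸ H0 _), ← e1]
      refine Eq.trans (congrArg (· * _) ?_) ((Ha (∑ j, n j • g (q j)) _).symm.trans
        ((Hy _).trans (by simp)))
      rw [Hs]
      exact Finset.prod_congr rfl fun j _ => congrArg (· ^ n j) (Hφ _)
  have z0' : φ z ≠ 0 := (map_ne_zero φ).2 z0
  rw [← mem_map φ, eT]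
  refine ⟨fun w => sp_sec (pl := id) (w := (· ∈ T)) (Dr e) (fun j => H0 _) (fun j P a => ?_) w z0',
    fun w => ?_⟩
  · rcases h2 P a with ⟨i, rfl⟩ | ⟨v, v'⟩
    · rw [h1, dotProduct_single_one]
      have := τ0 (q j) i
      simp only [a', id]
      omega
    rw [v, dotProduct_zero, add_zero]
    rcases v' with v' | ⟨p, v', t⟩
    · exact (v' _ _ (f2 _ _).2 (H0 _)).ge
    · obtain ⟨b, hb⟩ := gM (q j)
      have := hb p v'
      rw [hF, if_neg fun x => ((hE p).1 x).2 ⟨P, a, t⟩, mul_zero, add_zero] at this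
      exact ((Ho P a p v' t _).trans this).ge
  have tv : ∀ P ∈ T, Tv s (Fin.append y u) P → Dr e P = 0 := fun P a v =>
    (h2 P a).elim (fun ⟨i, t⟩ => ((ke i).2.1 (t ▸ v)).elim) And.left
  obtain ⟨G, hG, eG⟩ := h.lau _ z0' fun P a v => by
    have := w P a
    rwa [tv P a v, dotProduct_zero, add_zero] at this
  choose β₀ n₀ β0 _ _ hn₀ en₀ using fun i => f10 (.X i) (MvPolynomial.X_ne_zero i)
  have ap0 : ∀ n, H (n, 0) = hm s (Fin.append y u) n 0 := fun n =>
    congrArg (hm s _ n) (funext fun j => by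
      refine Fin.addCases (fun i => ?_) (fun i => ?_) j <;> simp)
  have cmp : ∀ v, ∃ ζ : Sb (fr s y), G v = ζ • mon u (fun i => v (Fin.natAdd r i)) ∧
      ((fun i => v (Fin.natAdd r i)) = 0 → φ ζ ∈ Sp (fun j => H (g (q j))) a' δ) := fun v => by
    rcases eq_or_ne (G v) 0 with G0 | G0
    · exact ⟨0, by rw [G0, zero_smul], fun _ => by rw [map_zero]; exact zero_mem _⟩
    obtain ⟨β, n, b0, eb⟩ := f1 v _ (hG v) G0
    let m : Fin r → ℤ := fun i => v (Fin.castAdd ρ i)
    have e1 : hm s (Fin.append y u) n v = H (n, m) * mon u fun i => v (Fin.natAdd r i) := by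
      simp [H, hm, mon, Fin.prod_univ_add, m, mul_assoc]
    refine ⟨β • hm s₁ y₁ n m, ?_, fun v0 => ?_⟩
    · rw [eb, e1, smul_assoc, Algebra.smul_def (hm s₁ y₁ n m), ← Hφ (n, m)]
      rfl
    rw [map_smul, Hφ (n, m)]
    refine Submodule.smul_mem _ _ ?_
    have sc : ∀ P ∈ T, 0 ≤ P.ord (H (n, m)) + δ ⬝ᵥ Dr e P := fun P a => by
      have e2 : P.ord (G v) = P.ord (H (n, m)) := by
        rw [eb, Pl.ord_smul _ b0, e1, v0]
        simp [mon]
      by_cases t : Tv s (Fin.append y u) P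
      · rw [← e2, t _ _ (hG v) G0, tv P a t, dotProduct_zero]
        exact le_rfl
      · have a1 := h.inv P a t G hG v G0
        rw [← eG, id, e2] at a1
        exact (w P a).trans (add_le_add_left a1 _)
    obtain ⟨N, hN⟩ : ∃ N : ℕ, ∀ p, 0 ≤ n p + N := by
      refine ⟨∑ p ∈ n.support, (n p).natAbs, fun p => ?_⟩
      by_cases t : p ∈ n.support
      · have := Finset.single_le_sum (f := fun p => (n p).natAbs) (fun _ _ => Nat.zero_le _) t
        omega
      · rw [Finsupp.notMem_support_iff.1 t, zero_add]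
        exact Int.natCast_nonneg _
    let n' := (n + N • F).filter (· ∉ J)
    have nJ : ∀ p ∈ J, n' p = 0 := fun p t => Finsupp.filter_apply_neg _ _ (not_not.2 t)
    have nK : ∀ p ∉ J, n' p = n p + N * F p := fun p t =>
      (Finsupp.filter_apply_pos (· ∉ J) _ t).trans (by simp)
    have n0 : 0 ≤ n' := fun p => by
      show 0 ≤ n' p
      by_cases t : p ∈ J
      · exact (nJ p t).ge
      rw [nK p t, hF]
      by_cases t' : p ∈ Em
      · simpa [t'] using hN p
      · obtain ⟨P, a, x⟩ := not_not.1 fun x => t' ((hE p).2 ⟨t, x⟩)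
        have a1 := sc P a
        rw [(h2 P a).elim (fun ⟨i, t''⟩ => ((ke i).2.2 p t (t'' ▸ x)).elim) And.left,
          dotProduct_zero, add_zero, Ho P a p t x] at a1
        simpa [t'] using a1
    have e3 : H (n, m) = H (n - n', m) * hm s (Fin.append y u) n' 0 := by
      rw [← ap0, ← Ha, Prod.mk_add_mk, sub_add_cancel, add_zero]
    have eg : hm s (Fin.append y u) n' 0 =
        MvPolynomial.aeval s (∏ p ∈ n'.support, p.l ^ (n' p).toNat) := by
      rw [hm, show mon (Fin.append y u) 0 = 1 by simp [mon], mul_one, map_prod]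
      exact Finset.prod_congr rfl fun p _ => by
        rw [map_pow, ← zpow_natCast, Int.toNat_of_nonneg (n0 p)]; rfl
    rw [e3, eg, MvPolynomial.aeval_def, MvPolynomial.eval₂_eq', Finset.mul_sum]
    refine sum_mem fun t ht => ?_
    rw [← Algebra.smul_def, mul_smul_comm]
    refine Submodule.smul_mem _ _ ?_
    have e4 : ∏ i, s i ^ t i = (∏ i, β₀ i ^ t i) • H (∑ i, t i • n₀ i, 0) := by
      have := Hs (fun i => ((n₀ i, 0) : (Pg c →₀ ℤ) × (Fin r → ℤ))) t
      rw [show ∑ i, t i • ((n₀ i, 0) : (Pg c →₀ ℤ) × (Fin r → ℤ)) = (∑ i, t i • n₀ i, 0) from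
        Prod.ext (by simp [Prod.fst_sum]) (by simp [Prod.snd_sum])] at this
      rw [this, ← Finset.prod_smul]
      exact Finset.prod_congr rfl fun i _ => by
        rw [← smul_pow, ap0, ← en₀, MvPolynomial.aeval_X]
    have b1 : ∏ i, β₀ i ^ t i ≠ 0 := Finset.prod_ne_zero_iff.2 fun i _ => pow_ne_zero _ (β0 i)
    rw [e4, mul_smul_comm, ← Ha, Prod.mk_add_mk]
    refine Submodule.smul_mem _ _ (key _ _ N δ (fun p x => ?_) fun i => ?_)
    · have : ∀ i, n₀ i p = 0 := fun i => (hn₀ i p).2 fun d => x (hod.co i p d)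
      simp [nK p x, this]
    have a1 := sc _ (ke i).1
    rw [h1, dotProduct_single_one, e3, Pl.ord_mul _ (H0 _) (f2 _ _).1] at a1
    have s0 : ∀ l, s l ≠ 0 := fun l => by
      have := h.rat.ind.ne_zero (Fin.castAdd _ l)
      rwa [fr, Fin.append_left] at this
    have a2 : (e i).ord (hm s (Fin.append y u) n' 0) ≤ ∑ l, (t l : ℤ) * (e i).ord (s l) := by
      rcases h.pg _ (ke i).1 with z | ⟨p, z, z'⟩
      · rw [eg]
        exact z _ t ht
      · rw [id] at z z'
        rw [f6 _ _ _ _ z, od, nJ p (not_not.1 fun t => (ke i).2.2 p t z)]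
        simp [z']
    rw [← ord_mon _ s0, mon_nat, e4, Pl.ord_smul _ b1] at a2
    rw [← Prod.mk_add_mk, Ha, Pl.ord_mul _ (H0 _) (H0 _)]
    linarith
  choose ζ e1 e2 using cmp
  have e3 : ∑ v ∈ G.support, Finsupp.single (fun i => v (Fin.natAdd r i)) (ζ v) =
      Finsupp.single 0 z := Pq.Sm85.li_mon ind (by
    rw [map_sum, Finsupp.linearCombination_single,
      show mon u (0 : Fin ρ → ℤ) = 1 by simp [mon], ← Algebra.algebraMap_eq_smul_one]
    refine (Finset.sum_congr rfl fun v _ => ?_).trans eG.symm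
    rw [Finsupp.linearCombination_single, e1])
  have e4 := DFunLike.congr_fun e3 0
  rw [Finsupp.single_eq_same, Finsupp.finsetSum_apply] at e4
  rw [← e4, map_sum]
  refine sum_mem fun v _ => ?_
  rw [Finsupp.single_apply]
  split_ifs with t
  · exact e2 v t
  · rw [map_zero]
    exact zero_mem _

end Vale.Agent.P283R.Tb
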