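import Vale.Agent.P283R.Wc.St
import Vale.Agent.P283R.Pq.Gt68
import Vale.Agent.P283R.Pq.Gm67

/-!
# P283R, block TB: monomial primes, the weights of Goldman and Tucker
-/

open Set

noncomputable section

namespace Vale.Agent.P283R.Tb.G68

open Vale.Agent.P287D Vale.Agent.P297Z Vale.Agent.P283M Vale.Agent.P283R.To
open Pq Pq.G68
open Wc (Kt Rep Ho)

variable {c ρ : ℕ} {K : Type} [Field K] [Algebra ℂ K] {s : Fin c → K} {y : Fin ρ → K}
  {T : Set (Pl K)}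

/-- the place is monomial on the invariant functions -/
def Mn (s : Fin c → K) (P : Pl K) : Prop := ∀ f : MvPolynomial (Fin c) ℂ, ∀ a ∈ f.support,
  P.ord (MvPolynomial.aeval s f) ≤ ∑ i, a i * P.ord (s i)

theorem at_ne {P : Pl K} {p p' : Pg c} (h : At s P (some p')) (e : p ≠ p') :
    P.ord (lam s p) = 0 := by
  rw [h.2 p]
  simp [od, Finsupp.single_eq_of_ne e.symm]

theorem at_nd (h : D.Rat (fr s y)) {P : Pl K} {p : Pg c} (a : At s P (some p))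
    {g : MvPolynomial (Fin c) ℂ} (hg : ¬ p.l ∣ g) : P.ord (MvPolynomial.aeval s g) = 0 := by
  obtain ⟨-, -, -, -, -, f6, -, -, -, f10, -⟩ := fac60 c ρ K s y h
  obtain ⟨b, n, b0, -, -, n2, n3⟩ := f10 g fun z => hg (z ▸ dvd_zero _)
  rw [n3, Pl.ord_smul _ b0, f6 _ _ _ _ a]
  simp [od, (n2 p).2 hg]

/-- a place over a coordinate page is monomial -/
theorem atm (h : D.Rat (fr s y)) {P : Pl K} {p : Pg c} (a : At s P (some p)) :
    Mn s P ∨ ∀ i, P.ord (s i) = 0 := by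
  classical
  refine or_iff_not_imp_right.2 fun z f m hm => ?_
  obtain ⟨i, hi⟩ := not_forall.1 z
  have c5 := (czr80 pol60 fac60 c ρ K s y h).2.2.2.2.1 P (.inr ⟨p, a⟩)
  have hs := F60.ind_s h.ind
  have d : p.l ∣ MvPolynomial.X i := by_contra fun d => hi (by simpa using at_nd h a d)
  have ir : Irreducible (MvPolynomial.X i : MvPolynomial (Fin c) ℂ) :=
    MvPolynomial.X_prime.irreducible
  have f0 : f ≠ 0 := fun e => by simp [e] at hm
  obtain ⟨k, g, hg, rfl⟩ := WfDvdMonoid.max_power_factor f0 ir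
  have g0 : g ≠ 0 := fun e => hg (e ▸ dvd_zero _)
  have km : k ≤ m i := by
    have := MvPolynomial.mem_support_iff.1 hm
    rw [MvPolynomial.X_pow_eq_monomial, MvPolynomial.coeff_monomial_mul'] at this
    split_ifs at this with e
    · simpa using e i
    · exact (this rfl).elim
  rw [map_mul, map_pow, MvPolynomial.aeval_X, Pl.ord_mul _ (pow_ne_zero _ (hs.ne_zero i))
    (U60.aev_ne hs g0), Pl.ord_pow, at_nd h a fun e => hg
      (((F60.irr p).associated_of_dvd ir d).symm.dvd.trans e), add_zero]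
  exact (mul_le_mul_of_nonneg_right (Int.ofNat_le.2 km) (c5 i)).trans (Finset.single_le_sum
    (f := fun j => (m j : ℤ) * P.ord (s j))
    (fun j _ => mul_nonneg (Int.natCast_nonneg _) (c5 j)) (Finset.mem_univ i))

/-- a monomial place which is trivial on the coordinates -/
theorem mn_hz (h : D.Rat (fr s y)) {P : Pl K} (a : Mn s P) (z : ∀ i, P.ord (s i) = 0) :
    Hz s P := fun p => by
  have hs := F60.ind_s h.ind
  obtain ⟨m, hm, k⟩ := G67.exm P hs.ne_zero (F60.lam_ne hs p)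
  have := a _ m hm
  simp only [z, mul_zero, Finset.sum_const_zero] at this k
  exact le_antisymm this k

/-- finitely many kept primes -/
theorem fin_kt (h : D.Rat (fr s y)) (fin : ∀ a : K, {P | P ∈ T ∧ P.ord a ≠ 0}.Finite)
    (pg : ∀ P ∈ T, Mn s P ∨ ∃ p, At s P (some p)) (J : Finset (Pg c)) : (Kt s y T J).Finite := by
  refine (((finite_iUnion fun j => fin (y j)).union (finite_iUnion fun i => fin (s i))).union
    (J.finite_toSet.biUnion fun p _ => fin (lam s p))).subset fun P ⟨a, b, e⟩ => ?_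
  obtain m | ⟨p, m⟩ := pg P a
  · by_cases z : ∀ i, P.ord (s i) = 0
    · obtain ⟨j, hj⟩ := not_forall.1 fun k =>
        b (((fac60 c ρ K s y h).2.2.2.2.2.2.2.2.1 P).2 ⟨mn_hz h m z, k⟩)
      exact .inl (.inl (mem_iUnion.2 ⟨j, a, hj⟩))
    · obtain ⟨i, hi⟩ := not_forall.1 z
      exact .inl (.inr (mem_iUnion.2 ⟨i, a, hi⟩))
  · exact .inr (mem_biUnion (by_contra fun k => e p k m : p ∈ J) ⟨a, m.1.ne'⟩)

/-- the equation of a page at a prime which is not over it -/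
theorem lam_le (h : D.Rat (fr s y)) {P : Pl K} (a : Mn s P ∨ ∃ p, At s P (some p)) {p : Pg c}
    (e : ¬ At s P (some p)) {m : Fin c →₀ ℕ} (hm : m ∈ p.l.support) :
    P.ord (lam s p) ≤ ∑ i, m i * P.ord (s i) := by
  obtain a | ⟨p', a⟩ := a
  · exact a _ m hm
  · rw [at_ne (p := p) a fun z => e (z ▸ a)]
    exact Finset.sum_nonneg fun i _ => mul_nonneg (Int.natCast_nonneg _)
      ((czr80 pol60 fac60 c ρ K s y h).2.2.2.2.1 P (.inr ⟨p', a⟩) i)

/-- the weighted order of a homogeneous function -/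
theorem fs_hm (h : D.Rat (fr s y)) (fin : ∀ a : K, {P | P ∈ T ∧ P.ord a ≠ 0}.Finite)
    {ξ : Pl K → ℝ} (hξ : ∀ P, ξ P ≠ 0 → P ∈ T) (n : Pg c →₀ ℤ) (u : Fin ρ → ℤ) :
    ∑ᶠ P, ξ P * P.ord (hm s y n u) = ∑ j, u j * ∑ᶠ P, ξ P * P.ord (y j) +
      ∑ p ∈ n.support, n p * ∑ᶠ P, ξ P * P.ord (lam s p) := by
  have f := (fac60 c ρ K s y h).2.2.2.2.2.2.2.1
  have fi : ∀ (a : ℝ) (x : K), (Function.support fun P => a * ξ P * (P.ord x : ℝ)).Finite :=
    fun a x => (fin x).subset fun P z => ⟨hξ P (right_ne_zero_of_mul (left_ne_zero_of_mul z)),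
      Int.cast_ne_zero.1 (right_ne_zero_of_mul z)⟩
  simp only [← fs_mul _ _ fun P : Pl K => P.ord _]
  rw [← finsum_sum_comm _ _ fun j _ => fi _ _, ← finsum_sum_comm _ _ fun j _ => fi _ _,
    ← finsum_add_distrib]
  · refine finsum_congr fun E => ?_
    rw [f, Finsupp.sum]
    push_cast
    simp only [mul_add, Finset.mul_sum]
    congr 1 <;> exact Finset.sum_congr rfl fun _ _ => by ring
  · exact ((Finset.univ.finite_toSet.biUnion fun j _ => fi (u j) (y j))).subset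
      (Finset.support_sum _ _)
  · exact ((n.support.finite_toSet.biUnion fun p _ => fi (n p) (lam s p))).subset
      (Finset.support_sum _ _)

/-- it is enough to compare on the frame and on the pages -/
theorem oa_of (h : D.Rat (fr s y)) (fin : ∀ a : K, {P | P ∈ T ∧ P.ord a ≠ 0}.Finite)
    {ξ : Pl K → ℝ} (hξ : ∀ P, ξ P ≠ 0 → P ∈ T) (R : Pl K) (e : ℝ)
    (h1 : ∀ j, ∑ᶠ P, ξ P * P.ord (y j) = e * R.ord (y j))
    (h2 : ∀ p, ∑ᶠ P, ξ P * P.ord (lam s p) = e * R.ord (lam s p)) :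
    ∀ u, ∀ x ∈ Hm s y u, x ≠ 0 → ∑ᶠ P, ξ P * P.ord x = e * R.ord x := fun u x hx x0 => by
  obtain ⟨b, n, b0, rfl⟩ := (fac60 c ρ K s y h).1 u x hx x0
  simp only [Pl.ord_smul _ b0]
  rw [fs_hm h fin hξ, (fac60 c ρ K s y h).2.2.2.2.2.2.2.1, Finsupp.sum]
  push_cast
  simp only [h1, h2, mul_add, Finset.mul_sum]
  congr 1 <;> exact Finset.sum_congr rfl fun _ _ => by ring

/-- **the weights of Goldman and Tucker** -/
theorem gtt (h : D.Rat (fr s y)) (fin : ∀ a : K, {P | P ∈ T ∧ P.ord a ≠ 0}.Finite)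
    (pg : ∀ P ∈ T, Mn s P ∨ ∃ p, At s P (some p)) {J : Finset (Pg c)}
    (co : ∀ (i : Fin c) (p : Pg c), p.l ∣ MvPolynomial.X i → p ∈ J)
    (ex : ∀ p ∉ J, ∃ P ∈ T, At s P (some p))
    (one : ∀ P ∈ T, ∀ p ∉ J, At s P (some p) → mu s P (some p) = 1 ∧ ∀ j, P.ord (y j) = 0)
    (Q : Pl K) (ov : ∀ a : K, a ≠ 0 → (∀ P ∈ T, 0 ≤ P.ord a) → 0 ≤ Q.ord a) :
    ∃ (X : Set (Pl K)) (χ : K) (ξ : Pl K → ℝ), X.Finite ∧ X ⊆ Kt s y T J ∧ χ ≠ 0 ∧
      (∀ P ∈ T, 0 ≤ P.ord χ) ∧ (∀ P ∈ X, 0 < P.ord χ) ∧ Q.ord χ = 0 ∧ Rep s y (T \ X) Q ξ ∧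
      ∀ P ∈ Kt s y (T \ X) J, 0 < ξ P := by
  classical
  obtain ⟨-, f2, f3, f4, f5, f6, -, -, -, f10, -⟩ := fac60 c ρ K s y h
  have kf := fin_kt h fin pg J
  obtain ⟨I, hI⟩ : ∃ I : Finset (Pl K), ∀ E, E ∈ I ↔ E ∈ Kt s y T J :=
    ⟨kf.toFinset, fun E => kf.mem_toFinset⟩
  let Λ : AddSubgroup ((Pg c →₀ ℤ) × (Fin ρ → ℤ)) :=
    { carrier := {l | ∀ p ∉ J, l.1 p = 0}
      zero_mem' := fun _ _ => rfl
      add_mem' := fun a b p z => by simp [a p z, b p z]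
      neg_mem' := fun a p z => by simp [a p z] }
  let O : Pl K → Λ →+ ℤ := fun R => AddMonoidHom.mk' (fun l => R.ord (hm s y l.1.1 l.1.2))
    fun a b => by
      simp only [AddSubgroup.coe_add, Prod.fst_add, Prod.snd_add]
      rw [f3, Pl.ord_mul _ (f2 _ _).1 (f2 _ _).1]
  have out : ∀ (l : Λ), ∀ E ∈ T, ∀ p ∉ J, At s E (some p) → E.ord (hm s y l.1.1 l.1.2) = 0 :=
    fun l E a p z e => by
      rw [f6 _ _ _ _ e]
      simp [(one E a p z e).2, od, l.2 p z]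
  have reg : ∀ l : Λ, (∀ E : I, 0 ≤ O E l) → ∀ E ∈ T, 0 ≤ E.ord (hm s y l.1.1 l.1.2) :=
    fun l hl E a => by
      by_cases z : E ∈ I
      · exact hl ⟨E, z⟩
      by_cases t : Tv s y E
      · exact (t _ _ (f2 _ _).2 (f2 _ _).1).ge
      obtain ⟨p, hp, e⟩ : ∃ p ∉ J, At s E (some p) := by
        by_contra k
        exact z ((hI E).2 ⟨a, t, fun p b e => k ⟨p, b, e⟩⟩)
      exact (out l E a p hp e).ge
  obtain ⟨ξ, l₀, ξ0, h1, h2⟩ := gt' (AddMonoidHom.pi fun E : I => O E) (O Q) fun l hl =>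
    ov _ (f2 _ _).1 (reg l hl)
  replace h1 : ∀ l : Λ, ∑ E : I, ξ E * E.1.ord (hm s y l.1.1 l.1.2) =
      Q.ord (hm s y l.1.1 l.1.2) := h1
  choose b bw bA using fun p : {p // p ∉ J} => ex p p.2
  have bi : Function.Injective b := fun r r' e =>
    Subtype.ext (Option.some.inj (f4 _ _ _ (bA r) (e ▸ bA r')))
  have hs : ∀ i, ∑ E : I, ξ E * E.1.ord (s i) = Q.ord (s i) := fun i => by
    obtain ⟨β, n, β0, -, -, n2, n3⟩ := f10 (MvPolynomial.X i) (MvPolynomial.X_ne_zero i)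
    rw [MvPolynomial.aeval_X] at n3
    have e : ∀ R : Pl K, R.ord (hm s y n 0) = R.ord (s i) := fun R => by rw [n3, Pl.ord_smul _ β0]
    simpa only [e] using h1 ⟨(n, 0), fun p z => (n2 p).2 fun d => z (co i p d)⟩
  let M : {p // p ∉ J} → ℝ := fun p => Q.ord (lam s p) - ∑ E : I, ξ E * E.1.ord (lam s p)
  have M0 : ∀ p, 0 ≤ M p := fun p => by
    obtain ⟨m, hm, k⟩ := G67.exm Q (F60.ind_s h.ind).ne_zero (F60.lam_ne (F60.ind_s h.ind) p.1)
    have k' : ∑ i, (m i : ℝ) * Q.ord (s i) ≤ Q.ord (lam s p) := by exact_mod_cast k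
    refine sub_nonneg.2 (le_trans ?_ k')
    simp only [← hs, Finset.mul_sum]
    rw [Finset.sum_comm]
    refine Finset.sum_le_sum fun E _ => ?_
    have a : (E.1.ord (lam s p) : ℝ) ≤ ∑ i, (m i : ℝ) * E.1.ord (s i) := by
      exact_mod_cast lam_le h (pg E ((hI E).1 E.2).1) (((hI E).1 E.2).2.2 p p.2) hm
    refine (mul_le_mul_of_nonneg_left a (ξ0 E)).trans_eq ?_
    rw [Finset.mul_sum]
    exact Finset.sum_congr rfl fun _ _ => by ring
  let ζ₁ : Pl K → ℝ := Function.extend Subtype.val ξ 0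
  let ζ₂ : Pl K → ℝ := Function.extend b M 0
  have z1 : ∀ E, ζ₁ E ≠ 0 → E ∈ I := fun E z => by_contra fun e =>
    z (Function.extend_apply' _ _ _ fun ⟨E', e'⟩ => e (e' ▸ E'.2))
  have z2 : ∀ E, ζ₂ E ≠ 0 → ∃ r, b r = E := fun E z => by_contra fun e =>
    z (Function.extend_apply' _ _ _ e)
  have w1 : ∀ E, ζ₁ E ≠ 0 → E ∈ T ∧ ¬ Tv s y E := fun E z =>
    ⟨((hI E).1 (z1 E z)).1, ((hI E).1 (z1 E z)).2.1⟩
  have w2 : ∀ E, ζ₂ E ≠ 0 → E ∈ T ∧ ¬ Tv s y E := fun E z => by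
    obtain ⟨r, rfl⟩ := z2 E z
    exact ⟨bw r, (f5 _ _ (bA r)).1⟩
  have hζ : ∀ E, ζ₁ E + ζ₂ E ≠ 0 → E ∈ T ∧ ¬ Tv s y E := fun E z => by
    by_cases e : ζ₁ E = 0
    · exact w2 E fun e' => z (by rw [e, e', add_zero])
    · exact w1 E e
  have sm : ∀ x : K, ∑ᶠ E, (ζ₁ E + ζ₂ E) * E.ord x =
      ∑ E : I, ξ E * E.1.ord x + ∑ᶠ r, M r * (b r).ord x := fun x => by
    simp only [add_mul]
    rw [finsum_add_distrib (fs_fin (P := id) w1 (fin x)) (fs_fin (P := id) w2 (fin x)),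
      H45.fs_ext Subtype.val_injective, H45.fs_ext bi, finsum_eq_sum_of_fintype]
  have hl : ∀ p, ∑ᶠ E, (ζ₁ E + ζ₂ E) * E.ord (lam s p) = Q.ord (lam s p) := fun p => by
    rw [sm]
    by_cases z : p ∈ J
    · let l : Λ := ⟨(Finsupp.single p 1, 0), fun p' e =>
        Finsupp.single_eq_of_ne fun d => e (d ▸ z)⟩
      have a := h1 l
      have d := fun r => out l _ (bw r) _ r.2 (bA r)
      simp only [l, lam_hm] at a d
      simp only [a, d, Int.cast_zero, mul_zero, finsum_zero, add_zero]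
    · rw [finsum_eq_single _ ⟨p, z⟩ fun r e => by
        rw [at_ne (bA r) fun d => e (Subtype.ext d.symm), Int.cast_zero, mul_zero]]
      have : (b ⟨p, z⟩).ord (lam s p) = 1 := (one _ (bw ⟨_, z⟩) p z (bA ⟨_, z⟩)).1
      rw [this]
      simp [M]
  have ζ0 : ∀ E, 0 ≤ ζ₁ E + ζ₂ E := fun E => by
    refine add_nonneg ?_ ?_
    · by_cases e : ζ₁ E = 0
      · exact e.ge
      · exact (ξ0 ⟨E, z1 E e⟩).trans_eq
          (Subtype.val_injective.extend_apply ξ 0 ⟨E, z1 E e⟩).symm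
    · by_cases e : ζ₂ E = 0
      · exact e.ge
      · obtain ⟨r, rfl⟩ := z2 E e
        exact (M0 r).trans_eq (bi.extend_apply M 0 r).symm
  refine ⟨{P | P ∈ Kt s y T J ∧ ζ₁ P + ζ₂ P = 0}, hm s y l₀.1.1 l₀.1.2, fun E => ζ₁ E + ζ₂ E,
    kf.subset fun P a => a.1, fun P a => a.1, (f2 _ _).1, reg l₀ fun E => (h2 E).1,
    fun E a => ?_, ?_, ⟨ζ0, fun P a => ⟨⟨(hζ P a).1, fun z => a z.2⟩, (hζ P a).2⟩,
      fun a ⟨a0, u, ha⟩ => ?_⟩,
    fun P a => (ζ0 P).lt_of_ne' fun z => a.1.2 ⟨⟨a.1.1, a.2⟩, z⟩⟩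
  · have m := (hI E).2 a.1
    have d : ζ₂ E = 0 := by_contra fun d => by
      obtain ⟨r, rfl⟩ := z2 E d
      exact a.1.2.2 _ r.2 (bA r)
    have d' : ζ₁ E = ξ ⟨E, m⟩ := Subtype.val_injective.extend_apply ξ 0 ⟨E, m⟩
    exact (h2 ⟨E, m⟩).2.1 (by simpa only [d, d', add_zero] using a.2)
  · rw [← Int.cast_inj (α := ℝ), ← h1 l₀, Int.cast_zero]
    refine Finset.sum_eq_zero fun E _ => ?_
    obtain d | d := (h2 E).1.eq_or_lt
    · exact mul_eq_zero_of_right _ (Int.cast_eq_zero.2 d.symm)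
    · exact mul_eq_zero_of_left ((h2 E).2.2 d) _
  · rw [oa_of h fin (fun P z => (hζ P z).1) Q 1 (fun j => ?_) (fun p => by rw [hl, one_mul])
      u a ha a0, one_mul]
    have a := h1 ⟨(0, Pi.single j 1), fun _ _ => rfl⟩
    simp only [y_hm] at a
    rw [sm, a, finsum_eq_zero_of_forall_eq_zero fun r => by
      rw [(one _ (bw r) _ r.2 (bA r)).2, Int.cast_zero, mul_zero], add_zero, one_mul]

end Vale.Agent.P283R.Tb.G68
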