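import Vale.Agent.P283R.Tb.St
import Vale.Agent.P283R.Tb.Gt68

/-!
# P283R, block TB: finiteness, Goldman and Tucker
-/

open Set

noncomputable section

namespace Vale.Agent.P283R.Tb

/-- **CAR** -/
theorem car52 : CAR := fun _ _ _ _ _ _ _ _ J fm => by
  classical
  exact ⟨G68.fin_kt fm.rat fm.fin (fun P a => (fm.pg P a).imp_right fun ⟨p, h⟩ => ⟨p, h.1⟩) J,
    _, fm.mis.toFinset.filter (· ∉ J), fun p => by simp [and_comm], rfl⟩

/-- **GT** -/
theorem gt52 : GT := fun _ _ _ _ _ _ _ _ _ _ _ Q fm o ov =>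
  G68.gtt fm.rat fm.fin (fun P a => (fm.pg P a).imp_right fun ⟨p, h⟩ => ⟨p, h.1⟩) o.od.co o.ex
    (fun P a p n b => ⟨(o.od.od P a p n b).1,
      fun j => o.y0 P a p n b j (Pq.F60.y_ne fm.rat.ind j)⟩) Q ov

end Vale.Agent.P283R.Tb
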