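import Vale.Agent.P283R.Tb.St
import Vale.Agent.P283R.Wc.Hlr62

/-!
# P283R, block TB: integer Helly
-/

open Set

noncomputable section

namespace Vale.Agent.P283R.Tb

open Vale.Agent.P287D Vale.Agent.P283M Cx Cy
open Vale.Agent.P283R.To (mon)
open Pq (Hm Hg tot Tv Hz At cz lam mu fr Pg)
open Wc (Kt Ef Mo)
open Wc.H62

/-- **HLR** -/
theorem hlr62 : HLR := fun drp car ca2 mon' B q ε q0 ε0 => by
  classical
  obtain ⟨W, m, m2, hm⟩ := mon' (2 ^ (2 * B + 1) + (2 * B + 1 + 2 ^ (B + 2))) q ε q0 ε0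
  refine ⟨W, m, m2, fun K _ _ c r ρ s y u T G κ Q ξ I J hd hJ S₀ => ?_⟩
  obtain ⟨ξ', t, S, tc, ts⟩ := ca2 K c r ρ s y u T W q ε G κ Q ξ I J S₀
  have fm := S.pk.fm
  obtain ⟨fin, f, hf⟩ := car K c (r + ρ) s _ T J fm
  have r' := S.rep
  have p2 : 2 ^ (c + 2) ≤ 2 ^ (B + 2) := Nat.pow_le_pow_right (by norm_num) (by omega)
  have l0 : ∀ p, lam s p ≠ 0 := Pq.F60.lam_ne (Pq.F60.ind_s fm.rat.ind)
  have y0 : ∀ j, y j ≠ 0 := fun j =>
    Fin.append_left y u j ▸ Pq.F60.y_ne fm.rat.ind (Fin.castAdd ρ j)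
  have f0 : f ≠ 0 := by
    obtain ⟨E, -, rfl⟩ := hf
    exact Finset.prod_ne_zero_iff.2 fun p _ => l0 p
  have z0 : ∀ a, zz s y J f a ≠ 0 := by
    rintro (p | j | _)
    exacts [l0 _, y0 _, f0]
  have g0 := S.pk.g0
  have cd : Fintype.card (J ⊕ Fin r ⊕ Unit) ≤ 2 * B + 1 := by
    simp only [Fintype.card_sum, Fintype.card_coe, Fintype.card_fin, Fintype.card_unique]
    omega
  obtain ⟨l, h1, h2⟩ := hel fin.toFinset (fun P a => P.ord (zz s y J f a)) (fun P => m * κ P)
    (fun a => Q.ord (zz s y J f a))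
    (q * m * (cz s (Fin.append y u) Q + 1) - Q.ord (tot G ^ m)) fun t' ht' c' => by
      let X := Kt s (Fin.append y u) T J \ ↑(t' ∪ t)
      have nx : ∀ P p, p ∉ J → At s P (some p) → P ∉ Kt s (Fin.append y u) T J :=
        fun P p hp a k => k.2.2 p hp a
      have ex : ∀ p ∉ J, ∀ P, At s P (some p) → (P ∈ T \ X ↔ P ∈ T) := fun p hp P a =>
        ⟨fun k => k.1, fun k => ⟨k, fun x => nx P p hp a x.1⟩⟩
      have kt : Kt s (Fin.append y u) (T \ X) J ⊆ ↑(t' ∪ t) := fun P k => by
        by_contra x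
        exact k.1.2 ⟨⟨k.1.1, k.2⟩, x⟩
      have S' : Sc W q ε s y u (T \ X) G κ Q ξ' I J :=
        { pk := drp K c (r + ρ) s _ T _ q ε _ κ X S.pk (fin.subset sdiff_subset)
            fun P k => k.1.2.1
          hg := S.hg
          g0 := S.g0
          rep := ⟨r'.nn, fun P k => ⟨⟨(r'.sup P k).1, fun x => x.2 (by
            rw [Finset.coe_union]
            exact Or.inr (ts P x.1 k))⟩, (r'.sup P k).2⟩, r'.eq⟩
          pos := fun P k => S.pos P k.1
          od := ⟨S.od.co, fun P k => S.od.od P k.1⟩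
          y1 := fun P k => S.y1 P k.1
          u0 := fun P k => S.u0 P k.1
          wi := fun ν h => (S.wi ν h).trans_eq (by
            congr 1
            ext p
            refine and_congr_right fun _ => and_congr_right fun hp => ⟨?_, ?_⟩
            · rintro ⟨P, k, P', k', a, a', e⟩
              exact ⟨P, (ex p hp P a).2 k, P', (ex p hp P' a').2 k', a, a', e⟩
            · rintro ⟨P, k, P', k', a, a', e⟩
              exact ⟨P, k.1, P', k'.1, a, a', e⟩) }
      have hf' : Ef s (T \ X) J f := by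
        obtain ⟨E, e1, e2⟩ := hf
        refine ⟨E, fun p => (e1 p).trans (and_congr_right fun hp => not_congr ⟨?_, ?_⟩), e2⟩
        · rintro ⟨P, k, a⟩
          exact ⟨P, (ex p hp P a).2 k, a⟩
        · rintro ⟨P, k, a⟩
          exact ⟨P, k.1, a⟩
      have pw : 2 ^ Fintype.card (J ⊕ Fin r ⊕ Unit) ≤ 2 ^ (2 * B + 1) :=
        Nat.pow_le_pow_right (by norm_num) cd
      obtain ⟨φ, mφ, k1, k2⟩ := hm K c r ρ s y u (T \ X) G κ Q ξ' I J f
        (hd.trans (le_add_left (le_add_right (by omega))))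
        (hJ.trans (le_add_left (le_add_right (by omega)))) S'
        hf' (by
          refine (ncard_le_ncard kt (Finset.finite_toSet _)).trans ?_
          rw [ncard_coe_finset]
          exact (Finset.card_union_le t' t).trans (add_le_add (c'.trans pw)
            (tc.trans (add_le_add (by omega) p2))))
      obtain ⟨b, l, b0, rfl⟩ := mo mφ
      refine ⟨l, fun P hP => ?_, ?_⟩
      · have k := fin.mem_toFinset.1 (ht' hP)
        have := k1 P ⟨⟨k.1, fun x => x.2 (by
          rw [Finset.coe_union]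
          exact Or.inl hP)⟩, k.2⟩
        rwa [Pl.ord_smul _ b0, To.ord_mon P z0] at this
      · rw [mul_smul_comm, Pl.ord_smul _ b0,
          Q.ord_mul (pow_ne_zero _ g0) (To.mon_ne z0 l), To.ord_mon Q z0] at k2
        linarith
  refine ⟨mon (zz s y J f) l, To.mon_ne z0 l, fun P hP => ?_, ?_⟩
  · rw [To.ord_mon P z0]
    by_cases k : P ∈ Kt s (Fin.append y u) T J
    · exact h1 P (fin.mem_toFinset.2 k)
    · have key : κ P = 0 ∧ ∀ a, P.ord (zz s y J f a) = 0 := by
        obtain ⟨E, e1, rfl⟩ := hf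
        by_cases tv : Tv s (Fin.append y u) P
        · obtain ⟨hz, hy⟩ := ((Pq.fac60 c (r + ρ) K s _ fm.rat).2.2.2.2.2.2.2.2.1 P).1 tv
          refine ⟨(S.pk.reg P hP tv).2, ?_⟩
          rintro (p | j | _)
          · exact hz p.1
          · have := hy (Fin.castAdd ρ j)
            rwa [Fin.append_left] at this
          · exact (Pl.ord_prod _ _ fun p _ => l0 p).trans (Finset.sum_eq_zero fun p _ => hz p)
        · have : ∃ p ∉ J, At s P (some p) := by
            by_contra x
            exact k ⟨hP, tv, fun p hp a => x ⟨p, hp, a⟩⟩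
          obtain ⟨p, hp, a⟩ := this
          refine ⟨(S.od.od P hP p hp a).2.2, ?_⟩
          rintro (p' | j | _)
          · exact at_ne a fun e => hp (e ▸ p'.2)
          · exact S.y1 P hP p hp a j (y0 j)
          · exact (Pl.ord_prod _ _ fun p _ => l0 p).trans (Finset.sum_eq_zero fun p' hp' =>
              at_ne a fun e => ((e1 p').1 hp').2 ⟨P, hP, e ▸ a⟩)
      simp only [key.1, key.2, mul_zero, Finset.sum_const_zero, le_refl]
  · rw [Q.ord_mul (pow_ne_zero _ g0) (To.mon_ne z0 l), To.ord_mon Q z0]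
    linarith

end Vale.Agent.P283R.Tb
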