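import Vale.Agent.P283R.Tb.St
import Vale.Agent.P283R.Pq.All

/-!
# P283R, block TB, last layer: the row IND
-/

open Set

noncomputable section

namespace Vale.Agent.P283R.Tb

open Vale.Agent.P287D Vale.Agent.P283M Cx Cy Vale.Agent.P297Z
open Wc (Dr Ho Kt Rep Sec Av Lk Un Od Or Eqf Wi Ef Mo Gn Pd ForA ForB ForD)
open Vale.Agent.P283R.To (mon)
open Pq (Hm Hg tot Tv At cz lam mu fr Pg)
open Wd (Sb sb)

namespace In31

variable {K : Type} [Field K] [Algebra ℂ K] {c r ρ : ℕ} {s : Fin c → K} {y : Fin r → K}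
  {u : Fin ρ → K}

omit [Algebra ℂ K] in
theorem mon_app (v : Fin r → ℤ) : mon (Fin.append y u) (Fin.append v 0) = mon y v := by
  simp [mon, Fin.prod_univ_add]

/-- the components of a polynomial in `s` and `y` -/
theorem cmp (hy : ∀ j, y j ≠ 0) {a : K} (ha : a ∈ Algebra.adjoin ℂ (range (fr s y))) :
    ∃ G, Hg s (Fin.append y u) G ∧ a = tot G ∧ ∀ w, G w ≠ 0 → ∀ i, w (Fin.natAdd r i) = 0 := by
  classical
  have h1 : a ∈ Submodule.span ℂ {b : K | ∃ v, b ∈ Hm s y v} := by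
    have m0 : mon y 0 = 1 := by simp [mon]
    induction ha using Algebra.adjoin_induction with
    | mem x hx =>
      obtain ⟨i, rfl⟩ := hx
      refine Submodule.subset_span ?_
      refine Fin.addCases (fun i => ?_) (fun j => ?_) i
      · exact ⟨0, s i, IntermediateField.subset_adjoin _ _ ⟨i, rfl⟩, by
          rw [fr, Fin.append_left, m0, mul_one]⟩
      · refine ⟨Pi.single j 1, 1, one_mem _, ?_⟩
        rw [fr, Fin.append_right, one_mul, mon, Finset.prod_eq_single j]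
        · simp
        · intro i _ hi
          simp [hi]
        · simp
    | algebraMap t =>
      exact Submodule.subset_span ⟨0, _, IntermediateField.algebraMap_mem _ t, by rw [m0, mul_one]⟩
    | add x z _ _ hx hz => exact add_mem hx hz
    | mul x z _ _ hx hz =>
      have := Submodule.mul_mem_mul hx hz
      rw [Submodule.span_mul_span] at this
      refine Submodule.span_mono ?_ this
      rintro _ ⟨_, ⟨v, φ, p, rfl⟩, _, ⟨v', φ', p', rfl⟩, rfl⟩
      exact ⟨v + v', φ * φ', mul_mem p p', by rw [To.mon_add hy]; ring⟩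
  clear ha
  induction h1 using Submodule.span_induction with
  | mem x hx =>
    obtain ⟨v, φ, p, rfl⟩ := hx
    refine ⟨Finsupp.single (Fin.append v 0) (φ * mon y v), fun w => ?_,
      (Pq.S80.tot_single _ _).symm, fun w hw i => ?_⟩
    · by_cases e : Fin.append v 0 = w
      · subst e
        exact ⟨φ, p, by rw [Finsupp.single_eq_same, mon_app]⟩
      · exact ⟨0, zero_mem _, by rw [Finsupp.single_eq_of_ne (Ne.symm e), zero_mul]⟩
    · by_cases e : Fin.append v 0 = w
      · subst e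
        simp
      · exact absurd (Finsupp.single_eq_of_ne (Ne.symm e)) hw
  | zero => exact ⟨0, fun w => ⟨0, zero_mem _, by simp⟩, by simp [tot], fun w hw => absurd rfl hw⟩
  | add x z _ _ hx hz =>
    obtain ⟨G, a1, rfl, a2⟩ := hx
    obtain ⟨G', b1, rfl, b2⟩ := hz
    refine ⟨G + G', fun w => ?_, (Finsupp.sum_add_index' (fun _ => rfl) fun _ _ _ => rfl).symm,
      fun w hw => ?_⟩
    · obtain ⟨φ, p, e⟩ := a1 w
      obtain ⟨ψ, q, e'⟩ := b1 w
      exact ⟨φ + ψ, add_mem p q, by rw [Finsupp.add_apply, e, e', add_mul]⟩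
    · by_cases e : G w = 0
      · exact b2 w fun e' => hw (by rw [Finsupp.add_apply, e, e', add_zero])
      · exact a2 w e
  | smul t x _ hx =>
    obtain ⟨G, a1, rfl, a2⟩ := hx
    refine ⟨t • G, fun w => ?_, ?_, fun w hw => a2 w fun e => hw (by simp [e])⟩
    · obtain ⟨φ, p, e⟩ := a1 w
      exact ⟨t • φ, IntermediateField.smul_mem _ p, by rw [Finsupp.smul_apply, e, smul_mul_assoc]⟩
    · rw [tot, tot, Finsupp.sum_smul_index' fun _ => rfl, Finsupp.smul_sum]

end In31

theorem ind31 : IND := by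
  intro K _ _ c r ρ s y u T J κ fm od un p hp
  have fa := Pq.fac _ _ K s _ fm.rat
  have su := Pq.sums _ _ K s _ fm.rat
  have y0 : ∀ j, y j ≠ 0 := fun j => by
    have := fm.rat.ind.ne_zero (Fin.natAdd c (Fin.castAdd ρ j))
    rwa [fr, Fin.append_right, Fin.append_left] at this
  have one : ∀ w, ∀ a ∈ Hm s (Fin.append y u) w, a ≠ 0 → (∀ i, w (Fin.natAdd r i) = 0) →
      ∃ k : ℤ, ∀ P ∈ T, At s P (some p) → P.ord a = k := by
    intro w a ha a0 hw
    obtain ⟨b, n, b0, rfl⟩ := fa.1 w a ha a0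
    refine ⟨n p, fun P hP hA => ?_⟩
    rw [P.ord_smul b0, fa.2.2.2.2.2.1 P _ n w hA, (od.od P hP p hp hA).1, Fin.sum_univ_add]
    simp [hw, un P hP p hp hA _ (y0 _), Pq.od]
  have le : ∀ a ∈ Algebra.adjoin ℂ (range (fr s y)), a ≠ 0 → ∀ P ∈ T, ∀ P' ∈ T,
      At s P (some p) → At s P' (some p) → P.ord a ≤ P'.ord a := by
    intro a ha a0 P hP P' hP' hA hA'
    obtain ⟨G, g1, rfl, g2⟩ := In31.cmp (u := u) y0 ha
    obtain ⟨w, w0, hw⟩ := su.2.1 G P' a0
    obtain ⟨k, hk⟩ := one w _ (g1 w) w0 (g2 w w0)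
    have := fm.inv P hP (fa.2.2.2.2.1 P _ hA).1 G g1 w w0
    rw [id, hk P hP hA] at this
    rw [hk P' hP' hA'] at hw
    exact this.trans hw
  rintro P hP P' hP' hA hA' ⟨z, hz⟩ z0
  obtain ⟨a, ha, b, hb, rfl⟩ := IntermediateField.mem_adjoin_iff_div.1 hz
  have n0 : a / b ≠ 0 := fun e => z0 (Subtype.ext e)
  have a0 : a ≠ 0 := fun e => n0 (by rw [e, zero_div])
  have b0 : b ≠ 0 := fun e => n0 (by rw [e, div_zero])
  change P.ord (a / b) = P'.ord (a / b)
  rw [div_eq_mul_inv, Pl.ord_mul _ a0 (inv_ne_zero b0), Pl.ord_mul _ a0 (inv_ne_zero b0),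
    Pl.ord_inv, Pl.ord_inv, le_antisymm (le a ha a0 P hP P' hP' hA hA') (le a ha a0 P' hP' P hP hA' hA),
    le_antisymm (le b hb b0 P hP P' hP' hA hA') (le b hb b0 P' hP' P hP hA' hA)]

end Vale.Agent.P283R.Tb
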