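import Vale.Agent.P283R.Tb.St
import Vale.Agent.P283R.Wc.Mor18

/-!
# P283R, block TB: few kept primes
-/

open Set

noncomputable section

namespace Vale.Agent.P283R.Tb

open Vale.Agent.P287D Vale.Agent.P283M Cx Cy
open Vale.Agent.P283R.To (mon)
open Pq (Hm Hg tot Tv Hz At cz lam mu fr Pg ForR ForX)
open Wd (Sb sb Wv Ps Wx)
open Wc (Dr Ho Kt Rep Sec Av Lk Un Od Or Eqf Wi Ef Mo Gn Pd ForA ForB ForD)

open Wc.M18 in
theorem mor18 : MOR := by
  intro car gen pdx w1 w2 B q ε q0 e0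
  obtain ⟨W, m, W1, m2, H⟩ := Wc.mur60 Wd.mnw (5 * B + 2) q ε q0 e0
  refine ⟨W, m, m2, fun K _ _ c r ρ s y u T G κ Q ξ I J f b1 b2 sc ef b3 => ?_⟩
  have fm := sc.pk.fm
  have rt := fm.rat
  obtain ⟨e, ei, er⟩ := enum (car K c _ s _ T J fm).1
  obtain ⟨γ, g1, -, g2⟩ := Wc.cmp9 K c r ρ s y u T G rt sc.hg
  obtain ⟨E, s', a', eb, gn⟩ := gen K c r ρ s y u T J κ f _ e fm sc.od sc.y1 ef ei er
  obtain ⟨π, pd, wid⟩ := pdx K c r ρ s y u T W I J _ e fm sc.wi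
  obtain ⟨r1, x1, -⟩ := Pq.B25.tower rt
  have ke : ∀ i, e i ∈ Kt s (Fin.append y u) T J := fun i => er ▸ mem_range_self i
  have h0 : hm u (eta s y) 1 ≠ 0 := by
    rw [eta_eq]
    exact Finset.prod_ne_zero_iff.2 fun j _ => Pq.B25.y_ne rt j
  have o1 : ∀ P : Pl K, P.ord 1 = 0 := fun P => by simp
  obtain ⟨N, l, σ, α, f', dx⟩ := sc.pk.av 1 _ ∅ _ e _ one_ne_zero h0 finite_empty ei
    (fun i => ⟨(ke i).1, notMem_empty _⟩) (fun P p n => by
      rw [er] at n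
      rw [o1, add_zero]
      by_cases t : Tv s (Fin.append y u) P
      · exact ⟨fm.kt P p.1 t, (sc.pk.reg P p.1 t).2⟩
      · by_contra z
        exact n ⟨p.1, t, fun p' a b => z (sc.od.od P p.1 p' a b).2⟩) (frm rt) (kap_eq rt)
  rw [sdiff_empty, div_one, ← g1] at dx
  obtain ⟨n, n1, n2⟩ := H _ _ ρ E _ K N l _ (sb (fr s y)) u T _ σ α f' _ γ _ _ π s' a' Q
    (by omega) (by omega) (by omega) ⟨fun i => cz s (Fin.append y u) (e i), funext fun i => by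
      simp⟩ x1 ⟨frm_of r1.ff r1.ind, g2 sc.g0, dx, wid,
      w1 K c r ρ s y u T W q ε G κ Q ξ I J f _ N E e π σ α s' a' sc ei er pd dx.cox gn,
      w2 K c r ρ s y u T W q ε G κ Q ξ I J _ N e π σ α W1 sc ei er pd wid dx.cox⟩
  have z0 : ∏ j, s' j ^ n j ≠ 0 := Finset.prod_ne_zero_iff.2 fun j _ => pow_ne_zero _ (gn.ne j)
  have ez : ((∏ j, s' j ^ n j : Sb (fr s y)) : K) = ∏ j, (s' j : K) ^ n j := by push_cast; rfl
  have z1 : ∏ j, (s' j : K) ^ n j ≠ 0 := by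
    rw [← ez]
    exact fun a => z0 (Subtype.ext a)
  refine ⟨_, gn.mo n, fun P p => ?_, ?_⟩
  · obtain ⟨i, rfl⟩ : P ∈ range e := er.ge p
    have := (gn.sec _ _ z0).1 (Submodule.subset_span ⟨n, n1, rfl⟩) _ p.1
    rw [dot ei, ez] at this
    simp only [Pi.neg_apply, Pi.smul_apply, smul_eq_mul, o1, add_zero] at this
    omega
  · have g0 := sc.pk.g0
    have qm : (0 : ℝ) < (q * m : ℕ) := by
      have : 0 < q * m := Nat.mul_pos q0 (by omega)
      exact_mod_cast this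
    have e1 : (hm u (eta s y) 1 ^ q * lv u γ) ^ m * ∏ j, algebraMap (Sb (fr s y)) K (s' j) ^ n j =
        hm u (eta s y) 1 ^ (q * m) * (tot G ^ m * ∏ j, (s' j : K) ^ n j) := by
      rw [g1, mul_pow, ← pow_mul, mul_assoc]
      rfl
    rw [ld, kap_eq rt, e1, P297Z.Pl.ord_mul _ (pow_ne_zero _ h0)
      (mul_ne_zero (pow_ne_zero _ g0) z1), P297Z.Pl.ord_pow, sub_pos, div_lt_iff₀ qm] at n2
    have : ((Q.ord (tot G ^ m * ∏ j, (s' j : K) ^ n j) : ℤ) : ℝ) <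
        (q * m * (cz s (Fin.append y u) Q + 1) : ℤ) := by
      push_cast at n2 ⊢
      linarith
    exact_mod_cast this

end Vale.Agent.P283R.Tb
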