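import Vale.Agent.P283R.Tb.St

/-!
# P283R, block TB: the scheme side
-/

set_option linter.all false

open Set CategoryTheory AlgebraicGeometry

noncomputable section

namespace Vale.Agent.P283R.Tb

open Vale.Agent.P287D Vale.Agent.P283M Vale.Agent.P283M.Br Vale.Agent.P283R.Gl Pq.H45

namespace O10

open Vale.Agent.P289 (Pt DForm dimension) in
open Stm Stm.Var in
/-- the scheme side -/
theorem schT {n q M c ρ : ℕ} {ε : ℝ} (M1 : 1 ≤ M)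
    (H : ∀ (c ρ : ℕ) (K : Type) [Field K] [Algebra ℂ K] (ι : Type) (u : Finset K) (Λ Γ Γ' : BD K)
      (s : Fin c → K) (y : Fin ρ → K) (w : ι → Prop) (P : ι → Pl K), c + ρ = n + 1 →
      Dat n u Λ Γ Γ' → Fm s y w P → Function.Injective P →
      (∀ R, R ∈ Cx.Tt n u Λ ↔ ∃ E, w E ∧ P E = R) →
      (∀ R ∈ Cx.Tt n u Λ, dsc (n + 1) Γ R ≤ 0 ∧ ∃ m : ℤ, q * dsc (n + 1) Γ R = m) →
      (∀ R, Ov u R → ε ≤ 1 + dsc (n + 1) Γ R) → NefO n K u (-Γ) → Cpl n M u Λ Γ)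
    {X Z : Var} {f : X.X ⟶ Z.X} {z : Pt Z.X} {V : Z.X.Opens} {ω : DForm ℂ X.K (n + 1)}
    {B : X.QDiv} (hdim : dimension X.str = (n + 1 : ℕ)) (hω : ω.Nonzero)
    (hB : Pair (ε ≤ ·) ⊤ ω B) (hq : ∀ E, ∃ m : ℤ, q * B E = m) (hf : Contraction f)
    (hF : FanoType f ω) (hn : NefOver f (-logCan ω B)) (hz : IsClosed ({z} : Set (Pt Z.X)))
    (hV : IsAffineOpen V) (zV : z ∈ V) {s : Fin c → X.K} {y : Fin ρ → X.K}
    (fm : Fm s y (fun E : X.PrimeDiv => E.1 ∈ f ⁻¹ᵁ V) pq) : HasKltComplement f ω B M z := by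
  obtain ⟨u, bs⟩ := Sch.basV hf hz hV zV
  have hK := ffd X _ hdim
  obtain ⟨Λ, Γ, Γ', a, on, lc, cf, nf, e⟩ := Cox.dataW hK hω hB hf hF bs
  have T : ∀ R, R ∈ Cx.Tt n u Λ ↔ ∃ E : X.PrimeDiv, E.1 ∈ f ⁻¹ᵁ V ∧ pq E = R := fun R => by
    refine ⟨fun t => ?_, ?_⟩
    · obtain ⟨x, hx, dm⟩ := bs.ctr R.ring R.con t.1
      obtain ⟨E, rfl⟩ : ∃ E : X.PrimeDiv, E.1 = x := ⟨⟨x, (on R x hx dm).1 t.2⟩, rfl⟩
      exact ⟨E, hx, Pl.ext' (congrArg _ (P297Z.Pl.eq_of_le' (v := (pq E).toPlace)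
        (w := R.toPlace) fun g hg => (dm g ((pq_is E g).1 hg)).1))⟩
    · rintro ⟨E, c, rfl⟩
      exact ⟨fun b hb => ((pq_is E).dom b (bs.reg b hb _ c)).1, (on _ _ c (pq_is E).dom).2 E.2⟩
  refine e M M1 (H c ρ X.K _ u Λ Γ Γ' s y _ pq
    (Nat.cast_injective (fm.rat.ff.trdeg.symm.trans hK.trdeg)) a fm Pq.S10.pq_inj T
    (fun R t => ?_) lc (nf hn))
  obtain ⟨E, c, rfl⟩ := (T R).1 t
  obtain ⟨m, hm⟩ := hq E
  rw [cf _ E c (pq_is E).dom]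
  refine ⟨neg_nonpos.2 (Rat.cast_nonneg.2 (hB.1 E trivial)), -m, ?_⟩
  have := congrArg (Rat.cast : ℚ → ℝ) hm
  push_cast at this ⊢
  linarith

open Sl Sl.Var in
/-- an invariant affine neighbourhood -/
theorem sum_tb {X Z : Sl.Var} {f : X.X ⟶ Z.X} {z : Pt Z.X} {W : Z.X.Opens} (hf : Contraction f)
    (zW : z.In W) (h : ToricBase (pre f W)) :
    ∃ V ≤ W, IsAffineOpen V ∧ z.In V ∧ ToricBase (pre f V) := by
  obtain ⟨c, r, s, y, N, a, n, b, v⟩ := h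
  obtain ⟨V, v0, v1, v2, v3⟩ := Pq.S10.sum_hm (X := X.o) (Z := Z.o) hf zW (Pq.S10.co_iff.2 ⟨a, b⟩)
  exact ⟨V, v0, v1, v2, c, r, s, y, N, a, n, (Pq.S10.co_iff.1 v3).2, fun E e => v E (v0 e)⟩

end O10

open Sl Sl.Var in
/-- **ONR** -/
theorem onr10 : ONR := by
  intro t h d hd ε hε R hR
  obtain ⟨n, rfl⟩ : ∃ n, d = n + 1 := ⟨d - 1, by omega⟩
  obtain ⟨M, M1, H⟩ := h n (∏ r ∈ R, r.den) ε (Finset.prod_pos fun r _ => r.den_pos) hε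
  refine ⟨M, M1, fun X Z f ω B z a b c e s u ⟨u1, u2, W, zW, w⟩ => (has_iff f ω B M z).2 ?_⟩
  obtain ⟨V, -, hV, zV, w⟩ := O10.sum_tb s zW w
  obtain ⟨x, hx⟩ := s.2.2.1.surj z
  obtain ⟨c', ρ, s', y, fm⟩ := t X _ x (show f x ∈ V from hx ▸ zV) w
  exact O10.schT (X := X.o) (Z := Z.o) M1 H a b ((pair_iff _ _ ω B).1 c) (C3.den e) s
    ((fanoType_iff f ω).1 u1) ((nefOver_iff f _).1 u2) u hV zV fm

end Vale.Agent.P283R.Tb
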