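import Vale.Agent.P283R.Tb.St

/-!
# P283R, block TB: the row OVA
-/

open Set MvPolynomial

noncomputable section

namespace Vale.Agent.P283R.Tb

open Vale.Agent.P287D Vale.Agent.P283M Vale.Agent.P297Z
open Pq (At lam mu Pg)

/-- **OVA** -/
theorem ova39 : OVA := by
  intro c K _ _ s P l hs hl h
  classical
  have ne : ∀ g : MvPolynomial (Fin c) ℂ, g ≠ 0 → aeval s g ≠ 0 := fun g g0 z =>
    g0 (hs (z.trans (map_zero _).symm))
  have n1 : ¬ l ∣ l + 1 := fun d => hl.not_unit (isUnit_of_dvd_one ((dvd_add_right dvd_rfl).1 d))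
  have nn : 0 ≤ P.ord (aeval s l) := by
    have a := (Pl.ord_nonneg_iff P.toPlace (ne (l + 1) fun z => n1 (z ▸ dvd_zero l))).1 (h _ n1).ge
    exact Pl.ord_nonneg_of_mem P.toPlace (by simpa using sub_mem a (one_mem _))
  have fc : ∀ g, g ≠ 0 → ∃ n : ℕ, l ^ n ∣ g ∧ P.ord (aeval s g) = n * P.ord (aeval s l) :=
    fun g g0 => by
      obtain ⟨n, g', a, rfl⟩ := WfDvdMonoid.max_power_factor g0 hl.irreducible
      refine ⟨n, dvd_mul_right _ _, ?_⟩
      rw [map_mul, map_pow, Pl.ord_mul _ (pow_ne_zero _ (ne _ hl.ne_zero))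
        (ne _ (right_ne_zero_of_mul g0)), h _ a, Pl.ord_pow, add_zero]
  have as : ∀ g, Associated l g → P.ord (aeval s g) = P.ord (aeval s l) := by
    rintro _ ⟨u, rfl⟩
    rw [map_mul, Pl.ord_mul _ (ne _ hl.ne_zero) (ne _ u.ne_zero),
      h _ fun d => hl.not_unit (isUnit_of_dvd_unit d u.isUnit), add_zero]
  by_cases b : ∃ j, l ∣ X j
  · obtain ⟨j, b⟩ := b
    have a := hl.associated_of_dvd (X_prime (R := ℂ) (i := j)) b
    have o : ∀ i, P.ord (s i) = P.ord (aeval s l) * (Pi.single j 1 : Fin c → ℤ) i := fun i => by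
      rcases eq_or_ne i j with rfl | n
      · simpa using as _ a
      · simpa [n] using h (X i) fun d => n (X_dvd_X.1 (a.symm.dvd.trans d)).symm
    refine .inl ⟨fun g v hv => ?_, j, (P.ord (aeval s l)).toNat, by rwa [Int.toNat_of_nonneg nn]⟩
    obtain ⟨n, d, e⟩ := fc g fun z => by simp [z] at hv
    obtain ⟨w, rfl⟩ := (a.symm.pow_pow (n := n)).dvd.trans d
    rw [mem_support_iff, X_pow_eq_monomial, coeff_monomial_mul'] at hv
    have le : n ≤ v j := by simpa using (of_not_not fun z => hv (if_neg z) : Finsupp.single j n ≤ v) j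
    rw [e, dt, Finset.sum_eq_single j (fun i _ z => by simp [o i, z]) (by simp), o j]
    simpa using mul_le_mul_of_nonneg_right (Int.ofNat_le.2 le) nn
  have o : ∀ i, P.ord (s i) = 0 := fun i => by simpa using h (X i) fun d => b ⟨i, d⟩
  rcases nn.eq_or_lt with z | z
  · have j : Nonempty (Fin c) := not_isEmpty_iff.1 fun _ => hl.not_unit (by
      have l0 := hl.ne_zero
      rw [eq_C_of_isEmpty l] at l0 ⊢
      exact (Ne.isUnit fun z => l0 (by rw [z, C_0])).map C)
    refine .inl ⟨fun g v hv => ?_, j.some, 0, by simpa using o⟩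
    obtain ⟨n, -, e⟩ := fc g fun z => by simp [z] at hv
    simp [e, ← z, dt, o]
  let p : Pg c := ⟨Associates.mk l, Associates.irreducible_mk.2 hl.irreducible⟩
  have a : Associated l p.l := Associates.mk_eq_mk_iff_associated.1 (Associates.quot_out _).symm
  have m : mu s P (some p) = P.ord (aeval s l) := as _ a
  refine .inr ⟨p, ⟨m ▸ z, fun p' => ?_⟩, o⟩
  rw [Pq.od, Finsupp.single_apply]
  split_ifs with e
  · rw [e, mul_one]
    rfl
  · rw [mul_zero]
    exact h _ fun d => e ((Pq.pol c).2.1 _ _ (a.symm.dvd.trans d)).symm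

end Vale.Agent.P283R.Tb
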