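import Vale.Agent.P283R.Tb.St
import Vale.Agent.P283R.Wc.Spr25

/-!
# P283R, block TB: the gap and the adapted frame
-/

open Set Matrix

noncomputable section

namespace Vale.Agent.P283R.Tb

open Vale.Agent.P287D Vale.Agent.P297Z
open Vale.Agent.P283R.To (mon ord_prod)
open Pq (Hm At cz lam mu fr Pg)

open Wc.S25 in
theorem spl25 : SPL := by
  classical
  have tws := Wc.tws90
  intro W d C₀
  choose C hC using fun ρ => Wd.gap W ρ C₀
  refine ⟨(Finset.range (d + 1)).sup C, fun K _ _ c ρ s y T κ I J₀ hd fm h0 od un => ?_⟩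
  let o : Pl K → Fin ρ → ℤ := fun P j => P.ord (y j)
  let E : Pg c → Set (Fin ρ → ℤ) := fun p =>
    {e | ∃ P ∈ T, ∃ P' ∈ T, At s P (some p) ∧ At s P' (some p) ∧ e = o P - o P'}
  obtain ⟨J, j1, -, j3, j4⟩ := hC ρ I E J₀ h0
  have j5 : J.card ≤ (Finset.range (d + 1)).sup C :=
    j3.trans (Finset.le_sup (f := C) (Finset.mem_range.2 (by omega)))
  obtain ⟨r, ρ', rfl, A, B, hA, hB, hL⟩ := Wd.lat (lt (I \ J) E) fun n m n0 h p hp e he => by
    have := h p hp e he
    rw [dotProduct_smul, smul_eq_mul] at this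
    exact (mul_eq_zero.1 this).resolve_left n0
  have k : ∀ m : Fin (r + ρ') → ℤ, m ᵥ* A ∈ lt (I \ J) E ↔ ∀ j, m (Fin.natAdd r j) = 0 := fun m => by
    rw [hL, Matrix.vecMul_vecMul, hA, Matrix.vecMul_one]
    rfl
  have y0 := Pq.B25.y_ne fm.rat
  have om : ∀ (P : Pl K) i, P.ord (mon y (A i)) = o P ⬝ᵥ A i := fun P i => by
    rw [Pq.B25.ord_bas fm.rat, dotProduct_comm]
  have oz : ∀ P ∈ T, ∀ p ∉ I, At s P (some p) → ∀ i, P.ord (mon y (A i)) = 0 := fun P hP p hp a i => by
    rw [om, show o P = 0 from funext fun j => un P hP p hp a j (y0 j), zero_dotProduct]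
  let F := (I \ J).filter fun p => ∃ P ∈ T, At s P (some p)
  have ex : ∀ p, ∃ P : Option (Pl K), p ∈ F → ∃ P', P = some P' ∧ P' ∈ T ∧ At s P' (some p) :=
    fun p => by
      by_cases h : p ∈ F
      · obtain ⟨P, a, b⟩ := (Finset.mem_filter.1 h).2
        exact ⟨some P, fun _ => ⟨P, rfl, a, b⟩⟩
      · exact ⟨none, fun a => (h a).elim⟩
  choose R hR using ex
  let w : Pg c → Fin r → ℤ := fun p i => (R p).elim 0 fun P => o P ⬝ᵥ A (Fin.castAdd ρ' i)
  let φ : Fin r → K := fun i => ∏ p ∈ F, lam s p ^ (-w p i)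
  have l0 : ∀ p ∈ F, lam s p ≠ 0 := fun p hp =>
    let ⟨_, _, _, a⟩ := hR p hp
    lam_ne a
  have φ0 : ∀ i, φ i ≠ 0 := fun i => Finset.prod_ne_zero_iff.2 fun p hp => zpow_ne_zero _ (l0 p hp)
  have φ1 : ∀ i, φ i ∈ IntermediateField.adjoin ℂ (range s) := fun i =>
    prod_mem fun p _ => by
      have : lam s p ∈ IntermediateField.adjoin ℂ (range s) :=
        IntermediateField.algebra_adjoin_le_adjoin ℂ _ (by
          rw [Algebra.adjoin_range_eq_range_aeval]
          exact ⟨p.l, rfl⟩)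
      exact zpow_mem this _
  have e : Fin.append (fun i => φ i * mon y (A (Fin.castAdd ρ' i)))
      (fun i => mon y (A (Fin.natAdd r i))) =
      fun i => Fin.append φ (fun _ : Fin ρ' => (1 : K)) i * mon y (A i) := funext fun i => by
    refine Fin.addCases (fun i => ?_) (fun i => ?_) i <;> simp
  obtain ⟨b1, -, b3, -, b5⟩ := Pq.B25.bas fm.rat hB
  obtain ⟨t1, t2, t3⟩ := tws K c _ s (fun i => mon y (A i)) T
    (Fin.append φ fun _ : Fin ρ' => (1 : K)) b1 fun i => by
      refine Fin.addCases (fun i => ?_) (fun i => ?_) i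
      · rw [Fin.append_left]
        exact ⟨φ0 i, φ1 i⟩
      · rw [Fin.append_right]
        exact ⟨one_ne_zero, one_mem _⟩
  refine ⟨J, r, ρ', fun i => φ i * mon y (A (Fin.castAdd ρ' i)), fun i => mon y (A (Fin.natAdd r i)),
    j1, j5, ⟨rfl, e ▸ t1, fun P => ?_, { Pq.B25.ev hB with
      map_add' := fun a b => Matrix.add_vecMul B a b }, fun m => ?_⟩, fun P hP p hp a i _ => ?_,
    fun P hP p hp a i _ => oz P hP p hp a _, fun ν ν0 => ?_⟩
  · rw [e, t2, b5]
  · rw [e, t3]
    exact b3 m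
  · have m1 := (od.od P hP p (fun h => hp (j1 h)) a).1
    have oφ : P.ord (φ i) = if p ∈ F then -w p i else 0 := by
      rw [P.ord_prod _ fun p hp => zpow_ne_zero _ (l0 p hp)]
      simp only [Pl.ord_zpow, ord_lam a m1, mul_ite, mul_one, mul_zero]
      rw [Finset.sum_ite_eq']
    rw [Pl.ord_mul _ (φ0 i) (To.mon_ne y0 _), oφ]
    by_cases hI : p ∈ I
    · have hF : p ∈ F := Finset.mem_filter.2 ⟨Finset.mem_sdiff.2 ⟨hI, hp⟩, P, hP, a⟩
      obtain ⟨P', e1, e2, e3⟩ := hR p hF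
      have mem := (k (Pi.single (Fin.castAdd ρ' i) 1)).2 fun j => Pi.single_eq_of_ne (fun h => by
        have := congrArg Fin.val h
        rw [Fin.val_natAdd, Fin.val_castAdd] at this
        omega) _
      rw [Matrix.single_one_vecMul] at mem
      have := mem p (Finset.mem_sdiff.2 ⟨hI, hp⟩) _ ⟨P, hP, P', e2, a, e3, rfl⟩
      rw [sub_dotProduct] at this
      rw [if_pos hF, om]
      simp only [w, e1, Option.elim_some]
      change o P ⬝ᵥ A (Fin.castAdd ρ' i) - o P' ⬝ᵥ A (Fin.castAdd ρ' i) = 0 at this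
      linarith
    · rw [if_neg fun h => hI (Finset.mem_sdiff.1 (Finset.mem_filter.1 h).1).1, oz P hP p hI a,
        add_zero]
  · have ou : ∀ P : Pl K, (fun i => P.ord (mon y (A (Fin.natAdd r i)))) ⬝ᵥ ν =
        o P ⬝ᵥ (Fin.append 0 ν ᵥ* A) := fun P => by
      rw [dotProduct_comm (o P), ← Matrix.dotProduct_mulVec, dotProduct, dotProduct,
        Fin.sum_univ_add]
      simp only [Fin.append_left, Fin.append_right, Pi.zero_apply, zero_mul, Finset.sum_const_zero,
        zero_add, om]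
      exact Finset.sum_congr rfl fun i _ => by rw [mul_comm, dotProduct_comm]; rfl
    refine ((j4 (Fin.append 0 ν ᵥ* A)).resolve_left fun h => ν0 (funext fun j => ?_)).trans
      (le_of_eq ?_)
    · simpa using (k _).1 h j
    · rw [← Set.ncard_coe_finset]
      congr 1
      ext p
      simp only [Finset.coe_filter, Finset.mem_sdiff, mem_ofPred_eq, ou, and_assoc]
      refine and_congr_right fun _ => and_congr_right fun _ => ⟨?_, ?_⟩
      · rintro ⟨_, ⟨P, hP, P', hP', a, a', rfl⟩, h⟩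
        exact ⟨P, hP, P', hP', a, a', fun e => h (by rw [sub_dotProduct, e, sub_self])⟩
      · rintro ⟨P, hP, P', hP', a, a', h⟩
        exact ⟨_, ⟨P, hP, P', hP', a, a', rfl⟩, fun e => h (by rwa [sub_dotProduct, sub_eq_zero] at e)⟩

end Vale.Agent.P283R.Tb
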