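import Vale.Agent.P283R.Pq.All

/-!
# P283R, block TB: the family of the prime divisors, without the clause on the pages
-/

open Set CategoryTheory AlgebraicGeometry

noncomputable section

namespace Vale.Agent.P283R.Tb

open Vale.Agent.P287D Vale.Agent.P283M Vale.Agent.P283R.To Vale.Agent.P297Z Pq
open Vale.Agent.P283M.Stm Vale.Agent.P283M.Stm.Var Vale.Agent.P283M.Br Vale.Agent.P283R.Gl

variable {c ρ : ℕ} {X : Var} {W : X.X.Opens} {s : Fin c → X.K} {y : Fin ρ → X.K}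
  {x : Vale.Agent.P289.Pt X.X}

/-- only finitely many pages are empty -/
theorem mis96 (h : CoY W s y) (hx : x ∈ W)
    (ov : ∀ E : X.PrimeDiv, E.1 ∈ W → (∀ i, (pq E).ord (s i) = 0) →
      ∀ p, ¬ At s (pq E) (some p) → (pq E).ord (lam s p) ≤ 0) :
    {p : Pg c | ¬ ∃ E : X.PrimeDiv, E.1 ∈ W ∧ At s (pq E) (some p)}.Finite := by
  classical
  obtain ⟨U, UW, hU, xU, -⟩ := h.2 x hx
  obtain ⟨T, -, hT⟩ := Am.Str.fg (Am.str X) hU xU
  have hs : AlgebraicIndependent ℂ s := ind_left96 h.1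
  have g0 : genericPoint X.X ∈ U := (genericPoint_specializes x).mem_open U.isOpen xU
  choose b b1 b2 b3 using fun i => Am.frac hU g0 (P270L.S.mem_loc_gen (s i))
  have nn : ∀ a ∈ Am.reg U, ∀ E : X.PrimeDiv, E.1 ∈ U → 0 ≤ (pq E).ord a := fun a ha E hE =>
    Pl.ord_nonneg_of_mem _ ((pq_is E a).2 (Am.mem_reg.1 ha _ hE))
  have s0 : ∀ i, s i ≠ 0 := hs.ne_zero
  have t0 : ∀ i, b i * (b i * s i) ≠ 0 := fun i =>
    mul_ne_zero (b2 i).1 (mul_ne_zero (b2 i).1 (s0 i))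
  have h0 : ∏ i, b i * (b i * s i) ≠ 0 := Finset.prod_ne_zero_iff.2 fun i _ => t0 i
  refine (M29.units pol (insert (∏ i, b i * (b i * s i))⁻¹ T) hs).subset fun p hp => ?_
  have l0 : lam s p ≠ 0 := fun z => ((pol c).1 p).1.ne_zero (hs (z.trans (map_zero _).symm))
  obtain ⟨N, hN⟩ : ∃ N : ℕ, ∀ E : X.PrimeDiv, (pq E).ord (lam s p) ≤ N := by
    obtain ⟨N, hN⟩ := ((fin X (lam s p)).image fun E => ((pq E).ord (lam s p)).toNat).bddAbove
    refine ⟨N, fun E => ?_⟩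
    by_cases z : (pq E).ord (lam s p) = 0
    · omega
    · have := hN ⟨E, by rw [mem_ofPred, pq_ord]; exact_mod_cast z, rfl⟩
      simp only at this
      omega
  have k : (∏ i, b i * (b i * s i)) ^ N * (lam s p)⁻¹ ∈ Am.reg U :=
    Am.mem_reg.2 fun x' hx' => har X _ x' fun E hE => by
      have m := hE.mem_open U.isOpen hx'
      have n : ∀ i, 0 ≤ (pq E).ord (b i * (b i * s i)) := fun i => nn _ (mul_mem (b1 i) (b3 i)) E m
      rw [pq_ord, (pq E).ord_mul (pow_ne_zero _ h0) (inv_ne_zero l0), (pq E).ord_inv, Pl.ord_pow,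
        To.ord_prod _ t0]
      have n1 := Finset.sum_nonneg (s := Finset.univ) fun i _ => n i
      by_cases z : ∀ i, (pq E).ord (s i) = 0
      · have := ov E (UW m) z p fun a => hp ⟨E, UW m, a⟩
        nlinarith [mul_nonneg (Int.natCast_nonneg N) n1]
      · obtain ⟨i, z⟩ := not_forall.1 z
        have n2 := Finset.single_le_sum (fun i _ => n i) (Finset.mem_univ i)
        have n3 := nn _ (b1 i) E m
        have n4 := nn _ (b3 i) E m
        rw [(pq E).ord_mul (b2 i).1 (mul_ne_zero (b2 i).1 (s0 i))] at n2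
        rw [(pq E).ord_mul (b2 i).1 (s0 i)] at n2 n4
        have := hN E
        nlinarith [mul_le_mul_of_nonneg_left (show (1 : ℤ) ≤ ∑ i, (pq E).ord (b i * (b i * s i)) by
          omega) (Int.natCast_nonneg N)]
  have e : (lam s p)⁻¹ = (∏ i, b i * (b i * s i))⁻¹ ^ N *
      ((∏ i, b i * (b i * s i)) ^ N * (lam s p)⁻¹) := by
    rw [inv_pow, inv_mul_cancel_left₀ (pow_ne_zero _ h0)]
  rw [mem_ofPred, e]
  exact mul_mem (pow_mem (Algebra.subset_adjoin (by simp)) _)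
    (Algebra.adjoin_mono (by simp) (hT _ k))

/-- the fields of the family which do not see the pages -/
theorem fm96 (h : CoY W s y) (hx : x ∈ W) : D.Rat (fr s y) ∧
    (∀ a : X.K, {E : X.PrimeDiv | E.1 ∈ W ∧ (pq E).ord a ≠ 0}.Finite) ∧
    {E : X.PrimeDiv | E.1 ∈ W ∧ cz s y (pq E) ≠ 0}.Finite ∧
    (∀ E : X.PrimeDiv, E.1 ∈ W → ¬ Tv s y (pq E) → ∀ G, Hg s y G → ∀ u, G u ≠ 0 →
      (pq E).ord (tot G) ≤ (pq E).ord (G u)) ∧
    (∀ φ : X.K, φ ≠ 0 → (∀ E : X.PrimeDiv, E.1 ∈ W → Tv s y (pq E) → 0 ≤ (pq E).ord φ) →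
      ∃ G, Hg s y G ∧ φ = tot G) ∧
    (∀ a : X.PrimeDiv → ℤ, {E | a E ≠ 0}.Finite →
      ∃ φ : X.K, φ ≠ 0 ∧ ∀ E : X.PrimeDiv, E.1 ∈ W → Tv s y (pq E) → (pq E).ord φ = a E) ∧
    ∀ E : X.PrimeDiv, E.1 ∈ W → Tv s y (pq E) → cz s y (pq E) = 0 := by
  classical
  obtain ⟨r, tp⟩ := rat80 c ρ X W s y x h hx
  refine ⟨r, fun a => (fin X a).subset fun E c => by rw [mem_ofPred, pq_ord]; exact c.2, ?_,
    inv80 c ρ X W s y x h hx, lau80 c ρ X W s y x h hx, fun c hc => ?_, fun E a b => ?_⟩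
  · obtain ⟨-, -, -, -, -, g, -, hg⟩ := czr c ρ X.K s y r
    refine ((M29.fin_cn r.ff).union (fin X g)).subset fun E c => by_contra fun k => c.2 ?_
    rw [mem_union, not_or, mem_ofPred, mem_ofPred, not_not, not_not, pq_ord] at k
    have := hg (pq E)
    rw [k.1, k.2] at this
    exact_mod_cast (by simpa using this.symm : (cz s y (pq E) : ℝ) = 0)
  · have fT : (pq '' {E : X.PrimeDiv | c E ≠ 0 ∧ E.1 ∈ W ∧ Tv s y (pq E)}).Finite :=
      (hc.subset fun _ a => a.1).image _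
    obtain ⟨G, G0, hG⟩ := Gl.eqn r (Function.extend pq c 0) fT.toFinset fun P hP => by
      obtain ⟨E, a, rfl⟩ := fT.mem_toFinset.1 hP
      exact tp E a.2.1 a.2.2
    refine ⟨G, G0, fun E a b => ?_⟩
    by_cases q : pq E ∈ fT.toFinset
    · rw [(hG _ (tp E a b)).1 q, C3.F65.pq_inj.extend_apply]
    · rw [(hG _ (tp E a b)).2 q]
      exact (by_contra fun z => q (fT.mem_toFinset.2 ⟨E, ⟨z, a, b⟩, rfl⟩) : c E = 0).symm
  · have z : ∀ j, (pq E).ord (y j) = 0 := fun j => b _ _ (M29.mem_hm s y j)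
      (Fin.append_right s y j ▸ r.ind.ne_zero (Fin.natAdd c j))
    rw [cz, C3.kt (c + ρ) X.K _ _ r (tp E a b)]
    simp [z]

end Vale.Agent.P283R.Tb
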