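import Vale.Agent.P283R.Tb.St
import Vale.Agent.P283R.Tb.Mis96
import Vale.Agent.P283R.Tb.Few96

/-!
# P283R, block TB: from the text to the family
-/

open Set CategoryTheory AlgebraicGeometry

noncomputable section

namespace Vale.Agent.P283R.Tb

open Vale.Agent.P287D Vale.Agent.P283M Vale.Agent.P283R.Gl
open Pq (At lam Pg)

/-- **LAT** -/
theorem lat96 : LAT := by
  classical
  intro c α v A N hc h
  have : ∀ r : Fin c → ℤ, ∃ B : Finset α, ↑B ⊆ A ∧ B.card ≤ 1 ∧ ∀ m : Fin c → ℤ,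
      (∀ a ∈ B, 0 ≤ ∑ i, m i * v a i) → ∀ (a : α) (k : ℕ), a ∈ A → (∀ i, v a i = k * r i) →
        0 ≤ ∑ i, m i * v a i := fun r => by
    have e : ∀ (m : Fin c → ℤ) (a : α) (k : ℕ), (∀ i, v a i = k * r i) →
        ∑ i, m i * v a i = k * ∑ i, m i * r i := fun m a k z => by
      simp only [z, Finset.mul_sum, mul_left_comm]
    by_cases x : ∃ a ∈ A, ∃ k : ℕ, 0 < k ∧ ∀ i, v a i = k * r i
    · obtain ⟨a₀, a, k₀, b, d⟩ := x
      refine ⟨{a₀}, by simpa using a, by simp, fun m H a k _ hk => ?_⟩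
      have := H a₀ (by simp)
      rw [e m _ _ d] at this
      rw [e m _ _ hk]
      exact mul_nonneg (Int.natCast_nonneg k)
        (nonneg_of_mul_nonneg_right this (by exact_mod_cast b))
    · refine ⟨∅, by simp, by simp, fun m _ a k ha hk => ?_⟩
      obtain rfl : k = 0 := by_contra fun n => x ⟨a, ha, k, Nat.pos_of_ne_zero n, hk⟩
      simp [hk]
  choose B b1 b2 b3 using this
  have s : (↑(N.biUnion B) : Set α) ⊆ A := fun a ha => by
    obtain ⟨r, -, k⟩ := Finset.mem_biUnion.1 ha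
    exact b1 r k
  have k : ∀ m : Fin c → ℤ, (∀ a ∈ N.biUnion B, 0 ≤ ∑ i, m i * v a i) →
      ∀ a ∈ A, 0 ≤ ∑ i, m i * v a i := fun m H a ha => by
    obtain ⟨r, hr, k, hk⟩ := h a ha
    exact b3 r m (fun E x => H E (Finset.mem_biUnion.2 ⟨r, hr, x⟩)) a k ha hk
  rcases hc with hc | hc
  · obtain ⟨D, d1, d2, d3⟩ := few2 hc (N.biUnion B) v
    refine ⟨D, d2.trans ?_, (Finset.coe_subset.2 d1).trans s, fun m H => k m (d3 m H)⟩
    interval_cases c <;> norm_num
  · exact ⟨_, ((Finset.card_biUnion_le_card_mul _ _ 1 fun r _ => b2 r).trans (by simp)).trans hc,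
      s, k⟩

/-- **MISR** -/
theorem misr96 : MISR := fun _ _ _ _ _ s _ _ h hx ov => mis96 h hx fun E hE z p n => by
  obtain a | ⟨p', a⟩ := ov E hE
  · obtain ⟨m, hm⟩ := MvPolynomial.support_nonempty.2 ((Pq.pol _).1 p).1.ne_zero
    simpa [z, lam, dt] using a _ m hm
  · rw [a.1.2, Pq.od, Finsupp.single_eq_of_ne fun e : p' = p => n (e ▸ a.1), mul_zero]

/-- **FMR** -/
theorem fmr96 : FMR := fun mis c ρ X W s y x h hx ov gen =>
  let ⟨a1, a2, a3, a4, a5, a6, a7⟩ := fm96 h hx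
  ⟨a1, a2, a3, a4, a5, a6, a7, mis c ρ X W s y x h hx ov, ov, gen⟩

open Sl Sl.Var in
/-- **TXTR** -/
theorem txtr96 : TXTR := by
  classical
  intro o lat F X W x hx ⟨c, r, s, y, N, a, hN, b, v⟩
  have key : ∀ E : X.o.PrimeDiv, E.1 ∈ W → (Mv s (pq E) ∧
      ∃ n ∈ N ∪ Finset.univ.image fun j => (Pi.single j 1 : Fin c → ℤ), ∃ μ : ℕ,
        ∀ i, (pq E).ord (s i) = μ * n i) ∨ ∃ p, Ax s (pq E) p := fun E hE => by
    obtain ⟨l, l1, l2⟩ | ⟨n, n1, ⟨μ, n2⟩, n3⟩ := v E hE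
    · refine (o c _ s _ l (Pq.ind_left96 a) l1 fun g k => ?_).imp_left fun ⟨i, j, μ, k⟩ =>
        ⟨i, _, Finset.mem_union_right _ (Finset.mem_image_of_mem _ (Finset.mem_univ j)), μ, k⟩
      exact_mod_cast (pq_ord (X := X.o) E _).symm.trans (l2 g k)
    · refine .inl ⟨fun g m hm => ?_, n, Finset.mem_union_left _ n1, μ, fun i => ?_⟩
      · have := n3 g m hm
        have e : ∀ g : X.K, ord g E = (pq (X := X.o) E).ord g := pq_ord (X := X.o) E
        simp only [e] at this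
        exact_mod_cast this
      · exact_mod_cast (pq_ord (X := X.o) E _).symm.trans (n2 i)
  refine ⟨c, r, s, y, F c r X.o W s y x ⟨a, fun x hx => ?_⟩ hx
    (fun E hE => (key E hE).imp_left And.left) fun A hA => ?_⟩
  · obtain ⟨U, c, d, e, k⟩ := b x hx
    refine ⟨U, c, d, e, fun g hg => Submodule.span_mono ?_ (k g hg)⟩
    rintro _ ⟨i, φ, j, m, l⟩
    exact ⟨i, m, φ, j, l⟩
  · obtain ⟨D, d1, d2, d3⟩ := lat c _ (fun R i => R.ord (s i)) {R ∈ A | ∃ i, R.ord (s i) ≠ 0}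
      (N ∪ Finset.univ.image fun j => (Pi.single j 1 : Fin c → ℤ))
      (hN.imp_right fun h => (Finset.card_union_le _ _).trans (by
        have := Finset.card_image_le (s := Finset.univ) (f := fun j => (Pi.single j 1 : Fin c → ℤ))
        have := Nat.lt_two_pow_self (n := c)
        simp only [Finset.card_univ, Fintype.card_fin, pow_succ] at *
        omega)) fun R ⟨i, j, k⟩ => by
        obtain ⟨-, E, hE, rfl⟩ := hA R i
        exact ((key E hE).resolve_right fun ⟨_, z⟩ => k (z.2 j)).2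
    refine ⟨D, d1, fun R z => (d2 z).1, fun m H R z => ?_⟩
    by_cases k : ∃ i, R.ord (s i) ≠ 0
    · exact d3 m H R ⟨z, k⟩
    · simp [dt, show ∀ i, R.ord (s i) = 0 from fun i => by_contra fun n => k ⟨i, n⟩]

end Vale.Agent.P283R.Tb
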