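import Vale.Agent.P283R.Tb.C2r13
import Vale.Agent.P283R.Tb.Cd46
import Vale.Agent.P283R.Tb.Dic80
import Vale.Agent.P283R.Tb.Drp47
import Vale.Agent.P283R.Tb.Eqf78
import Vale.Agent.P283R.Tb.Gen8
import Vale.Agent.P283R.Tb.Gtc52
import Vale.Agent.P283R.Tb.Hlr62
import Vale.Agent.P283R.Tb.Ind31
import Vale.Agent.P283R.Tb.Mor18
import Vale.Agent.P283R.Tb.Nrm52
import Vale.Agent.P283R.Tb.Onr10
import Vale.Agent.P283R.Tb.Ord85
import Vale.Agent.P283R.Tb.Ova39
import Vale.Agent.P283R.Tb.Page85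
import Vale.Agent.P283R.Tb.Pdx31
import Vale.Agent.P283R.Tb.Pqr45
import Vale.Agent.P283R.Tb.Reg21
import Vale.Agent.P283R.Tb.Spl25
import Vale.Agent.P283R.Tb.Txt96
import Vale.Agent.P283R.Tb.W1r21
import Vale.Agent.P283R.Tb.W2r31
import Vale.Agent.P283R.Tb.Wtr59

/-!
# P283R, block TB: the closed statements
-/

namespace Vale.Agent.P283R.Tb

/-- **WID** -/
theorem wid : WID := hlr62 drp47 car52 (c2r13 dic80 car52)
  (mor18 car52 gen8 pdx31 (w1r21 ind31) (w2r31 reg21))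

/-- **WT** -/
theorem wt : WT := wtr59 cd046 (pqr45 ord85 gt52 drp47 page85 nrm52 spl25 eqf78 wid)

/-- **TXT** -/
theorem txt : TXT := txtr96 ova39 lat96 (fmr96 (misr96 dic80))

end Vale.Agent.P283R.Tb

namespace Vale.Agent.P283R.Sl

open Var

/-- torus actions with the orbit space open in a toric variety -/
theorem on_tb : On fun _ _ Z f ω B z => FanoType f ω ∧ NefOver f (-logCan ω B) ∧
    ∃ W : Z.X.Opens, z.In W ∧ ToricBase (pre f W) :=
  Tb.onr10 Tb.txt Tb.wt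

end Vale.Agent.P283R.Sl
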