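import Vale.Agent.P283R.Tb.St
import Vale.Agent.P283R.Tb.Abs13
import Vale.Agent.P283R.Tb.Hg85

/-!
# P283R, block TB: Caratheodory in the wide state
-/

open Set

noncomputable section

namespace Vale.Agent.P283R.Tb

open Vale.Agent.P287D Vale.Agent.P283M Vale.Agent.P297Z
open Pq (Hm At lam mu fr Pg)
open Wc (Ho Kt Rep)

theorem C13.car (dic : DIC) {K : Type} [Field K] [Algebra ℂ K] {c ρ : ℕ} {s : Fin c → K}
    {y : Fin ρ → K} {T : Set (Pl K)} {J : Finset (Pg c)} (fm : Fm s y (· ∈ T) id)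
    (fin : (Kt s y T J).Finite) (co : ∀ (i : Fin c) (p : Pg c), p.l ∣ MvPolynomial.X i → p ∈ J)
    {Q : Pl K} {ξ : Pl K → ℝ} (h : Rep s y T Q ξ) : ∃ (ξ' : Pl K → ℝ) (t : Finset (Pl K)),
      Rep s y T Q ξ' ∧ t.card ≤ 2 ^ (c + 2) + (ρ + J.card) ∧ (∀ P ∈ Kt s y T J, ξ' P ≠ 0 → P ∈ t) ∧
        ∀ P ∉ Kt s y T J, 0 < ξ P → 0 < ξ' P := by
  classical
  obtain ⟨-, f2, -, -, -, -, -, f8, -, f10, -⟩ := Pq.fac c ρ K s y fm.rat
  obtain ⟨-, -, -, d4, d5, d6⟩ := dic c ρ K s y fm.rat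
  let S := fin.toFinset
  have hS : ∀ P, P ∈ S ↔ P ∈ Kt s y T J := fun P => fin.mem_toFinset
  obtain ⟨D, D1, D2⟩ := fm.gen {P | P ∈ S ∧ ξ P ≠ 0 ∧ Mv s P} fun R a =>
    ⟨a.2.2, R, ((hS R).1 a.1).1, rfl⟩
  have ne : ∀ {P p p'}, At s P (some p') → p ≠ p' → P.ord (lam s p) = 0 := fun a e => by
    rw [a.2, Pq.od, Finsupp.single_eq_of_ne e.symm, mul_zero]
  have ex : ∀ P ∉ S, ξ P ≠ 0 → ∃ p ∉ J, At s P (some p) := fun P k m => by
    by_contra z
    exact k ((hS P).2 ⟨(h.sup P m).1, (h.sup P m).2, fun p a b => z ⟨p, a, b⟩⟩)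
  let r : Pl K → Option (Pg c) := fun P =>
    if k : ∃ p ∉ J, At s P (some p) then some k.choose else none
  have fi : ∀ a : K, (Function.support fun P => ξ P * (P.ord a : ℝ)).Finite := fun a =>
    (fm.fin a).subset fun P k =>
      ⟨(h.sup P (left_ne_zero_of_mul k)).1, Int.cast_ne_zero.1 (right_ne_zero_of_mul k)⟩
  have hl : ∀ p, ∑ᶠ P, ξ P * (P.ord (lam s p) : ℝ) = Q.ord (lam s p) := fun p =>
    h.eq _ ⟨Pq.F60.lam_ne (Pq.F60.ind_s fm.rat.ind) p, 0, Pq.F60.lam_mem p⟩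
  have z0 : ∀ p ∈ J, ∀ P ∉ S, ξ P ≠ 0 → (P.ord (lam s p) : ℝ) = 0 := fun p a P k m => by
    obtain ⟨p', b, e⟩ := ex P k m
    rw [ne e fun z => b (z ▸ a), Int.cast_zero]
  have hJ : ∀ p ∈ J, ∑ P ∈ S, ξ P * (P.ord (lam s p) : ℝ) = Q.ord (lam s p) := fun p a => by
    rw [← hl, finsum_eq_sum_of_support_subset]
    exact fun P k => by_contra fun m => right_ne_zero_of_mul k (z0 p a P m (left_ne_zero_of_mul k))
  have hs : ∀ η : Pl K → ℝ, (∀ p ∈ J, ∑ P ∈ S, η P * (P.ord (lam s p) : ℝ) = Q.ord (lam s p)) →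
      ∀ i, ∑ P ∈ S, η P * (P.ord (s i) : ℝ) = Q.ord (s i) := fun η e i => by
    obtain ⟨b, n, b0, -, -, k, a⟩ := f10 (MvPolynomial.X i) (MvPolynomial.X_ne_zero i)
    rw [MvPolynomial.aeval_X] at a
    have o : ∀ P : Pl K, (P.ord (s i) : ℝ) = ∑ p ∈ n.support, n p * (P.ord (lam s p) : ℝ) :=
      fun P => by
        rw [a, P.ord_smul b0, f8, Finsupp.sum]
        simp
    simp only [o, Finset.mul_sum]
    rw [Finset.sum_comm]
    refine Finset.sum_congr rfl fun p m => ?_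
    rw [← e p (co i p (not_not.1 (mt (k p).2 (Finsupp.mem_support_iff.1 m)))), Finset.mul_sum]
    exact Finset.sum_congr rfl fun _ _ => by ring
  obtain ⟨ξ', t, a0, -, a2, a3, a4, a5, a6, a7⟩ := C13.abs (β := Fin ρ ⊕ J) S D ξ h.nn
    (fun P => Sum.elim (fun j => P.ord (y j)) fun p => P.ord (lam s p))
    (fun P o => o.elim 0 fun p => P.ord (lam s p)) r (fun o => o.elim 0 fun p => Q.ord (lam s p))
    (fun P k m => by
      have e := ex P k m
      simp only [r, dif_pos e, Option.elim]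
      refine ⟨Int.cast_pos.2 e.choose_spec.2.1, ?_⟩
      rintro (_ | p) b
      · rfl
      · exact Int.cast_eq_zero.2 (ne e.choose_spec.2 fun z => b (congrArg _ z)))
    (by rintro (j | p); exacts [fi _, fi _])
    (by rintro (_ | p); exacts [by simp, fi _]) (by rintro (_ | p); exacts [by simp, hl p])
    fun ζ ζ0 ζ1 ζ2 e => by
      have eJ : ∀ p ∈ J, ∑ P ∈ S, ζ P * (P.ord (lam s p) : ℝ) = Q.ord (lam s p) := fun p a =>
        (e (.inr ⟨p, a⟩) (z0 p a)).trans (hJ p a)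
      rintro (_ | p)
      · simp
      by_cases a : p ∈ J
      · exact ⟨(eJ p a).le, iff_of_true (eJ p a) (hJ p a)⟩
      have pg : ∀ P ∈ S, Mv s P ∨ ∃ p', p' ≠ p ∧ Ax s P p' := fun P k =>
        (fm.pg P ((hS P).1 k).1).imp_right fun ⟨p', b⟩ =>
          ⟨p', fun z => ((hS P).1 k).2.2 p a (z ▸ b.1), b⟩
      have k1 := d6 Q S ζ p (fun P _ => ζ0 P) (fun P k _ => pg P k) (hs ζ eJ)
      have k2 := d6 Q S ξ p (fun P _ => h.nn P) (fun P k _ => pg P k) (hs ξ hJ)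
      refine ⟨k1.1, k1.2.trans (.trans (exists_congr fun m => and_congr_right fun b =>
        and_congr_right fun _ => ⟨fun z P k n => ?_, fun z P k n => z P k (ζ2 P n)⟩) k2.2.symm)⟩
      obtain v | ⟨p', v, w⟩ := pg P k
      · exact d5 D _ p m b (fun R x => x.2.2) D2
          (fun R x => z R (D2.1 x).1 (ζ1 R x ▸ (D2.1 x).2.1)) P ⟨k, n, v⟩
      · exact d4 P p' p w v.symm m
  have sup := fun P k => h.sup P (a4 P k)
  refine ⟨ξ', t, ⟨a0, sup, fun a ⟨b, u, e⟩ => ?_⟩, a2.trans (Nat.add_le_add D1 (by simp)),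
    fun P k => a3 P ((hS P).2 k), fun P k m => (a0 P).lt_of_ne' (a5 P (mt (hS P).1 k) m.ne')⟩
  refine (C85.oa_of Pq.fac (P := id) ⟨fm.rat, fm.fin⟩ sup Q 1 (fun j => ?_) (fun p => ?_) u a e b).trans
    (one_mul _)
  · have := f2 0 (Pi.single j 1)
    rw [Pq.hm, Finsupp.prod_zero_index, one_mul, show To.mon y (Pi.single j 1) = y j by
      rw [To.mon, Finset.prod_eq_single j (fun i _ k => by simp [k]) (by simp)]; simp] at this
    exact (a6 (.inl j)).trans ((h.eq _ ⟨this.1, _, this.2⟩).trans (one_mul _).symm)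
  · exact (a7 (some p)).trans (one_mul _).symm

/-- **C2R** -/
theorem c2r13 : C2R := fun dic car K _ _ c r ρ s y u T W q ε G κ Q ξ I J h => by
  obtain ⟨ξ', t, a, b, e, f⟩ := C13.car dic h.pk.fm (car K c _ s _ T J h.pk.fm).1 h.od.co h.rep
  exact ⟨ξ', t, { h with
    rep := a
    pos := fun P k p i j m => f P (fun z => z.2.2 p j m) (h.pos P k p i j m) }, by omega, e⟩

end Vale.Agent.P283R.Tb
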