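import Vale.Agent.P283R.Pq.Cnt67

/-!
# P283R, block TB: monomial places, the weights at a place
-/

open Set MvPolynomial

noncomputable section

namespace Vale.Agent.P283R.Tb.C67

open Vale.Agent.P287D Vale.Agent.P283M Vale.Agent.P283R.To Vale.Agent.P297Z Pq

variable {c ρ : ℕ} {K : Type} [Field K] [Algebra ℂ K] {ι : Type} {s : Fin c → K} {y : Fin ρ → K}
  {w : ι → Prop} {P : ι → Pl K} {ε : ℝ} {q : ℕ} {κ : ι → ℤ}

/-- monomial places -/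
def Mn (s : Fin c → K) (R : Pl K) : Prop := ∀ f : MvPolynomial (Fin c) ℂ, ∀ a ∈ f.support,
  R.ord (aeval s f) ≤ ∑ i, a i * R.ord (s i)

/-- places over a page which is not a coordinate page -/
def Nm (s : Fin c → K) (R : Pl K) (r : Option (Pg c)) : Prop :=
  r ≠ none ∧ At s R r ∧ ∀ i, R.ord (s i) = 0

/-- the family -/
structure F0 (s : Fin c → K) (y : Fin ρ → K) (w : ι → Prop) (P : ι → Pl K) : Prop where
  rat : D.Rat (fr s y)
  fin : ∀ a : K, {E | w E ∧ (P E).ord a ≠ 0}.Finite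
  finc : {E | w E ∧ cz s y (P E) ≠ 0}.Finite
  inv : ∀ E, w E → ¬ Tv s y (P E) → ∀ G, Hg s y G → ∀ u, G u ≠ 0 →
    (P E).ord (tot G) ≤ (P E).ord (G u)
  mis : {p : Pg c | ¬ ∃ E, w E ∧ At s (P E) (some p)}.Finite
  pg : ∀ E, w E → Mn s (P E) ∨ ∃ p, At s (P E) (some p)

/-- one monomial computes the order at `Q` and at all the places of `I` -/
def Fl (s : Fin c → K) (Q : Pl K) (I : Finset (Pl K)) (f : MvPolynomial (Fin c) ℂ) : Prop :=
  ∃ a ∈ f.support, (∀ R ∈ I, R.ord (aeval s f) = ∑ i, a i * R.ord (s i)) ∧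
    Q.ord (aeval s f) = ∑ i, a i * Q.ord (s i)

/-- places over a coordinate page are monomial -/
theorem mn_at (h : D.Rat (fr s y)) {R : Pl K} {p : Pg c} (a : At s R (some p)) {i : Fin c}
    (hi : R.ord (s i) ≠ 0) : Mn s R := by
  classical
  obtain ⟨-, f2, -, -, -, f6, -, -, -, f10, -⟩ := fac c ρ K s y h
  obtain ⟨-, -, -, -, c5, -⟩ := czr c ρ K s y h
  have z : ∀ f : MvPolynomial (Fin c) ℂ, f ≠ 0 → ¬ p.l ∣ f → R.ord (aeval s f) = 0 :=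
    fun f f0 n => by
      obtain ⟨b, m, b0, -, -, e, k⟩ := f10 f f0
      rw [k, R.ord_smul b0, f6 R _ m 0 a]
      simp [od, (e p).2 n]
  have d : X i ∣ p.l := ((pol c).1 p).1.irreducible.dvd_symm
    (X_prime (R := ℂ) (i := i)).irreducible
    (by_contra fun n => hi (by simpa using z _ (X_ne_zero i) n))
  have ne : ∀ f : MvPolynomial (Fin c) ℂ, f ≠ 0 → aeval s f ≠ 0 := fun f f0 => by
    simpa [fr] using R80.aev_ne h.ind (Fin.castAdd_injective c ρ) f0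
  have key : ∀ n : ℕ, ∀ f : MvPolynomial (Fin c) ℂ, ∀ m ∈ f.support, m i = n →
      R.ord (aeval s f) ≤ ∑ j, m j * R.ord (s j) := fun n => by
    induction n using Nat.strong_induction_on with
    | _ n ih =>
      intro f m hm e
      have f0 : f ≠ 0 := ne_zero_iff.2 ⟨m, mem_support_iff.1 hm⟩
      by_cases v : p.l ∣ f
      · obtain ⟨g, rfl⟩ := d.trans v
        rw [mem_support_iff, coeff_X_mul'] at hm
        have m0 : i ∈ m.support := by_contra fun k => hm (if_neg k)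
        rw [if_pos m0] at hm
        have m1 := Finsupp.mem_support_iff.1 m0
        have := ih _ (by simp; omega) g _ (mem_support_iff.2 hm) rfl
        rw [map_mul, aeval_X, Pl.ord_mul _ (by simpa using ne _ (X_ne_zero i))
          (ne _ (right_ne_zero_of_mul f0)), ← tsub_add_cancel_of_le
            (Finsupp.single_le_iff.2 (Nat.one_le_iff_ne_zero.2 m1) : Finsupp.single i 1 ≤ m)]
        simp only [Finsupp.add_apply, Nat.cast_add, add_mul, Finset.sum_add_distrib,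
          Finsupp.single_apply, Nat.cast_ite, ite_mul, Finset.sum_ite_eq, Finset.mem_univ, if_true,
          Nat.cast_one, one_mul, Nat.cast_zero, zero_mul]
        linarith
      · rw [z f f0 v]
        exact Finset.sum_nonneg fun j _ => mul_nonneg (Int.natCast_nonneg _) (c5 R (.inr ⟨p, a⟩) j)
  exact fun f m hm => key _ f m hm rfl

theorem F0.tri (X : F0 s y w P) {E : ι} (h : w E) : Mn s (P E) ∨ ∃ r, Nm s (P E) r := by
  obtain a | ⟨p, a⟩ := X.pg E h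
  · exact .inl a
  by_cases z : ∀ i, (P E).ord (s i) = 0
  · exact .inr ⟨some p, by simp, a, z⟩
  · obtain ⟨i, hi⟩ := not_forall.1 z
    exact .inl (mn_at X.rat a hi)

open Classical in
/-- the multiplicity of the place in the page -/
def mv (s : Fin c → K) (R : Pl K) (r : Option (Pg c)) : ℤ := if Nm s R r then mu s R r else 0

theorem mv_pos {R : Pl K} {r : Option (Pg c)} (h : Nm s R r) : mv s R r = mu s R r := if_pos h

theorem mv_neg {R : Pl K} {r : Option (Pg c)} (h : ¬ Nm s R r) : mv s R r = 0 := if_neg h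

theorem mv_nn (R : Pl K) (r : Option (Pg c)) : 0 ≤ mv s R r := by
  by_cases h : Nm s R r
  exacts [mv_pos h ▸ h.2.1.1.le, (mv_neg h).ge]

theorem mv_fin (X : F0 s y w P) (r : Option (Pg c)) : {E | w E ∧ mv s (P E) r ≠ 0}.Finite := by
  have k : ∀ E, mv s (P E) r ≠ 0 → mu s (P E) r ≠ 0 := fun E h =>
    (show Nm s (P E) r from by_contra fun n => h (mv_neg n)).2.1.1.ne'
  cases r with
  | none => exact (X.fin _).subset fun E h => ⟨h.1, neg_ne_zero.1 (k E h.2)⟩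
  | some p => exact (X.fin _).subset fun E h => ⟨h.1, k E h.2⟩

theorem ord_lam (h : D.Rat (fr s y)) {R : Pl K} {r : Option (Pg c)} (a : Nm s R r) (p : Pg c) :
    R.ord (lam s p) = mv s R (some p) := by
  classical
  obtain ⟨-, -, -, f4, -⟩ := fac c ρ K s y h
  obtain ⟨p', rfl⟩ := Option.ne_none_iff_exists'.1 a.1
  rw [a.2.1.2 p]
  obtain rfl | n := eq_or_ne p p'
  · simp [mv_pos a, od]
  · rw [mv_neg fun k => n (Option.some.inj (f4 _ _ _ k.2.1 a.2.1))]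
    simp [od, n.symm]

theorem hw0 (X : F0 s y w P) {g : K} (hw : Hw ε q s y w P g κ) (κf : {E | w E ∧ κ E ≠ 0}.Finite)
    (Q : Pl K) (ζ : ι → ℝ) (ζ0 : 0 ≤ ζ) (hζ : ∀ E, ζ E ≠ 0 → w E ∧ ¬ Tv s y (P E))
    (oζ : ∀ u, ∀ x ∈ Hm s y u, x ≠ 0 → ∑ᶠ E, ζ E * (P E).ord x ≤ Q.ord x)
    (ξ : ι → ℝ) (ξ0 : 0 ≤ ξ) (hξ : ∀ E, ξ E ≠ 0 → w E ∧ ¬ Tv s y (P E))
    (oa : ∀ u, ∀ x ∈ Hm s y u, x ≠ 0 → ∑ᶠ E, ξ E * (P E).ord x ≤ 0) : ∑ᶠ E, ξ E * κ E ≤ 0 := by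
  have ad : ∀ (a : ℝ) (F : ι → ℤ), {E | w E ∧ F E ≠ 0}.Finite →
      ∑ᶠ E, (a * ξ E + ζ E) * F E = a * ∑ᶠ E, ξ E * F E + ∑ᶠ E, ζ E * F E := fun a F hF => by
    simp only [add_mul]
    rw [finsum_add_distrib (fs_fin (fun E hE => hξ E (right_ne_zero_of_mul hE)) hF)
      (fs_fin hζ hF), fs_mul]
  have key : ∀ a : ℝ, 0 ≤ a → ε * q ≤ q * (cz s y Q + 1) - Q.ord g -
      (a * ∑ᶠ E, ξ E * κ E + ∑ᶠ E, ζ E * κ E) := fun a a0 => by
    have := hw Q (fun E => a * ξ E + ζ E) (fun E => add_nonneg (mul_nonneg a0 (ξ0 E)) (ζ0 E))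
      (fun E hE => by
        by_cases z : ζ E = 0
        · exact hξ E fun z' => hE (by simp [z, z'])
        · exact hζ E z)
      fun u x hx x0 => by
        rw [ad a (fun E => (P E).ord x) (X.fin x)]
        linarith [mul_nonpos_of_nonneg_of_nonpos a0 (oa u x hx x0), oζ u x hx x0]
    rwa [ad a κ κf] at this
  by_contra hc
  rw [not_le] at hc
  obtain ⟨m, hm⟩ := exists_nat_gt ((q * (cz s y Q + 1) - Q.ord g - ∑ᶠ E, ζ E * κ E - ε * q) /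
    ∑ᶠ E, ξ E * κ E)
  rw [div_lt_iff₀ hc] at hm
  have := key m (Nat.cast_nonneg m)
  linarith

theorem fs_hm (X : F0 s y w P) {ξ : ι → ℝ}
    (hξ : ∀ E, ξ E ≠ 0 → w E ∧ ¬ Tv s y (P E)) (n : Pg c →₀ ℤ) (u : Fin ρ → ℤ) :
    ∑ᶠ E, ξ E * (P E).ord (hm s y n u) = ∑ j, u j * ∑ᶠ E, ξ E * (P E).ord (y j) +
      ∑ p ∈ n.support, n p * ∑ᶠ E, ξ E * (P E).ord (lam s p) := by
  have f := (fac c ρ K s y X.rat).2.2.2.2.2.2.2.1
  have fi : ∀ (a : ℝ) (x : K), (Function.support fun E => a * ξ E * ((P E).ord x : ℝ)).Finite :=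
    fun a x => fs_fin (fun E hE => hξ E (right_ne_zero_of_mul hE)) (X.fin x)
  simp only [← fs_mul _ _ fun E => (P E).ord _]
  rw [← finsum_sum_comm _ _ fun j _ => fi _ _, ← finsum_sum_comm _ _ fun j _ => fi _ _,
    ← finsum_add_distrib]
  · refine finsum_congr fun E => ?_
    rw [f, Finsupp.sum]
    push_cast
    simp only [mul_add, Finset.mul_sum]
    congr 1 <;> exact Finset.sum_congr rfl fun _ _ => by ring
  · exact ((Finset.univ.finite_toSet.biUnion fun j _ => fi (u j) (y j))).subset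
      (Finset.support_sum _ _)
  · exact ((n.support.finite_toSet.biUnion fun p _ => fi (n p) (lam s p))).subset
      (Finset.support_sum _ _)

theorem oa_of (X : F0 s y w P) {ξ : ι → ℝ}
    (hξ : ∀ E, ξ E ≠ 0 → w E ∧ ¬ Tv s y (P E)) (R : Pl K) (e : ℝ)
    (h1 : ∀ j, ∑ᶠ E, ξ E * (P E).ord (y j) = e * R.ord (y j))
    (h2 : ∀ p, ∑ᶠ E, ξ E * (P E).ord (lam s p) = e * R.ord (lam s p)) :
    ∀ u, ∀ x ∈ Hm s y u, x ≠ 0 → ∑ᶠ E, ξ E * (P E).ord x = e * R.ord x := fun u x hx x0 => by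
  obtain ⟨b, n, b0, rfl⟩ := (fac c ρ K s y X.rat).1 u x hx x0
  simp only [Pl.ord_smul _ b0]
  rw [fs_hm X hξ, (fac c ρ K s y X.rat).2.2.2.2.2.2.2.1, Finsupp.sum]
  push_cast
  simp only [h1, h2, mul_add, Finset.mul_sum]
  congr 1 <;> exact Finset.sum_congr rfl fun _ _ => by ring

theorem hwc (X : F0 s y w P) (ε0 : 0 ≤ ε) {G : (Fin ρ → ℤ) →₀ K}
    (hG : Hg s y G) (g0 : tot G ≠ 0) (hw : Hw ε q s y w P (tot G) κ)
    (κf : {E | w E ∧ κ E ≠ 0}.Finite) (Q : Pl K) (ζ : ι → ℝ) (ζ0 : 0 ≤ ζ)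
    (hζ : ∀ E, ζ E ≠ 0 → w E ∧ ¬ Tv s y (P E))
    (oζ : ∀ u, ∀ x ∈ Hm s y u, x ≠ 0 → ∑ᶠ E, ζ E * (P E).ord x ≤ Q.ord x)
    (ξ : ι → ℝ) (ξ0 : 0 ≤ ξ) (hξ : ∀ E, ξ E ≠ 0 → w E ∧ ¬ Tv s y (P E)) (v : Fin ρ → ℤ)
    (a : Pg c → ℤ) (A : ℤ) (h1 : ∀ j, ∑ᶠ E, ξ E * (P E).ord (y j) = v j)
    (h2 : ∀ p, ∑ᶠ E, ξ E * (P E).ord (lam s p) = a p)
    (H : (0 ≤ A ∧ v = 0 ∧ ∀ p, a p = 0) ∨ ∃ (R : Pl K) (e : ℕ), 0 < e ∧
      (∀ j, v j = e * R.ord (y j)) ∧ (∀ p, e * R.ord (lam s p) = a p) ∧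
      e * (cz s y R + 1) ≤ A) :
    ∃ u, G u ≠ 0 ∧ ∑ᶠ E, ξ E * (P E).ord (G u) + ∑ᶠ E, ξ E * κ E ≤ q * A := by
  obtain ⟨A0, v0, a0⟩ | ⟨R, e, e0, r1, r2, r3⟩ := H
  · have oa : ∀ u, ∀ x ∈ Hm s y u, x ≠ 0 → ∑ᶠ E, ξ E * (P E).ord x = 0 := fun u x hx x0 => by
      rw [oa_of X hξ Q 0 (fun j => by rw [h1, v0]; simp) (fun p => by rw [h2, a0]; simp)
        u x hx x0, zero_mul]
    obtain ⟨u, hu, -⟩ := (sums c ρ K s y X.rat).2.1 G Q g0
    refine ⟨u, hu, ?_⟩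
    rw [oa u _ (hG u) hu, zero_add]
    exact (hw0 X hw κf Q ζ ζ0 hζ oζ ξ ξ0 hξ fun u x hx x0 => (oa u x hx x0).le).trans
      (by positivity)
  · obtain ⟨u, hu, k⟩ := hwg (A := A) sums X.rat ε0 hG g0 hw R e0 (by exact_mod_cast r3) ξ ξ0 hξ
      (oa_of X hξ R e (fun j => by rw [h1, r1]; simp) fun p => by rw [h2, ← r2]; simp)
    exact ⟨u, hu, by linarith [mul_nonneg ε0 (Nat.cast_nonneg (α := ℝ) q)]⟩

section

variable {Q : Pl K} {ζ : ι → ℝ} (X : F0 s y w P) (ζ0 : 0 ≤ ζ)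
  (hζ : ∀ E, ζ E ≠ 0 → w E ∧ ¬ Tv s y (P E))
  (oζ : ∀ u, ∀ x ∈ Hm s y u, x ≠ 0 → ∑ᶠ E, ζ E * (P E).ord x = Q.ord x)

include X ζ0 hζ oζ

/-- an invariant function which is regular on the support of the weights -/
theorem reg {φ : K} (φ0 : φ ≠ 0) (hφ : φ ∈ IntermediateField.adjoin ℂ (range s))
    (h : ∀ E, ζ E ≠ 0 → 0 ≤ (P E).ord φ) :
    0 ≤ Q.ord φ ∧ (Q.ord φ ≤ 0 → ∀ E, ζ E ≠ 0 → (P E).ord φ = 0) := by
  have e := oζ 0 φ ⟨φ, hφ, by simp [mon]⟩ φ0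
  have nn : ∀ E, 0 ≤ ζ E * ((P E).ord φ : ℝ) := fun E => by
    by_cases z : ζ E = 0
    · simp [z]
    · exact mul_nonneg (ζ0 E) (Int.cast_nonneg_iff.2 (h E z))
  refine ⟨Int.cast_nonneg_iff.1 (e ▸ finsum_nonneg nn), fun k E z => ?_⟩
  have := Pq.C67.le_fs (fs_fin hζ (X.fin φ)) nn {E}
  rw [Finset.sum_singleton, e] at this
  exact Int.cast_eq_zero.1 ((mul_eq_zero.1 (le_antisymm (this.trans (Int.cast_nonpos.2 k))
    (nn E))).resolve_left z)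

end

end Vale.Agent.P283R.Tb.C67
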