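import Vale.Agent.P283R.Tb.St

/-!
# P283R, block TB: the logarithmic form
-/

namespace Vale.Agent.P283R.Tb

/-- **CZL** -/
theorem czl12 : CZL := fun _ _ _ _ _ _ _ h P => by
  have := Pq.Z80.la_int h P
  omega

end Vale.Agent.P283R.Tb
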