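import Vale.Agent.P283R.Tb.St
import Vale.Agent.P283R.Tb.Mco85

/-!
# P283R, block TB: monomial places and the dichotomy
-/

open Set

noncomputable section

namespace Vale.Agent.P283R.Tb

open Vale.Agent.P287D Vale.Agent.P283M
open Pq (At Pg lam)

/-- **DIC** -/
theorem dic85 : DIC := fun c ρ K _ _ s y h => by
  have z0 := Pq.F60.ind_s h.ind
  have ex : ∀ (P : Pl K) (p : Pg c), ∃ a ∈ p.l.support, dt s P (fun i => a i) ≤ P.ord (lam s p) :=
    fun P p => Pq.G67.exm P z0.ne_zero (Pq.F60.lam_ne z0 p)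
  have ax : ∀ P p p', Ax s P p → p' ≠ p → ∀ a, Cm s P p' a := fun P p p' a n m =>
    (C85.at_ne a.1 n).trans (by simp [dt, a.2])
  refine ⟨fun P g g0 => Pq.G67.exm P z0.ne_zero fun e => g0 (z0 (e.trans (map_zero _).symm)),
    fun P p a n => ⟨a, C85.s0 h n a⟩, fun P m z p => ?_, ax, fun D A p a ha m d k R hR => ?_,
    fun Q S ξ p ξ0 k e => ?_⟩
  · obtain ⟨a, ha, k⟩ := ex P p
    have := m _ a ha
    simp only [dt, z, mul_zero, Finset.sum_const_zero] at this k
    exact this.antisymm k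
  · obtain ⟨b, hb, l⟩ := ex R p
    have sb : ∀ P, dt s P (fun i => b i - a i) = dt s P (fun i => b i) - dt s P fun i => a i :=
      fun P => by simp only [dt, sub_mul, Finset.sum_sub_distrib]
    have := d.2 (fun i => b i - a i) (fun P u => by
      rw [sb, sub_nonneg, ← k P u]
      exact m P (d.1 u) _ b hb) R hR
    rw [sb] at this
    exact (m R hR _ a ha).antisymm ((sub_nonneg.1 this).trans l)
  have le : ∀ a ∈ p.l.support, ∀ P ∈ S, ξ P * P.ord (lam s p) ≤ ξ P * dt s P fun i => a i :=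
    fun a ha P u => by
      by_cases z : ξ P = 0
      · simp [z]
      refine mul_le_mul_of_nonneg_left (Int.cast_le.2 ?_) (ξ0 P u)
      obtain m | ⟨p', n, m⟩ := k P u z
      exacts [m _ a ha, (ax P p' p m n.symm a).le]
  have sm : ∀ a : Fin c → ℤ, ∑ P ∈ S, ξ P * dt s P a = dt s Q a := fun a => by
    simp only [dt, Int.cast_sum, Int.cast_mul, Finset.mul_sum, ← e]
    rw [Finset.sum_comm]
    exact Finset.sum_congr rfl fun _ _ => Finset.sum_congr rfl fun _ _ => mul_left_comm _ _ _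
  obtain ⟨a, ha, l⟩ := ex Q p
  have l' : (dt s Q (fun i => a i) : ℝ) ≤ Q.ord (lam s p) := Int.cast_le.2 l
  have k1 := (Finset.sum_le_sum (le a ha)).trans_eq (sm _)
  refine ⟨k1.trans l', fun v => ⟨a, ha, ?_, fun P u z => ?_⟩, fun ⟨b, _, v, w⟩ => ?_⟩
  · exact le_antisymm (by exact_mod_cast v ▸ k1) l
  · have := (Finset.sum_eq_sum_iff_of_le (le a ha)).1
      (le_antisymm (Finset.sum_le_sum (le a ha)) (((sm _).trans_le l').trans_eq v.symm)) P u
    exact_mod_cast mul_left_cancel₀ z this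
  · rw [show Q.ord (lam s p) = _ from v, ← sm]
    refine Finset.sum_congr rfl fun P u => ?_
    by_cases z : ξ P = 0
    · simp [z]
    · rw [show P.ord (lam s p) = _ from w P u z]

end Vale.Agent.P283R.Tb
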