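import Vale.Agent.P283R.Tb.St
import Vale.Agent.P283R.Tb.Gt68

/-!
# P283R, block TB: the rows GT and CAR
-/

open Set

noncomputable section

namespace Vale.Agent.P283R.Tb

open Vale.Agent.P287D Vale.Agent.P283M

/-- **GT** -/
theorem gt68 : GT := fun _ _ _ _ _ _ _ _ _ _ _ Q X o ov =>
  G68.gtt X.rat X.fin (fun P h => (X.pg P h).imp id fun ⟨p, a⟩ => ⟨p, a.1⟩) o.od.co o.ex
    (fun P hP p a b => ⟨(o.od.od P hP p a b).1,
      fun j => o.y0 P hP p a b j (Pq.F60.y_ne X.rat.ind j)⟩) Q ov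

/-- **CAR** -/
theorem car68 : CAR := fun _ _ _ _ _ _ _ _ J X => by
  classical
  exact ⟨G68.fin_kt X.rat X.fin (fun P h => (X.pg P h).imp id fun ⟨p, a⟩ => ⟨p, a.1⟩) J,
    _, X.mis.toFinset.filter (· ∉ J), fun p => by simp [and_comm], rfl⟩

end Vale.Agent.P283R.Tb
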