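import Vale.Agent.P283R.Tb.St
import Vale.Agent.P283R.Wc.Ga70

/-!
# P283R, block TB: the row GEN
-/

set_option linter.all false

open Set

noncomputable section

namespace Vale.Agent.P283R.Tb

open Vale.Agent.P287D Vale.Agent.P297Z Vale.Agent.P283R.To
open Cx (Sp dg)
open Pq (Hm Tv At lam mu fr Pg hm od Hz)
open Wd (Sb sb)
open Wc (Dr Kt Mo)
open Wd.G70

namespace G41

variable {K K₁ : Type} [Field K] [Algebra ℂ K] [Field K₁] [Algebra ℂ K₁] [Algebra K₁ K]
  [IsScalarTower ℂ K₁ K] {k N M c r ρ : ℕ} {ι : Type} {s : Fin c → K} {y : Fin (r + ρ) → K}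
  {w : ι → Prop} {P : ι → Pl K}

theorem dec41 (s₁ : Fin c → K₁) (y₁ : Fin r → K₁)
    (hs : ∀ i, s i = algebraMap K₁ K (s₁ i))
    (hy : ∀ i, y (Fin.castAdd ρ i) = algebraMap K₁ K (y₁ i)) (h : Fm s y w P) {φ : K} (φ0 : φ ≠ 0)
    (hφ : ∀ E, w E → Tv s y (P E) → 0 ≤ (P E).ord φ) :
    ∃ (t : Finset (Fin (r + ρ) → ℤ)) (ζ : (Fin (r + ρ) → ℤ) → K₁),
      φ = ∑ v ∈ t, Cx.hm (fun i => y (Fin.natAdd r i)) (ζ v) (fun i => v (Fin.natAdd r i)) ∧
      ∀ v ∈ t, ζ v ≠ 0 ∧ (∃ (β : ℂ) (n : Pq.Pg c →₀ ℤ) (m : Fin r → ℤ), β ≠ 0 ∧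
        algebraMap K₁ K (ζ v) = β • hm s y n (Fin.append m 0)) ∧ ∀ E, w E →
        (Tv s y (P E) → (P E).ord (Cx.hm (fun i => y (Fin.natAdd r i)) (ζ v)
          fun i => v (Fin.natAdd r i)) = 0) ∧
        (¬ Tv s y (P E) → (P E).ord φ ≤ (P E).ord (Cx.hm (fun i => y (Fin.natAdd r i)) (ζ v)
          fun i => v (Fin.natAdd r i))) := by
  obtain ⟨f1, -⟩ := Pq.fac c _ K s y h.rat
  obtain ⟨G, hG, rfl⟩ := h.lau _ φ0 hφ
  have cmp : ∀ v, G v ≠ 0 → ∃ ζ : K₁, G v = Cx.hm (fun i => y (Fin.natAdd r i)) ζ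
      (fun i => v (Fin.natAdd r i)) ∧ ∃ (β : ℂ) (n : Pq.Pg c →₀ ℤ) (m : Fin r → ℤ), β ≠ 0 ∧
        algebraMap K₁ K ζ = β • hm s y n (Fin.append m 0) := fun v G0 => by
    obtain ⟨β, n, β0, eb⟩ := f1 v _ (hG v) G0
    have e : algebraMap K₁ K (β • hm s₁ y₁ n fun i => v (Fin.castAdd ρ i)) =
        β • hm s y n (Fin.append (fun i => v (Fin.castAdd ρ i)) 0) := by
      refine (map_smul (IsScalarTower.toAlgHom ℂ K₁ K) _ _).trans (congrArg _ ?_)
      rw [hm_map]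
      simp only [hm, mon, Fin.prod_univ_add, Fin.append_left, Fin.append_right, Pi.zero_apply,
        zpow_zero, Finset.prod_const_one, mul_one, hy, funext hs]
      rfl
    refine ⟨_, ?_, β, n, _, β0, e⟩
    rw [eb, Cx.hm, e, smul_mul_assoc]
    simp [hm, mon, Fin.prod_univ_add, mul_assoc]
  choose! ζ e1 e2 using cmp
  refine ⟨G.support, ζ, Finset.sum_congr rfl fun v hv => e1 v (Finsupp.mem_support_iff.1 hv),
    fun v hv => ?_⟩
  have G0 := Finsupp.mem_support_iff.1 hv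
  refine ⟨fun z => G0 (by rw [e1 v G0, z, Cx.hm_zero]), e2 v G0, fun E u => ?_⟩
  rw [← e1 v G0]
  exact ⟨fun t => t _ _ (hG v) G0, fun t => h.inv E u t G hG v G0⟩

end G41

/-- **GEN** -/
theorem gen41 : GEN := by
  rintro K _ _ c r ρ s y u T J κ f k e h od' un ⟨Ee, hE, hf⟩ ei er
  classical
  obtain ⟨-, f2, f3, -, -, f6, f7, -, f9, f10, f11⟩ := Pq.fac c _ K s _ h.rat
  obtain ⟨-, -, -, c4, c5, -⟩ := Pq.czr c _ K s _ h.rat
  obtain ⟨-, -, -, p4⟩ := Pq.pol c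
  let φ := IsScalarTower.toAlgHom ℂ (Sb (fr s y)) K
  let s₁ : Fin c → Sb (fr s y) := fun i => sb (fr s y) (Fin.castAdd r i)
  let y₁ : Fin r → Sb (fr s y) := fun i => sb (fr s y) (Fin.natAdd c i)
  have hs : ∀ i, s i = algebraMap (Sb (fr s y)) K (s₁ i) := fun i => (Fin.append_left s y i).symm
  have hy' : ∀ i, y i = algebraMap (Sb (fr s y)) K (y₁ i) := fun i => (Fin.append_right s y i).symm
  have hy : ∀ i, Fin.append y u (Fin.castAdd ρ i) = algebraMap (Sb (fr s y)) K (y₁ i) := fun i =>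
    (Fin.append_left y u i).trans (hy' i)
  have ind : AlgebraicIndependent (Sb (fr s y)) fun i => Fin.append y u (Fin.natAdd r i) := by
    rw [funext (Fin.append_right y u)]
    exact (Pq.B25.tower h.rat).2.1.ind
  have s0 : ∀ i, s i ≠ 0 := fun i => by
    have := h.rat.ind.ne_zero (Fin.castAdd _ i)
    rwa [fr, Fin.append_left] at this
  have kt : ∀ i, e i ∈ Kt s (Fin.append y u) T J := fun i => er ▸ mem_range_self i
  have d1 : ∀ (i) (δ : Fin k → ℤ), δ ⬝ᵥ Dr e (e i) = δ i := fun i δ => by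
    rw [show Dr e (e i) = Pi.single i 1 from funext fun j => by
      simp [Dr, ei.eq_iff, Pi.single_apply, eq_comm], dotProduct_single_one]
  have d0 : ∀ P, P ∉ Kt s (Fin.append y u) T J → ∀ δ : Fin k → ℤ, δ ⬝ᵥ Dr e P = 0 := fun P t δ => by
    rw [show Dr e P = 0 from funext fun j => if_neg fun z : P = e j => t (z ▸ kt j),
      dotProduct_zero]
  have h2 : ∀ P ∈ T, (∃ i, e i = P) ∨ (∀ δ : Fin k → ℤ, δ ⬝ᵥ Dr e P = 0) ∧
      (Tv s (Fin.append y u) P ∨ ∃ p ∉ J, At s P (some p)) := fun P hP => by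
    by_cases t : P ∈ Kt s (Fin.append y u) T J
    · exact .inl (er ▸ t : P ∈ range e)
    refine .inr ⟨d0 P t, ?_⟩
    by_contra q
    exact t ⟨hP, fun z => q (.inl z), fun p a b => q (.inr ⟨p, a, b⟩)⟩
  obtain ⟨F, hF⟩ : ∃ F : Pg c →₀ ℤ, ∀ p, F p = if p ∈ Ee then 1 else 0 :=
    ⟨Finsupp.onFinset Ee _ fun p a => by
      by_contra q
      exact a (if_neg q), fun _ => rfl⟩
  let g : J ⊕ Fin r → (Pg c →₀ ℤ) × (Fin r → ℤ) := Sum.elim
    (fun p => (Finsupp.single p.1 1, 0)) fun i => (0, Pi.single i 1)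
  let H : (Pg c →₀ ℤ) × (Fin r → ℤ) → K := fun q => hm s (Fin.append y u) q.1 (Fin.append q.2 0)
  have Hy : ∀ q, H q = hm s y q.1 q.2 := fun q => by simp [H, hm, mon, Fin.prod_univ_add]
  have H0 : ∀ q, H q ≠ 0 := fun q => (f2 _ _).1
  have Ha : ∀ q q', H (q + q') = H q * H q' := fun q q' => by
    rw [← f3]
    refine congrArg (hm s _ _) (funext fun j => ?_)
    refine Fin.addCases (fun i => ?_) (fun i => ?_) j <;> simp
  have e0 : ∀ n', H (n', 0) = hm s (Fin.append y u) n' 0 := fun n' =>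
    congrArg (hm s _ n') (funext fun j => by
      refine Fin.addCases (fun i => ?_) (fun i => ?_) j <;> simp)
  have Hφ : ∀ q, φ (hm s₁ y₁ q.1 q.2) = H q := fun q => by
    rw [hm_map, Hy]
    exact congrArg₂ (fun a b => hm a b q.1 q.2) (funext hs).symm (funext hy').symm
  have Hf : H (F, 0) = f := by
    rw [Hy, hf, hm, Finsupp.prod_of_support_subset F (s := Ee) (fun p a => by
      by_contra q
      exact Finsupp.mem_support_iff.1 a ((hF p).trans (if_neg q))) _ fun _ _ => zpow_zero _]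
    simp only [mon, Pi.zero_apply, zpow_zero, Finset.prod_const_one, mul_one]
    exact Finset.prod_congr rfl fun p a => by rw [hF, if_pos a, zpow_one]
  have f0 : f ≠ 0 := Hf ▸ H0 _
  have Ho : ∀ P ∈ T, ∀ p ∉ J, At s P (some p) → ∀ q, P.ord (H q) = q.1 p := fun P a p v z q => by
    have y0 : ∀ i, y i ≠ 0 := fun i => by
      have := h.rat.ind.ne_zero (Fin.natAdd c (Fin.castAdd ρ i))
      rwa [fr, Fin.append_right, Fin.append_left] at this
    rw [f6 _ _ _ _ z, (od'.od P a p v z).1, Fin.sum_univ_add]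
    simp [un P a p v z _ (y0 _), od]
  have Hn : ∀ P ∈ T, (Tv s (Fin.append y u) P ∨ ∃ p ∉ J, At s P (some p)) →
      (∀ j, P.ord (H (g j)) = 0) ∧ P.ord f = 0 := by
    rintro P a (v | ⟨p, v, z⟩)
    · exact ⟨fun j => v _ _ (f2 _ _).2 (H0 _), Hf ▸ v _ _ (f2 _ _).2 (H0 _)⟩
    refine ⟨fun j => ?_, ?_⟩
    · rw [Ho P a p v z]
      rcases j with p' | i
      · exact Finsupp.single_eq_of_ne fun e => v (e ▸ p'.2)
      · rfl
    · rw [← Hf, Ho P a p v z]
      exact (hF p).trans (if_neg fun q => ((hE p).1 q).2 ⟨P, a, z⟩)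
  have x0 : ∀ q : (Pg c →₀ ℤ) × (Fin r → ℤ), hm s₁ y₁ q.1 q.2 ≠ 0 := fun q e =>
    H0 q (by rw [← Hφ, e, map_zero])
  obtain ⟨E, s', a', hE', sm, key⟩ :=
    Wc.G70.sp_tor (fun j => x0 (g j)) fun i j => (e i).ord (H (g j))
  have s0' : ∀ j, s' j ≠ 0 := fun j => (sm j).elim fun v hv => hv ▸ mon_ne (fun j => x0 (g j)) v
  have kS : ∀ m, Sp (fun j => φ (s' j)) a' m = Submodule.span ℂ (mon (fun j => H (g j)) ''
      {n | ∀ i, 0 ≤ ∑ j, n j * (e i).ord (H (g j)) + m i}) := fun m => by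
    rw [sp_map, key, Submodule.map_span, image_image]
    simp only [mon, AlgHom.toLinearMap_apply, map_prod, map_zpow₀, Hφ]
    rfl
  let x₁ : Fin (c + 1) → Sb (fr s y) := Fin.cons (hm s₁ y₁ F 0)⁻¹ s₁
  let X : Fin (c + 1) → K := Fin.cons f⁻¹ s
  have eX : ∀ l, φ (x₁ l) = X l := fun l => by
    refine Fin.cases ?_ (fun i => (hs i).symm) l
    show φ (hm s₁ y₁ F 0)⁻¹ = f⁻¹
    rw [map_inv₀, Hφ (F, 0), Hf]
  have X0 : ∀ l, X l ≠ 0 := fun l => Fin.cases (inv_ne_zero f0) s0 l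
  let b : Fin (c + 1) → Fin k → ℤ := fun l i => -(e i).ord (X l)
  have eT : (fun j => φ (Fin.append s' x₁ j)) = Fin.append (fun j => φ (s' j)) X :=
    funext fun j => by refine Fin.addCases (fun i => ?_) (fun i => ?_) j <;> simp [eX]
  have T0 : ∀ j, Fin.append s' x₁ j ≠ 0 := fun j => by
    refine Fin.addCases (fun i => ?_) (fun i => ?_) j
    · rw [Fin.append_left]
      exact s0' i
    · rw [Fin.append_right]
      exact fun e => X0 i (by rw [← eX, e, map_zero])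
  have M1 : Mo s y J f 1 := ⟨1, 0, 0, 0, one_ne_zero, by simp, by simp [hm, mon]⟩
  have Mm : ∀ a b, Mo s y J f a → Mo s y J f b → Mo s y J f (a * b) := by
    rintro _ _ ⟨β, n, v, a, β0, hn, rfl⟩ ⟨β', n', v', a', β0', hn', rfl⟩
    refine ⟨β * β', n + n', v + v', a + a', mul_ne_zero β0 β0',
      Finsupp.support_add.trans (Finset.union_subset hn hn'), ?_⟩
    have := Ha (n, v) (n', v')
    simp only [Hy, Prod.mk_add_mk] at this
    rw [this, smul_mul_smul_comm, pow_add, div_mul_div_comm]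
  refine ⟨_, Fin.append s' x₁, Fin.append a' b, ?_, T0, fun n => ?_, fun δ z z0 => ?_⟩
  · rw [hE', Fintype.card_sum, Fintype.card_coe, Fintype.card_fin]
    omega
  · refine Finset.prod_induction _ _ Mm M1 fun j _ => ?_
    suffices a : Mo s y J f (φ (Fin.append s' x₁ j)) by
      induction n j with
      | zero => rw [pow_zero]; exact M1
      | succ n ih => rw [pow_succ]; exact Mm _ _ ih a
    refine Fin.addCases (fun i => ?_) (fun l => ?_) j
    · obtain ⟨v, hv⟩ := sm i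
      refine ⟨1, (∑ j, v j • g j).1, (∑ j, v j • g j).2, 0, one_ne_zero, fun p a => ?_, ?_⟩
      · by_contra q
        refine Finsupp.mem_support_iff.1 a ?_
        rw [Prod.fst_sum, Finsupp.finset_sum_apply]
        refine Finset.sum_eq_zero ?_
        rintro (p' | i) -
        · have : p ≠ p'.1 := fun e => q (e ▸ p'.2)
          simp [g, Finsupp.single_eq_of_ne this]
        · simp [g]
      · rw [Fin.append_left, hv, one_smul, pow_zero, div_one, ← Hy, hom_mon H H0 Ha]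
        simp only [mon, map_prod, map_zpow₀, Hφ]
    · rw [Fin.append_right, eX]
      refine Fin.cases ⟨1, 0, 0, 1, one_ne_zero, by simp, by simp [hm, mon, X]⟩ (fun i => ?_) l
      obtain ⟨β, n, β0, -, -, hn, eb⟩ := f10 (MvPolynomial.X i) (MvPolynomial.X_ne_zero i)
      refine ⟨β, n, 0, 0, β0, fun p a => od'.co i p
        (not_not.1 fun z => Finsupp.mem_support_iff.1 a ((hn p).2 z)), ?_⟩
      rw [MvPolynomial.aeval_X, ← e0, Hy] at eb
      rw [pow_zero, div_one]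
      exact eb
  have z0' : φ z ≠ 0 := (map_ne_zero φ).2 z0
  rw [← mem_map φ]
  refine ⟨fun q => sp_sec (pl := id) (w := (· ∈ T)) (Dr e) (fun j => (map_ne_zero φ).2 (T0 j))
    (fun j => ?_) q z0', fun q => ?_⟩
  · refine Fin.addCases (fun i => ?_) (fun l P a => ?_) j
    · rw [Fin.append_left, Fin.append_left]
      refine C3.G41.sec_span (pl := id) (T := T) (fun P => a' i ⬝ᵥ Dr e P) ?_
        (kS _ ▸ sp_gen (fun j => φ (s' j)) a' i) ((map_ne_zero φ).2 (s0' i))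
      rintro _ ⟨n, hn, rfl⟩ P a
      rw [id, ord_mon _ fun j => H0 _]
      rcases h2 P a with ⟨i', rfl⟩ | ⟨v, v'⟩
      · rw [d1]
        exact hn i'
      · simp [v, (Hn P a v').1]
    · rw [Fin.append_right, Fin.append_right, eX, id]
      rcases h2 P a with ⟨i', rfl⟩ | ⟨v, v'⟩
      · rw [d1]
        exact (add_neg_cancel _).ge
      · rw [v, add_zero]
        refine Fin.cases ?_ (fun l => ?_) l
        · show 0 ≤ P.ord f⁻¹
          rw [Pl.ord_inv, (Hn P a v').2, neg_zero]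
        · exact c5 _ (v'.imp (fun t => ((f9 _).1 t).1) fun ⟨p, _, t⟩ => ⟨p, t⟩) l
  have tv : ∀ P, Tv s (Fin.append y u) P → ∀ δ : Fin k → ℤ, δ ⬝ᵥ Dr e P = 0 := fun P v =>
    d0 P fun t => t.2.1 v
  obtain ⟨t, ζ, eq, ht⟩ := G41.dec41 s₁ y₁ hs hy h z0' fun P a v => by
    have := q P a
    rwa [tv P v, add_zero] at this
  have e3 : ∑ v ∈ t, Finsupp.single (fun i => v (Fin.natAdd r i)) (ζ v) - Finsupp.single 0 z = 0 :=
    Cx.lv_inj ind (by
      rw [sub_eq_add_neg, ← Finsupp.single_neg, Cx.lv_add, lv_sum, ← eq, Cx.lv_single, Cx.hm_deg0,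
        map_neg]
      exact add_neg_cancel _)
  have e4 := DFunLike.congr_fun (sub_eq_zero.1 e3) 0
  rw [Finsupp.single_eq_same, Finsupp.finset_sum_apply] at e4
  rw [eT, ← e4, map_sum]
  refine sum_mem fun v hv => ?_
  rw [Finsupp.single_apply]
  split_ifs with v0
  swap
  · rw [map_zero]
    exact zero_mem _
  obtain ⟨-, ⟨β, n, m, β0, eb⟩, ho⟩ := ht v hv
  rw [v0, Cx.hm_deg0, eb] at ho
  rw [show φ (ζ v) = β • H (n, m) from eb]
  refine Submodule.smul_mem _ _ ?_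
  have sc : ∀ P ∈ T, 0 ≤ P.ord (H (n, m)) + δ ⬝ᵥ Dr e P := fun P a => by
    have a1 := ho P a
    rw [Pl.ord_smul _ β0] at a1
    by_cases t : Tv s (Fin.append y u) P
    · exact ((congrArg₂ (· + ·) (a1.1 t) (tv P t δ)).trans (add_zero _)).ge
    · exact (q P a).trans (add_le_add_left (a1.2 t) _)
  obtain ⟨N₀, hN⟩ : ∃ N₀ : ℕ, ∀ p, 0 ≤ n p + N₀ := by
    refine ⟨∑ p ∈ n.support, (n p).natAbs, fun p => ?_⟩
    by_cases t : p ∈ n.support
    · have := Finset.single_le_sum (f := fun p => (n p).natAbs) (fun _ _ => Nat.zero_le _) t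
      omega
    · rw [Finsupp.notMem_support_iff.1 t, zero_add]
      exact Int.natCast_nonneg _
  let ξ : J ⊕ Fin r → ℤ := Sum.elim (fun p => n p.1) m
  obtain ⟨n', hn', en⟩ : ∃ n' : Pg c →₀ ℤ, (∀ p, n' p = n p - (if p ∈ J then n p else 0) +
      N₀ * F p) ∧ (n, m) + ∑ _j : Unit, (N₀ : ℤ) • (F, 0) = ∑ j, ξ j • g j + (n', 0) := by
    refine ⟨n + (N₀ : ℤ) • F - (∑ j, ξ j • g j).1, fun p => ?_, Prod.ext (by simp) ?_⟩
    · have t : ∑ x : J, n x.1 * (Finsupp.single x.1 (1 : ℤ)) p = if p ∈ J then n p else 0 := by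
        rw [Finset.sum_coe_sort J fun x => n x * (Finsupp.single x (1 : ℤ)) p]
        simp [Finsupp.single_apply]
      simp only [Prod.fst_sum, Fintype.sum_sum_type, ξ, g, Sum.elim_inl, Sum.elim_inr,
        Prod.smul_fst, Prod.fst_add, Finsupp.sub_apply, Finsupp.add_apply,
        Finsupp.finset_sum_apply, Finsupp.smul_apply, smul_eq_mul, t, Finsupp.zero_apply,
        mul_zero, Finset.sum_const_zero]
      ring
    · funext i
      simp [Prod.snd_sum, Fintype.sum_sum_type, ξ, g, Finset.sum_apply, Pi.single_apply]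
  have nE : ∀ p ∈ J, p ∉ Ee := fun p t z => ((hE p).1 z).1 t
  have nJ : ∀ p ∈ J, n' p = 0 := fun p t => by simp [hn', hF, t, nE p t]
  have n0 : 0 ≤ n' := fun p => by
    show 0 ≤ n' p
    by_cases t : p ∈ J
    · exact (nJ p t).ge
    by_cases t' : p ∈ Ee
    · simpa [hn', hF, t, t'] using hN p
    · obtain ⟨P, a, z⟩ := not_not.1 fun z => t' ((hE p).2 ⟨t, z⟩)
      have a1 := sc P a
      rw [d0 P (fun z' => z'.2.2 p t z), add_zero, Ho P a p t z] at a1
      simpa [hn', hF, t, t'] using a1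
  have e5 : H (n, m) = mon (fun j => H (g j)) ξ * f⁻¹ ^ N₀ * hm s (Fin.append y u) n' 0 := by
    have := congrArg H en
    rw [Ha, Ha, hom_mon H H0 Ha, hom_mon H H0 Ha, Hf, e0, mon, Fintype.prod_unique,
      zpow_natCast] at this
    rw [mul_right_comm, ← this, inv_pow, mul_inv_cancel_right₀ (pow_ne_zero _ f0)]
  obtain ⟨gp, egp, sp⟩ := Wc.G70.poly s (Fin.append y u) n0
  rw [e5]
  refine Submodule.span_le.2 (?_ : _ ⊆ ((Sp (Fin.append (fun j => φ (s' j)) X) (Fin.append a' b)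
    δ).comap (LinearMap.mulLeft ℂ (mon (fun j => H (g j)) ξ * f⁻¹ ^ N₀)) : Set K)) sp
  rintro _ ⟨τ, hτ, rfl⟩
  suffices mm : mon (fun j => H (g j)) ξ ∈
      Sp (fun j => φ (s' j)) a' (δ - dg b (Fin.cons N₀ τ)) by
    have := sp_app (fun j => φ (s' j)) a' X b mm (Fin.cons N₀ τ)
    rw [sub_add_cancel, Fin.prod_univ_succ, ← mul_assoc] at this
    exact this
  rw [kS]
  refine Submodule.subset_span ⟨ξ, fun i => ?_, rfl⟩
  have a1 := sc _ (kt i).1
  rw [d1, e5, Pl.ord_mul _ (mul_ne_zero (mon_ne (fun j => H0 _) _)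
    (pow_ne_zero _ (inv_ne_zero f0))) (f2 _ _).1, Pl.ord_mul _ (mon_ne (fun j => H0 _) _)
    (pow_ne_zero _ (inv_ne_zero f0)), ord_mon _ (fun j => H0 _), Pl.ord_pow] at a1
  have a2 : (e i).ord (hm s (Fin.append y u) n' 0) ≤ ∑ l, (τ l : ℤ) * (e i).ord (s l) := by
    rcases h.pg _ (kt i).1 with z | ⟨p, z, z1⟩
    · rw [egp]
      exact z gp τ hτ
    · have z' : At s (e i) (some p) := z
      have z2 : ∀ l, (e i).ord (s l) = 0 := z1
      rw [f6 _ _ _ _ z', od, nJ p (not_not.1 fun t => (kt i).2.2 p t z')]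
      simp [z2]
  simp only [Pi.sub_apply, dg, b, mul_neg, Finset.sum_neg_distrib, Fin.sum_univ_succ, X,
    Fin.cons_zero, Fin.cons_succ]
  linarith

end Vale.Agent.P283R.Tb
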