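import Vale.Agent.P283R.Tb.Mn80

/-!
# P283R, block TB: Gauss places over a point of an orbit of a toric variety
-/

open Set MvPolynomial Matrix

noncomputable section

namespace Vale.Agent.P283R.Tb.G80

open Vale.Agent.P287D Vale.Agent.P283M Vale.Agent.P283R.To Vale.Agent.P297Z
open Pq (fr cz)

variable {K : Type} [Field K] [Algebra ℂ K] {c r k ρ : ℕ}

/-- one monomial of `f` computes the orders at the places of `I` and at `Q` -/
def Fl (s : Fin c → K) (I : Finset (Pl K)) (Q : Pl K) (f : MvPolynomial (Fin c) ℂ) : Prop :=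
  ∃ a ∈ f.support, (∀ P ∈ I, P.ord (aeval s f) = ∑ i, a i * P.ord (s i)) ∧
    Q.ord (aeval s f) = ∑ i, a i * Q.ord (s i)

/-- the initial form along the orbit -/
theorem spl {s : Fin (r + k) → K} (s0 : ∀ i, s i ≠ 0) {A B : Matrix (Fin (r + k)) (Fin (r + k)) ℤ}
    (hB : B * A = 1) (f : MvPolynomial (Fin (r + k)) ℂ) (a₀ : Fin (r + k) →₀ ℕ) :
    ∃ (T : ℕ) (g : MvPolynomial (Fin r) ℂ) (b : K),
      aeval s f * (∏ i, mon s (A (Fin.castAdd k i))) ^ T =
        mon s (fun i => a₀ i) * (aeval (fun i => mon s (A (Fin.castAdd k i))) g + b) ∧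
      ∀ (R : Pl K) (e : ℕ), (∀ i, e * R.ord (mon s (A (Fin.castAdd k i))) = 0) →
        (∀ a ∈ f.support, (¬ ∀ j, ((fun i => (a i - a₀ i : ℤ)) ᵥ* B) (Fin.natAdd r j) = 0) →
          1 ≤ e * R.ord (mon s fun i => a i - a₀ i)) → b = 0 ∨ 1 ≤ e * R.ord b := by
  classical
  let p : (Fin (r + k) →₀ ℕ) → Prop := fun a =>
    ∀ j, ((fun i => (a i - a₀ i : ℤ)) ᵥ* B) (Fin.natAdd r j) = 0
  let τ : (Fin (r + k) →₀ ℕ) → K := fun a => coeff a f • mon s fun i => a i - a₀ i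
  have u0 : ∀ i, mon s (A (Fin.castAdd k i)) ≠ 0 := fun i => mon_ne s0 _
  obtain ⟨T, g, e⟩ := lp u0 (φ := ∑ a ∈ f.support.filter p, τ a) (sum_mem fun a ha =>
    Submodule.smul_mem _ _ (Submodule.subset_span
      ⟨fun i => ((fun i => (a i - a₀ i : ℤ)) ᵥ* B) (Fin.castAdd k i), by
        have := mon_vec s0 A ((fun i => (a i - a₀ i : ℤ)) ᵥ* B)
        rw [Matrix.vecMul_vecMul, hB, Matrix.vecMul_one, mon, Fin.prod_univ_add] at this
        rw [← this]
        simp only [(Finset.mem_filter.1 ha).2 _, zpow_zero, Finset.prod_const_one, mul_one, mon]⟩))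
  have p0 : (∏ i, mon s (A (Fin.castAdd k i))) ^ T ≠ 0 :=
    pow_ne_zero _ (Finset.prod_ne_zero_iff.2 fun i _ => u0 i)
  refine ⟨T, g, (∑ a ∈ f.support.filter fun a => ¬ p a, τ a) *
    (∏ i, mon s (A (Fin.castAdd k i))) ^ T, ?_, fun R n h1 h2 => ?_⟩
  · rw [← e, ← add_mul, Finset.sum_filter_add_sum_filter_not, ← mul_assoc, Pq.G67.aev_eq,
      Finset.mul_sum]
    refine congrArg (· * _) (Finset.sum_congr rfl fun a _ => ?_)
    rw [mul_smul_comm, ← mon_add s0, mon]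
    simp only [Pi.add_apply, add_sub_cancel, zpow_natCast]
  · by_cases z : ∑ a ∈ f.support.filter fun a => ¬ p a, τ a = 0
    · exact .inl (by rw [z, zero_mul])
    obtain ⟨a, ha, -, le⟩ := Pq.G67.ex_sum R _ _ z
    rw [Finset.mem_filter] at ha
    rw [R.ord_smul (mem_support_iff.1 ha.1)] at le
    refine .inr ?_
    rw [Pl.ord_mul _ z p0, Pl.ord_pow, R.ord_prod _ fun i _ => u0 i, mul_add, mul_left_comm,
      Finset.mul_sum]
    simp only [h1, Finset.sum_const_zero, mul_zero, add_zero]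
    exact (h2 a ha.1 ha.2).trans (mul_le_mul_of_nonneg_left le (Int.natCast_nonneg n))

/-- **Gauss places** -/
theorem gp {s : Fin c → K} {y : Fin ρ → K} (h : D.Rat (fr s y)) (Q : Pl K) (I : Finset (Pl K))
    (mv : ∀ P ∈ I, ∀ f : MvPolynomial (Fin c) ℂ, ∀ a ∈ f.support,
      P.ord (aeval s f) ≤ ∑ i, a i * P.ord (s i))
    (int : ∀ a : Fin c → ℤ, (∀ P ∈ I, 0 ≤ ∑ i, a i * P.ord (s i)) → 0 ≤ ∑ i, a i * Q.ord (s i) ∧
      (∑ i, a i * Q.ord (s i) = 0 → ∀ P ∈ I, ∑ i, a i * P.ord (s i) = 0))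
    (Em : Set (MvPolynomial (Fin c) ℂ)) (hE : Em.Finite) (fl : ∀ f ∈ Em, Fl s I Q f) :
    ∃ m : MvPolynomial (Fin c) ℂ → ℕ, (∀ f, f ≠ 0 → ¬ Fl s I Q f → 1 ≤ m f) ∧
      (∀ f ∈ Em, m f = 0) ∧ ∀ (t : ℕ) (v : Fin ρ → ℤ),
        (v = 0 ∧ ∀ f, f ≠ 0 → t * (m f + ∑ P ∈ I, P.ord (aeval s f)) = 0) ∨
        ∃ (R : Pl K) (e : ℕ), 0 < e ∧ (∀ j, v j = e * R.ord (y j)) ∧
          (∀ f, f ≠ 0 → e * R.ord (aeval s f) = t * (m f + ∑ P ∈ I, P.ord (aeval s f))) ∧
          e * (cz s y R + 1) ≤ t * (c + ∑ P ∈ I, ∑ i, P.ord (s i)) := by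
  classical
  have s0 := Pq.I80.s_ne h.ind
  have a0 : ∀ f : MvPolynomial (Fin c) ℂ, f ≠ 0 → aeval s f ≠ 0 := fun f f0 => by
    simpa only [Pq.I80.fr_l] using Pq.R80.aev_ne h.ind (Fin.castAdd_injective c ρ) f0
  let L : Submodule ℤ (Fin c → ℤ) :=
    { carrier := {a | ∀ P ∈ I, P.ord (mon s a) = 0}
      add_mem' := fun {a b} p q P hP => by
        rw [mon_add s0, Pl.ord_mul _ (mon_ne s0 _) (mon_ne s0 _), p P hP, q P hP, add_zero]
      zero_mem' := fun P _ => by simp [ord_mon P s0]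
      smul_mem' := fun n a p P hP => by
        have := p P hP
        simp only [ord_mon P s0, Pi.smul_apply, smul_eq_mul, mul_assoc, ← Finset.mul_sum] at this ⊢
        rw [this, mul_zero] }
  obtain ⟨r, k, rfl, A, B, hA, hB, hL⟩ := Wd.lat L fun n a n0 p P hP => by
    have := p P hP
    simp only [ord_mon P s0, Pi.smul_apply, smul_eq_mul, mul_assoc, ← Finset.mul_sum] at this ⊢
    exact (mul_eq_zero.1 this).resolve_left n0
  simp only [Fin.cast_eq_self] at hL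
  simp only [← ord_mon _ s0] at int
  have uL : ∀ i, A (Fin.castAdd k i) ∈ L := fun i => (hL _).2 fun j => by
    have := congrFun (congrFun hA (Fin.castAdd k i)) (Fin.natAdd r j)
    rw [Matrix.one_apply_ne fun e => by
      have := congrArg Fin.val e
      simp only [Fin.val_natAdd, Fin.val_castAdd] at this
      omega] at this
    exact this
  have ng : ∀ (P : Pl K) a, P.ord (mon s (-a)) = -P.ord (mon s a) := fun P a => by
    simp [ord_mon P s0]
  have uQ : ∀ i, Q.ord (mon s (A (Fin.castAdd k i))) = 0 := fun i =>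
    le_antisymm (neg_nonneg.1 ((int (-A (Fin.castAdd k i)) fun P hP => by
      rw [ng, uL i P hP, neg_zero]).1.trans_eq (ng _ _))) (int _ fun P hP => (uL i P hP).ge).1
  have u0 : ∀ i, mon s (A (Fin.castAdd k i)) ≠ 0 := fun i => mon_ne s0 _
  have df : ∀ (P : Pl K) (a a₀ : Fin (r + k) →₀ ℕ), P.ord (mon s fun i => a i - a₀ i) =
      ∑ i, a i * P.ord (s i) - ∑ i, a₀ i * P.ord (s i) := fun P a a₀ => by
    simp only [ord_mon P s0, sub_mul, Finset.sum_sub_distrib]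
  choose T g b e1 e2 using spl s0 hB
  have oe : ∀ f a₀, f ≠ 0 → aeval (fun i => mon s (A (Fin.castAdd k i))) (g f a₀) + b f a₀ ≠ 0 ∧
      ∀ (R : Pl K) (e : ℕ), (∀ i, e * R.ord (mon s (A (Fin.castAdd k i))) = 0) →
        e * R.ord (aeval s f) = e * ∑ i, a₀ i * R.ord (s i) +
          e * R.ord (aeval (fun i => mon s (A (Fin.castAdd k i))) (g f a₀) + b f a₀) :=
    fun f a₀ f0 => by
      have p0 : (∏ i, mon s (A (Fin.castAdd k i))) ^ T f a₀ ≠ 0 :=
        pow_ne_zero _ (Finset.prod_ne_zero_iff.2 fun i _ => u0 i)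
      have n := right_ne_zero_of_mul (e1 f a₀ ▸ mul_ne_zero (a0 f f0) p0)
      refine ⟨n, fun R e z => ?_⟩
      have : e * R.ord _ = e * R.ord _ := congrArg (fun x => e * R.ord x) (e1 f a₀)
      rw [Pl.ord_mul _ (a0 f f0) p0, Pl.ord_mul _ (mon_ne s0 _) n, Pl.ord_pow,
        R.ord_prod _ fun i _ => u0 i, ord_mon R s0, mul_add, mul_add, mul_left_comm,
        Finset.mul_sum _ _ (e : ℤ)] at this
      simpa only [z, Finset.sum_const_zero, mul_zero, add_zero] using this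
  have nn : ∀ (f : MvPolynomial (Fin (r + k)) ℂ) (a₀ : Fin (r + k) →₀ ℕ),
      (∀ P ∈ I, P.ord (aeval s f) = ∑ i, a₀ i * P.ord (s i)) →
      ∀ a ∈ f.support, ∀ P ∈ I, 0 ≤ P.ord (mon s fun i => a i - a₀ i) := fun f a₀ p a ha P hP => by
    rw [df, ← p P hP]
    exact sub_nonneg.2 (mv P hP f a ha)
  have bQ : ∀ (f : MvPolynomial (Fin (r + k)) ℂ) (a₀ : Fin (r + k) →₀ ℕ),
      (∀ P ∈ I, P.ord (aeval s f) = ∑ i, a₀ i * P.ord (s i)) →
      b f a₀ = 0 ∨ 1 ≤ Q.ord (b f a₀) := fun f a₀ p => by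
    simpa using e2 f a₀ Q 1 (by simpa using uQ) fun a ha n => by
      obtain ⟨i1, i2⟩ := int _ (nn f a₀ p a ha)
      have : Q.ord (mon s fun i => a i - a₀ i) ≠ 0 := fun z => n ((hL _).1 (i2 z))
      omega
  have ad : ∀ (R : Pl K) (e : ℕ) (x z : K), x + z ≠ 0 → (x = 0 ∨ 1 ≤ e * R.ord x) →
      (z = 0 ∨ 1 ≤ e * R.ord z) → 1 ≤ e * R.ord (x + z) := fun R e x z n p q => by
    by_cases x0 : x = 0
    · rw [x0, zero_add] at n ⊢
      exact q.resolve_left n
    by_cases z0 : z = 0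
    · rw [z0, add_zero]
      exact p.resolve_left x0
    rcases min_le_iff.1 (Pl.min_ord_le_add R.toPlace x0 z0 n) with l | l
    exacts [(p.resolve_left x0).trans (by gcongr), (q.resolve_left z0).trans (by gcongr)]
  have sb : ∀ (R : Pl K) (e : ℕ) (x z : K), x ≠ 0 → e * R.ord x = 0 →
      (z = 0 ∨ 1 ≤ e * R.ord z) → e * R.ord (x + z) = 0 := fun R e x z n p q => by
    by_cases z0 : z = 0
    · rwa [z0, add_zero]
    rw [Pl.ord_add_eq_of_lt _ n z0 (lt_of_mul_lt_mul_left (a := (e : ℤ)) (by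
      have := q.resolve_left z0
      omega) (Int.natCast_nonneg e)), p]
  choose! a₁ f1 f2 f3 using fl
  have gQ : ∀ f ∈ Em, aeval (fun i => mon s (A (Fin.castAdd k i))) (g f (a₁ f)) ≠ 0 ∧
      Q.ord (aeval (fun i => mon s (A (Fin.castAdd k i))) (g f (a₁ f))) = 0 := fun f hf => by
    obtain ⟨n, o⟩ := oe f (a₁ f) (ne_zero_iff.2 ⟨_, mem_support_iff.1 (f1 f hf)⟩)
    have o1 := o Q 1 (by simpa using uQ)
    rw [f3 f hf, left_eq_add] at o1
    have := sb Q 1 _ (-b f (a₁ f)) n o1 (by simpa using bQ f _ (f2 f hf))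
    rw [add_neg_cancel_right] at this
    refine ⟨fun z => ?_, by simpa using this⟩
    rw [z, zero_add] at n o1
    have := (bQ f _ (f2 f hf)).resolve_left n
    omega
  obtain ⟨a, a1, a2⟩ := Pq.G67.ex_pt Q (u := fun i => mon s (A (Fin.castAdd k i)))
    (fun i => (Pl.ord_nonneg_iff _ (u0 i)).1 (uQ i).ge)
    (g := (∏ i, X i) * ∏ f ∈ hE.toFinset, g f (a₁ f)) (by
      simp only [map_mul, map_prod, aeval_X]
      exact mul_ne_zero (Finset.prod_ne_zero_iff.2 fun i _ => u0 i)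
        (Finset.prod_ne_zero_iff.2 fun f hf => (gQ f (hE.mem_toFinset.1 hf)).1)) (by
      simp only [map_mul, map_prod, aeval_X]
      rw [Pl.ord_mul _ (Finset.prod_ne_zero_iff.2 fun i _ => u0 i)
        (Finset.prod_ne_zero_iff.2 fun f hf => (gQ f (hE.mem_toFinset.1 hf)).1),
        Q.ord_prod _ fun i _ => u0 i, Q.ord_prod _ fun f hf => (gQ f (hE.mem_toFinset.1 hf)).1,
        Finset.sum_eq_zero fun i _ => uQ i,
        Finset.sum_eq_zero fun f hf => (gQ f (hE.mem_toFinset.1 hf)).2, add_zero])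
  simp only [map_mul, map_prod, aeval_X, mul_ne_zero_iff, Finset.prod_ne_zero_iff] at a1
  obtain ⟨h', hla⟩ := bas h hB
  obtain ⟨hx, hcz⟩ := Pq.G67.shift h' (Fin.append a 0)
  set x : Fin (r + k) → K := fun i => mon s (A i) - algebraMap ℂ K (Fin.append a 0 i) with hx'
  let w : Fin (r + k) → ℤ :=
    Fin.append (fun _ => 1) fun j => ∑ P ∈ I, P.ord (mon s (A (Fin.natAdd r j)))
  obtain ⟨R₁, e₁, r1, r2, r3⟩ : ∃ (R₁ : Pl K) (e₁ : ℕ), (∀ i, e₁ * R₁.ord (x i) = w i) ∧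
      (e₁ = 0 ∨ la (fr x y) R₁ ≤ 0) ∧ (w = 0 → e₁ = 0) := by
    by_cases z : w = 0
    · exact ⟨Q, 0, fun i => by simp [z], .inl rfl, fun _ => rfl⟩
    obtain ⟨R, e, -, p, q⟩ := mon' _ K (fr x y) (Fin.append w 0) hx fun n =>
      z (funext fun i => by simpa using congrFun n (i.castAdd ρ))
    exact ⟨R, e, fun i => by simpa [fr] using (p (i.castAdd ρ)).symm, .inr q, fun n => (z n).elim⟩
  have pt1 := pt (u := fun i => mon s (A (Fin.castAdd k i))) (a := a) (R := R₁) (e := e₁)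
    fun i => by simpa [x, w] using r1 (i.castAdd k)
  have uR : ∀ i, e₁ * R₁.ord (mon s (A (Fin.castAdd k i))) = 0 := fun i => by
    simpa using ((pt1 (X i)).2 (by simpa using a1.1 i (Finset.mem_univ i))).2
  have sR : ∀ i, e₁ * R₁.ord (mon s (A i)) = ∑ P ∈ I, P.ord (mon s (A i)) := fun i => by
    refine Fin.addCases (fun i => ?_) (fun i => ?_) i
    · rw [uR, Finset.sum_eq_zero (uL i)]
    · simpa [x, w] using r1 (i.natAdd r)
  have mR : ∀ n, e₁ * R₁.ord (mon s n) = ∑ P ∈ I, P.ord (mon s n) := fun n => by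
    have := mon_vec s0 A (n ᵥ* B)
    rw [Matrix.vecMul_vecMul, hB, Matrix.vecMul_one] at this
    simp only [← this, ord_mon _ fun i => mon_ne s0 (A i), Finset.mul_sum,
      mul_left_comm (e₁ : ℤ), sR]
    exact Finset.sum_comm
  have mR' : ∀ n : Fin (r + k) →₀ ℕ, (e₁ : ℤ) * ∑ i, n i * R₁.ord (s i) =
      ∑ P ∈ I, ∑ i, n i * P.ord (s i) := fun n => by
    simpa only [ord_mon _ s0] using mR fun i => n i
  have bR : ∀ (f : MvPolynomial (Fin (r + k)) ℂ) (a₀ : Fin (r + k) →₀ ℕ),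
      (∀ P ∈ I, P.ord (aeval s f) = ∑ i, a₀ i * P.ord (s i)) →
      b f a₀ = 0 ∨ 1 ≤ e₁ * R₁.ord (b f a₀) := fun f a₀ p =>
    e2 f a₀ R₁ e₁ uR fun a ha n => by
      rw [mR]
      exact Int.add_one_le_iff.2 ((Finset.sum_nonneg (nn f a₀ p a ha)).lt_of_ne fun z =>
        n ((hL _).1 ((Finset.sum_eq_zero_iff_of_nonneg (nn f a₀ p a ha)).1 z.symm)))
  have ge : ∀ f, f ≠ 0 → ∑ P ∈ I, P.ord (aeval s f) ≤ e₁ * R₁.ord (aeval s f) ∧
      (¬ Fl s I Q f → ∑ P ∈ I, P.ord (aeval s f) < e₁ * R₁.ord (aeval s f)) := fun f f0 => by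
    obtain ⟨n, hn, le⟩ := Pq.G67.exm R₁ s0 (a0 f f0)
    have l1 := (mR' n).symm.trans_le (mul_le_mul_of_nonneg_left le (Int.natCast_nonneg e₁))
    have l2 := Finset.sum_le_sum fun P hP => mv P hP f n hn
    refine ⟨l2.trans l1, fun nf => ?_⟩
    by_cases p : ∀ P ∈ I, P.ord (aeval s f) = ∑ i, n i * P.ord (s i)
    · obtain ⟨n0, o⟩ := oe f n f0
      have oQ := o Q 1 (by simpa using uQ)
      have : 1 ≤ e₁ * R₁.ord (aeval (fun i => mon s (A (Fin.castAdd k i))) (g f n) + b f n) := by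
        refine ad _ _ _ _ n0 (or_iff_not_imp_left.2 fun g0 => (pt1 _).1 (a2 _ ?_) g0) (bR f n p)
        have g1 := Pl.ord_nonneg_of_mem _ (Pq.R80.ord_nn (P := Q)
          (fun i => (Pl.ord_nonneg_iff _ (u0 i)).1 (uQ i).ge) (g f n))
        refine g1.lt_of_ne fun z => nf ⟨n, hn, p, ?_⟩
        have := sb Q 1 _ _ g0 (by simpa using z.symm) (by simpa using bQ f n p)
        rw [this] at oQ
        simpa using oQ
      rw [o R₁ e₁ uR, mR', Finset.sum_congr rfl p]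
      omega
    · push Not at p
      obtain ⟨P, hP, p⟩ := p
      exact (Finset.sum_lt_sum (fun P hP => mv P hP f n hn)
        ⟨P, hP, (mv P hP f n hn).lt_of_ne p⟩).trans_le l1
  have me : ∀ f, f ≠ 0 → ((e₁ * R₁.ord (aeval s f) - ∑ P ∈ I, P.ord (aeval s f)).toNat : ℤ) +
      ∑ P ∈ I, P.ord (aeval s f) = e₁ * R₁.ord (aeval s f) := fun f f0 => by
    rw [Int.toNat_of_nonneg (sub_nonneg.2 (ge f f0).1), sub_add_cancel]
  refine ⟨fun f => (e₁ * R₁.ord (aeval s f) - ∑ P ∈ I, P.ord (aeval s f)).toNat,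
    fun f f0 n => by
      have := (ge f f0).2 n
      show 1 ≤ (_ : ℤ).toNat
      omega, fun f hf => ?_, fun t v => ?_⟩
  · obtain ⟨-, o⟩ := oe f (a₁ f) (ne_zero_iff.2 ⟨_, mem_support_iff.1 (f1 f hf)⟩)
    obtain ⟨p1, p2⟩ := (pt1 (g f (a₁ f))).2 (a1.2 f (hE.mem_toFinset.2 hf))
    show (_ : ℤ).toNat = 0
    rw [o R₁ e₁ uR, sb _ _ _ _ p1 p2 (bR f _ (f2 f hf)), mR', Finset.sum_congr rfl (f2 f hf)]
    simp
  by_cases z : Fin.append (fun i => (t : ℤ) * w i) v = 0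
  · refine .inl ⟨funext fun j => by simpa using congrFun z (j.natAdd _), fun f f0 => ?_⟩
    rw [me f f0]
    by_cases t0 : t = 0
    · simp [t0]
    · simp [r3 (funext fun i => by simpa [t0] using congrFun z (i.castAdd ρ))]
  obtain ⟨R, e, e0, p, q⟩ := mon' _ K (fr x y) _ hx z
  have p1 : ∀ i, e * R.ord (x i) = t * (e₁ * R₁.ord (x i)) := fun i => by
    rw [r1]
    simpa [fr] using (p (i.castAdd ρ)).symm
  have m1 : ∀ i, mon s (A i) ∈ IntermediateField.adjoin ℂ (range x) := fun i => by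
    have := add_mem (IntermediateField.subset_adjoin ℂ (range x) ⟨i, rfl⟩)
      (IntermediateField.algebraMap_mem _ (Fin.append a 0 i))
    simpa [x] using this
  have m2 : ∀ i, s i ∈ IntermediateField.adjoin ℂ (range x) := fun i => by
    rw [← mon_row s0 hB i]
    exact prod_mem fun j _ => zpow_mem (m1 j) _
  refine .inr ⟨R, e, e0, fun j => by simpa [fr] using p (j.natAdd _), fun f f0 => ?_, ?_⟩
  · rw [me f f0]
    exact cmp hx q r2 p1 (IntermediateField.adjoin_le_iff.2 (range_subset_iff.2 m2)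
      (Pq.I80.aev_mem s f)) (a0 f f0)
  · have l1 := hla R
    rw [Pq.Z80.la_eq, Pq.Z80.la_eq, ← hcz] at l1
    have q' := q
    rw [Pq.Z80.la_eq] at q
    have l2 : cz s y R + 1 ≤
        ∑ i, R.ord (x i) - ∑ i, R.ord (mon s (A i)) + ∑ i, R.ord (s i) := by
      have : ((cz s y R + 1 : ℤ) : ℝ) ≤
          (∑ i, R.ord (x i) - ∑ i, R.ord (mon s (A i)) + ∑ i, R.ord (s i) : ℤ) := by
        push_cast
        linarith
      exact_mod_cast this
    refine (mul_le_mul_of_nonneg_left l2 (Int.natCast_nonneg e)).trans ?_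
    have c1 : ∀ i, e * R.ord (mon s (A i)) = t * ∑ P ∈ I, P.ord (mon s (A i)) := fun i => by
      rw [cmp hx q' r2 p1 (m1 i) (mon_ne s0 _), sR]
    have c2 : ∀ i, e * R.ord (s i) = t * ∑ P ∈ I, P.ord (s i) := fun i => by
      rw [cmp hx q' r2 p1 (m2 i) (s0 i)]
      have := mR' (Finsupp.single i 1)
      simp only [Finsupp.single_apply, Nat.cast_ite, Nat.cast_one, Nat.cast_zero, ite_mul, one_mul,
        zero_mul, Finset.sum_ite_eq, Finset.mem_univ, if_true] at this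
      rw [this]
    simp only [mul_add, mul_sub, Finset.mul_sum _ _ (e : ℤ), p1, r1, c1, c2, ← Finset.mul_sum]
    rw [Finset.sum_comm (s := I), Fin.sum_univ_add, Fin.sum_univ_add]
    simp only [w, Fin.append_left, Fin.append_right, Finset.sum_eq_zero (uL _),
      Finset.sum_const, Finset.card_univ, Fintype.card_fin, nsmul_eq_mul, mul_one, mul_zero]
    push_cast
    nlinarith [Int.natCast_nonneg t, Int.natCast_nonneg k]

end Vale.Agent.P283R.Tb.G80
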