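import Vale.Agent.P283R.Tb.St
import Vale.Agent.P283R.Tb.Gp80

/-!
# P283R, block TB: the Gauss places and the logarithmic form
-/

open Set MvPolynomial

namespace Vale.Agent.P283R.Tb

open Vale.Agent.P287D

/-- **CZL** -/
theorem czl80 : CZL := fun _ _ _ _ _ _ _ h P => by
  have := Pq.Z80.la_int h P
  omega

/-- **GP** -/
theorem gp80 : GP := fun c ρ K _ _ s y h Q D Em mv int hE fl => by
  have l0 : ∀ p : Pq.Pg c, p.l ≠ 0 := fun p => ((Pq.pol c).1 p).1.ne_zero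
  obtain ⟨m, m1, m2, m3⟩ := G80.gp h Q D mv int (Pq.Pg.l '' Em ∪ range X)
    ((hE.image _).union (finite_range _)) (by
      rintro _ (⟨p, hp, rfl⟩ | ⟨i, rfl⟩)
      · obtain ⟨a, a1, a2, a3⟩ := fl p hp
        exact ⟨a, a1, a3, a2⟩
      · exact ⟨Finsupp.single i 1, by simp [support_X], fun P _ => by
          simp [Finsupp.single_apply], by simp [Finsupp.single_apply]⟩)
  refine ⟨fun p => m p.l, fun p z => ?_, fun p hp => m2 _ (.inl ⟨p, hp, rfl⟩),
    fun t v => (m3 t v).imp (fun a => ⟨a.1, fun p => a.2 _ (l0 p), ?_⟩)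
      fun ⟨R, e, e0, b1, b2, b3⟩ => ⟨R, e, e0, b1, fun p => b2 _ (l0 p), b3⟩⟩
  · obtain ⟨a, a1, a2, a3⟩ : G80.Fl s D Q p.l := by_contra fun n => by
      have := m1 _ (l0 p) n
      have z' : m p.l = 0 := z
      omega
    exact ⟨a, a1, a3, a2⟩
  · have k : ∀ i, (t : ℤ) * ∑ R ∈ D, R.ord (s i) = 0 := fun i => by
      simpa [m2 _ (.inr ⟨i, rfl⟩)] using a.2 (X i) (X_ne_zero i)
    rw [Finset.sum_comm, mul_add, Finset.mul_sum, Finset.sum_eq_zero fun i _ => k i]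
    positivity

/-- **GPR** -/
theorem gpr80 : GPR := fun _ => gp80

end Vale.Agent.P283R.Tb
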