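import Vale.Agent.P283R.Tb.Gp80
import Vale.Agent.P283R.Tb.Cnt85

/-!
# P283R, block TB: the Gauss places
-/

namespace Vale.Agent.P283R.Tb

/-- **GP0** -/
theorem gp0 : C85.GP0 := fun _ _ _ _ _ _ _ h Q I mv int Em hE fl => G80.gp h Q I mv int Em hE fl

end Vale.Agent.P283R.Tb
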