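import Vale.Agent.P283R.Wc.St
import Vale.Agent.P283R.Tb.Mco85

/-!
# P283R, block TB: the weights of Goldman and Tucker
-/

open Set

noncomputable section

namespace Vale.Agent.P283R.Tb.C85

open Vale.Agent.P287D Vale.Agent.P283M Vale.Agent.P297Z
open Vale.Agent.P283R.To (mon mon_ne ord_mon)
open Pq (Hm Hg tot Tv At Hz cz lam mu fr Pg od)
open Wc (Kt Rep Od Un)

theorem gtm {A J : Type} [Fintype A] [Fintype J] (a : A → J → ℤ) (b : J → ℤ)
    (h : ∀ l : J → ℤ, (∀ P, 0 ≤ ∑ j, l j * a P j) → 0 ≤ ∑ j, l j * b j) :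
    ∃ (ξ : A → ℝ) (l : J → ℤ), 0 ≤ ξ ∧ (∀ j, ∑ P, ξ P * a P j = b j) ∧
      (∀ P, 0 ≤ ∑ j, l j * a P j) ∧ ∑ j, l j * b j = 0 ∧
      ∀ P, ξ P = 0 → 0 < ∑ j, l j * a P j := by
  classical
  let Φ : (J → ℤ) →+ (A → ℤ) := AddMonoidHom.mk' (fun l P => ∑ j, l j * a P j) fun l l' => by
    funext P
    simp [add_mul, Finset.sum_add_distrib]
  let ψ : (J → ℤ) →+ ℤ := AddMonoidHom.mk' (fun l => ∑ j, l j * b j) fun l l' => by
    simp [add_mul, Finset.sum_add_distrib]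
  have h' : ∀ l, (∀ P, 0 ≤ Φ l P) → 0 ≤ ψ l := h
  have wd : ∀ l l', Φ l = Φ l' → ψ l = ψ l' := fun l l' e => by
    have k1 := h' (l - l') fun P => by rw [map_sub, e, sub_self]; rfl
    have k2 := h' (l' - l) fun P => by rw [map_sub, e, sub_self]; rfl
    rw [map_sub] at k1 k2
    omega
  choose σ hσ using fun u : Φ.range => u.2
  let φ : Φ.range →+ ℤ := AddMonoidHom.mk' (fun u => ψ (σ u)) fun u v => by
    rw [← map_add]
    exact wd _ _ (by rw [map_add, hσ, hσ, hσ]; rfl)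
  obtain ⟨D, w, u₀, D0, e, ⟨l, hl⟩, k⟩ := To.gt Φ.range φ fun u hu => h' _ (by rwa [hσ])
  have D1 : (0 : ℝ) < D := Nat.cast_pos.2 D0
  have e' : ∀ l, ∑ P, Φ l P * w P = D * ψ l := fun l =>
    (e ⟨Φ l, l, rfl⟩).trans (congrArg _ (wd _ _ (hσ _)))
  have hl' : ∀ P, ∑ j, l j * a P j = u₀ P := congrFun hl
  refine ⟨fun P => w P / D, l, fun P => by positivity, fun j => ?_, fun P => ?_, ?_, fun P z => ?_⟩
  · have := e' (Pi.single j 1)
    simp only [Φ, ψ, AddMonoidHom.mk'_apply, Pi.single_apply, ite_mul, one_mul, zero_mul,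
      Finset.sum_ite_eq', Finset.mem_univ, if_true] at this
    have k : ∑ P, (a P j : ℝ) * w P = D * b j := by exact_mod_cast this
    simp only [div_mul_eq_mul_div, ← Finset.sum_div, mul_comm (w _ : ℝ), k]
    field_simp
  · rw [hl']
    exact Nat.cast_nonneg _
  · have := e' l
    rw [Finset.sum_eq_zero fun P _ => ?_] at this
    · exact (mul_eq_zero.1 this.symm).resolve_left (by exact_mod_cast D0.ne')
    · rw [hl]
      rcases Nat.eq_zero_or_pos (u₀ P) with z | z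
      · simp [z]
      · simp [(k P).1 z]
  · rw [hl']
    exact_mod_cast (k P).2 (by simpa [D1.ne'] using z)

variable {K : Type} [Field K] [Algebra ℂ K] {c ρ : ℕ} {s : Fin c → K} {y : Fin ρ → K}
  {T : Set (Pl K)} {I : Finset (Pg c)}

theorem kt_fin (F : F1 s y T) : (Kt s y T I).Finite := by
  refine (((finite_iUnion fun i => F.fin (s i)).union (finite_iUnion fun j => F.fin (y j))).union
    (I.finite_toSet.biUnion fun p _ => F.fin (lam s p))).subset fun P ⟨a, b, e⟩ => ?_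
  rcases F.pg P a with z | ⟨p, -, z⟩
  · by_contra n
    simp only [mem_union, mem_iUnion, mem_ofPred_eq, a, true_and, not_or, not_exists, not_not,
      id] at n
    have z0 := Pq.F60.ind_s F.rat.ind
    refine b (((Pq.fac c ρ K s y F.rat).2.2.2.2.2.2.2.2.1 P).2 ⟨fun p => ?_, n.1.2⟩)
    obtain ⟨m, hm, k⟩ := Pq.G67.exm P z0.ne_zero (Pq.F60.lam_ne z0 p)
    have := z _ m hm
    simp only [n.1.1, mul_zero, Finset.sum_const_zero] at this k
    exact this.antisymm k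
  · exact .inr (mem_biUnion (by_contra fun n => e p n z : p ∈ I) ⟨a, z.1.ne'⟩)

/-- **GT** -/
theorem gt {κ : Pl K → ℤ} {Q : Pl K} (F : F1 s y T) (ex : ∀ p ∉ I, ∃ P ∈ T, At s P (some p))
    (O : Od s y T I κ) (U : Un s T I y)
    (H : ∀ a : K, a ≠ 0 → (∀ P ∈ T, 0 ≤ P.ord a) → 0 ≤ Q.ord a) :
    ∃ (X : Set (Pl K)) (χ : K) (ξ : Pl K → ℝ), X.Finite ∧ X ⊆ Kt s y T I ∧ χ ≠ 0 ∧
      (∀ P ∈ T, 0 ≤ P.ord χ) ∧ (∀ P ∈ X, 0 < P.ord χ) ∧ Q.ord χ = 0 ∧ Rep s y (T \ X) Q ξ ∧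
      ∀ P ∈ Kt s y (T \ X) I, 0 < ξ P := by
  classical
  obtain ⟨-, -, -, f4, f5, -, -, f8, f9, f10, -⟩ := Pq.fac c ρ K s y F.rat
  have fin := kt_fin (I := I) F
  have := fin.fintype
  have y0 := Pq.F60.y_ne F.rat.ind
  have l0 : ∀ p, lam s p ≠ 0 := Pq.F60.lam_ne (Pq.F60.ind_s F.rat.ind)
  let yy : I ⊕ Fin ρ → K := Sum.elim (fun p => lam s p) y
  have yy0 : ∀ j, yy j ≠ 0 := by rintro (p | j); exacts [l0 p, y0 j]
  have out : ∀ P ∈ T, P ∉ Kt s y T I → ∀ j, P.ord (yy j) = 0 := fun P a n j => by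
    by_cases t : Tv s y P
    · rw [f9] at t
      rcases j with p | j
      exacts [t.1 p, t.2 j]
    · obtain ⟨p, hp, k⟩ : ∃ p ∉ I, At s P (some p) := by
        by_contra! z
        exact n ⟨a, t, z⟩
      rcases j with p' | j
      exacts [at_ne k fun e => hp (e ▸ p'.2), U P a p hp k j (y0 j)]
  have reg : ∀ l, (∀ P : Kt s y T I, 0 ≤ ∑ j, l j * P.1.ord (yy j)) →
      ∀ P ∈ T, 0 ≤ P.ord (mon yy l) := fun l h P a => by
    rw [ord_mon P yy0]
    by_cases n : P ∈ Kt s y T I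
    · exact h ⟨P, n⟩
    · simp [out P a n]
  obtain ⟨ξ, l, ξ0, e, l1, l2, l3⟩ := gtm (fun (P : Kt s y T I) j => P.1.ord (yy j))
    (fun j => Q.ord (yy j)) fun l h => ord_mon Q yy0 l ▸ H _ (mon_ne yy0 l) (reg l h)
  have : Nonempty (Pl K) := ⟨Q⟩
  choose! ch c1 c2 using ex
  let val : Pg c → ℝ := fun p => Q.ord (lam s p) - ∑ P, ξ P * P.1.ord (lam s p)
  have hx : ∀ i, (Q.ord (s i) : ℝ) = ∑ P, ξ P * P.1.ord (s i) := fun i => by
    obtain ⟨b, n, b0, -, -, a, k⟩ := f10 (.X i) (MvPolynomial.X_ne_zero i)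
    rw [MvPolynomial.aeval_X] at k
    have o : ∀ R : Pl K, (R.ord (s i) : ℝ) = ∑ p ∈ n.support, (n p : ℝ) * R.ord (lam s p) :=
      fun R => by
        rw [k, Pl.ord_smul _ b0, f8]
        simp [Finsupp.sum]
    simp only [o, Finset.mul_sum]
    rw [Finset.sum_comm]
    refine Finset.sum_congr rfl fun p hp => ?_
    have := e (.inl ⟨p, O.co i p (by_contra fun z => Finsupp.mem_support_iff.1 hp ((a p).2 z))⟩)
    simp only [yy, Sum.elim_inl] at this
    rw [← this, Finset.mul_sum]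
    exact Finset.sum_congr rfl fun P _ => by ring
  have v0 : ∀ p ∉ I, 0 ≤ val p := fun p hp => by
    obtain ⟨m, hm, k⟩ := Pq.G67.exm Q (Pq.F60.ind_s F.rat.ind).ne_zero (l0 p)
    have k' : ∑ i, (m i : ℝ) * Q.ord (s i) ≤ Q.ord (lam s p) := by exact_mod_cast k
    refine sub_nonneg.2 (le_trans ?_ k')
    simp only [hx, Finset.mul_sum]
    rw [Finset.sum_comm]
    refine Finset.sum_le_sum fun P _ => ?_
    simp only [mul_left_comm _ (ξ P), ← Finset.mul_sum]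
    refine mul_le_mul_of_nonneg_left ?_ (ξ0 P)
    rcases F.pg P.1 P.2.1 with z | ⟨p', n, z⟩
    · exact_mod_cast z _ m hm
    · simp [s0 F.rat n z, at_ne z fun k : p = p' => P.2.2.2 p hp (k ▸ z)]
  have inj : Function.Injective fun p : {p // p ∉ I} => ch p := fun p p' k =>
    Subtype.ext (Option.some_injective _ (f4 _ _ _ (c2 _ p.2) (by
      rw [show ch p = ch p' from k]
      exact c2 _ p'.2)))
  let ζ : Pl K → ℝ := Function.extend (fun p : {p // p ∉ I} => ch p) (fun p => val p) 0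
  let ξA : Pl K → ℝ := Function.extend Subtype.val ξ 0
  have zc : ∀ p : {p // p ∉ I}, ζ (ch p) = val p := fun p => inj.extend_apply _ _ p
  have zs : ∀ P, ζ P ≠ 0 → ∃ p : {p // p ∉ I}, ch p = P := fun P h =>
    by_contra fun n => h (Function.extend_apply' _ _ _ n)
  have ac : ∀ P : Kt s y T I, ξA P = ξ P := fun P => Subtype.val_injective.extend_apply _ _ P
  have as : ∀ P, ξA P ≠ 0 → P ∈ Kt s y T I := fun P h =>
    by_contra fun n => h (Function.extend_apply' _ _ _ fun ⟨R, k⟩ => n (k ▸ R.2))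
  have nk : ∀ p : {p // p ∉ I}, ch p ∉ Kt s y T I := fun p k => k.2.2 p p.2 (c2 _ p.2)
  have zT : ∀ P, ζ P ≠ 0 → P ∈ T ∧ ¬ Tv s y P := fun P h => by
    obtain ⟨p, rfl⟩ := zs P h
    exact ⟨c1 _ p.2, (f5 _ _ (c2 _ p.2)).1⟩
  have z0 : 0 ≤ ζ := fun P => by
    by_cases h : ζ P = 0
    · exact h.ge
    · obtain ⟨p, rfl⟩ := zs P h
      exact zc p ▸ v0 p p.2
  have a0 : 0 ≤ ξA := fun P => by
    by_cases h : ξA P = 0
    · exact h.ge
    · exact (ac ⟨P, as P h⟩).symm ▸ ξ0 ⟨P, as P h⟩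
  have sp : ∀ a : K, ∑ᶠ P, (ξA + ζ) P * P.ord a =
      ∑ P, ξ P * P.1.ord a + ∑ᶠ P, ζ P * P.ord a := fun a => by
    simp only [Pi.add_apply, add_mul]
    rw [finsum_add_distrib (f := fun P => ξA P * P.ord a) (g := fun P => ζ P * P.ord a)
      (fin.subset fun P h => as P (left_ne_zero_of_mul h))
      (Pq.fs_fin (w := (· ∈ T)) (P := id) zT (F.fin a)), Pq.H45.fs_ext Subtype.val_injective,
      finsum_eq_sum_of_fintype]
  have sup : ∀ P, (ξA + ζ) P ≠ 0 → P ∈ T ∧ ¬ Tv s y P := fun P h => by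
    by_cases k : ζ P = 0
    · have := as P (by simpa [k] using h)
      exact ⟨this.1, this.2.1⟩
    · exact zT P k
  have zz : ∀ j, ∑ᶠ P, ζ P * P.ord (yy j) = 0 := fun j => finsum_eq_zero_of_forall_eq_zero fun P => by
    by_cases k : ζ P = 0
    · rw [k, zero_mul]
    · obtain ⟨p, rfl⟩ := zs P k
      rw [out _ (c1 _ p.2) (nk p), Int.cast_zero, mul_zero]
  have key := oa_of Pq.fac F.toF0 sup Q 1
    (fun j => by
      have := zz (.inr j)
      have k := e (.inr j)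
      simp only [yy, Sum.elim_inr] at this k
      simp only [id]
      rw [sp, this, k, add_zero, one_mul])
    fun p => by
      simp only [id]
      rw [sp, one_mul]
      by_cases hp : p ∈ I
      · have := zz (.inl ⟨p, hp⟩)
        have k := e (.inl ⟨p, hp⟩)
        simp only [yy, Sum.elim_inl] at this k
        rw [this, k, add_zero]
      · rw [finsum_eq_single _ (ch p) fun P n => ?_, zc ⟨p, hp⟩,
          show (ch p).ord (lam s p) = 1 from (O.od _ (c1 p hp) p hp (c2 p hp)).1]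
        · simp [val]
        · by_cases k : ζ P = 0
          · rw [k, zero_mul]
          · obtain ⟨p', rfl⟩ := zs P k
            rw [at_ne (c2 _ p'.2) fun z => n (by rw [z]), Int.cast_zero, mul_zero]
  refine ⟨{P | P ∈ Kt s y T I ∧ ξA P = 0}, mon yy l, ξA + ζ, fin.subset fun _ h => h.1,
    fun _ h => h.1, mon_ne yy0 l, reg l l1, fun P h => ?_, (ord_mon Q yy0 l).trans l2,
    ⟨add_nonneg a0 z0, fun P h => ⟨⟨(sup P h).1, fun k => h ?_⟩, (sup P h).2⟩,
      fun a ⟨a0, u, ha⟩ => (key u a ha a0).trans (one_mul _)⟩, fun P h => ?_⟩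
  · rw [ord_mon P yy0]
    exact l3 ⟨P, h.1⟩ ((ac ⟨P, h.1⟩).symm.trans h.2)
  · rw [Pi.add_apply, k.2, zero_add]
    by_contra z
    obtain ⟨p, rfl⟩ := zs P z
    exact nk p k.1
  · exact add_pos_of_pos_of_nonneg
      ((a0 P).lt_of_ne' fun z => h.1.2 ⟨⟨h.1.1, h.2⟩, z⟩) (z0 P)

end Vale.Agent.P283R.Tb.C85
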