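import Vale.Agent.P283R.Tb.St
import Vale.Agent.P283R.Wc.Ind88

/-!
# P283R, block TB: the row IND
-/

open Set

noncomputable section

namespace Vale.Agent.P283R.Tb

open Vale.Agent.P287D Vale.Agent.P283M Cx Cy Vale.Agent.P297Z
open Vale.Agent.P283R.To (mon)
open Pq (Hm Hg tot Tv Hz At cz lam mu fr Pg ForR ForX)

theorem ind88 : IND := by
  intro K _ _ c r ρ s y u T J κ fm od un p hp
  have fa := Pq.fac _ _ K s _ fm.rat
  have su := Pq.sums _ _ K s _ fm.rat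
  have y0 : ∀ j, y j ≠ 0 := fun j => by
    have := fm.rat.ind.ne_zero (Fin.natAdd c (Fin.castAdd ρ j))
    rwa [fr, Fin.append_right, Fin.append_left] at this
  have one : ∀ w, ∀ a ∈ Hm s (Fin.append y u) w, a ≠ 0 → (∀ i, w (Fin.natAdd r i) = 0) →
      ∃ k : ℤ, ∀ P ∈ T, At s P (some p) → P.ord a = k := by
    intro w a ha a0 hw
    obtain ⟨b, n, b0, rfl⟩ := fa.1 w a ha a0
    refine ⟨n p, fun P hP hA => ?_⟩
    rw [P.ord_smul b0, fa.2.2.2.2.2.1 P _ n w hA, (od.od P hP p hp hA).1, Fin.sum_univ_add]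
    simp [hw, un P hP p hp hA _ (y0 _), Pq.od]
  have le : ∀ a ∈ Algebra.adjoin ℂ (range (fr s y)), a ≠ 0 → ∀ P ∈ T, ∀ P' ∈ T,
      At s P (some p) → At s P' (some p) → P.ord a ≤ P'.ord a := by
    intro a ha a0 P hP P' hP' hA hA'
    obtain ⟨G, g1, rfl, g2⟩ := Wc.I88.cmp (u := u) y0 ha
    obtain ⟨w, w0, hw⟩ := su.2.1 G P' a0
    obtain ⟨k, hk⟩ := one w _ (g1 w) w0 (g2 w w0)
    have := fm.inv P hP (fa.2.2.2.2.1 P _ hA).1 G g1 w w0
    rw [id, hk P hP hA] at this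
    rw [hk P' hP' hA'] at hw
    exact this.trans hw
  rintro P hP P' hP' hA hA' ⟨z, hz⟩ z0
  obtain ⟨a, ha, b, hb, rfl⟩ := IntermediateField.mem_adjoin_iff_div.1 hz
  have n0 : a / b ≠ 0 := fun e => z0 (Subtype.ext e)
  have a0 : a ≠ 0 := fun e => n0 (by rw [e, zero_div])
  have b0 : b ≠ 0 := fun e => n0 (by rw [e, div_zero])
  change P.ord (a / b) = P'.ord (a / b)
  rw [div_eq_mul_inv, Pl.ord_mul _ a0 (inv_ne_zero b0), Pl.ord_mul _ a0 (inv_ne_zero b0),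
    Pl.ord_inv, Pl.ord_inv, le_antisymm (le a ha a0 P hP P' hP' hA hA') (le a ha a0 P' hP' P hP hA' hA),
    le_antisymm (le b hb b0 P hP P' hP' hA hA') (le b hb b0 P' hP' P hP hA' hA)]

end Vale.Agent.P283R.Tb
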