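import Vale.Agent.P283R.Tb.St
import Vale.Agent.P283R.Tb.Few96

/-!
# P283R, block TB: few generators of a cone
-/

open Set

noncomputable section

namespace Vale.Agent.P283R.Tb

theorem lat56 : LAT := by
  classical
  intro c α v A N h H
  have k : ∀ n : Fin c → ℤ, ∃ B : Finset α, B.card ≤ 1 ∧ ↑B ⊆ A ∧
      (∀ a ∈ B, ∃ μ : ℕ, v a = μ • n) ∧ ∀ m : Fin c → ℤ,
      (∀ a ∈ B, 0 ≤ m ⬝ᵥ v a) → ∀ a ∈ A, ∀ μ : ℕ, v a = μ • n → 0 ≤ m ⬝ᵥ v a := fun n => by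
    by_cases e : ∃ a ∈ A, ∃ μ : ℕ, 0 < μ ∧ v a = μ • n
    · obtain ⟨a, ha, μ, μ0, e⟩ := e
      refine ⟨{a}, by simp, by simpa using ha, fun b hb => ⟨μ, Finset.mem_singleton.1 hb ▸ e⟩,
        fun m hm b _ ν e' => ?_⟩
      have := hm a (Finset.mem_singleton_self a)
      rw [e, dotProduct_smul, nsmul_eq_mul] at this
      rw [e', dotProduct_smul, nsmul_eq_mul]
      exact mul_nonneg (Nat.cast_nonneg ν) (nonneg_of_mul_nonneg_right this (by exact_mod_cast μ0))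
    · refine ⟨∅, by simp, by simp, by simp, fun m _ a ha μ e' => ?_⟩
      obtain rfl : μ = 0 := by_contra fun z => e ⟨a, ha, μ, Nat.pos_of_ne_zero z, e'⟩
      simp [e']
  choose B b1 b2 _ b4 using k
  have d1 : (N.biUnion B).card ≤ N.card :=
    Finset.card_biUnion_le.trans ((Finset.sum_le_card_nsmul _ _ 1 fun n _ => b1 n).trans (by simp))
  have d2 : ↑(N.biUnion B) ⊆ A := fun a ha =>
    let ⟨n, _, b⟩ := Finset.mem_biUnion.1 ha; b2 n b
  have d3 : ∀ m : Fin c → ℤ, (∀ a ∈ N.biUnion B, 0 ≤ m ⬝ᵥ v a) → ∀ a ∈ A, 0 ≤ m ⬝ᵥ v a :=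
    fun m hm a ha => by
      obtain ⟨n, hn, μ, e⟩ := H a ha
      exact b4 n m (fun b hb => hm b (Finset.mem_biUnion.2 ⟨n, hn, hb⟩)) a ha μ
        (funext fun i => by simpa using e i)
  rcases h with h | h
  · obtain ⟨D, e1, e2, e3⟩ := few2 h (N.biUnion B) v
    refine ⟨D, e2.trans ?_, fun a ha => d2 (e1 ha), fun m hm => d3 m (e3 m hm)⟩
    interval_cases c <;> norm_num
  · exact ⟨_, d1.trans h, d2, d3⟩

end Vale.Agent.P283R.Tb
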