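import Vale.Agent.P283R.Tb.St
import Vale.Agent.P283R.Pq.Lau80

/-!
# P283R, block TB, the last layer: division by a term (row NRM)
-/

open Set

noncomputable section

namespace Vale.Agent.P283R.Tb

open Vale.Agent.P287D Vale.Agent.P297Z
open Wc (Dr Ho Kt Rep Sec Av Lk Un Od Or Eqf Wi Ef Mo Gn Pd ForA ForB ForD)
open Pq (Hm Hg tot Tv cz)

/-- **NRM** -/
theorem nrm31 : NRM := by
  intro K _ _ c ρ s y T d q ε G κ u pk hg a0
  obtain ⟨G', hG, e, v⟩ := Pq.L80.shift (Pq.I80.y_ne pk.fm.rat.1) (Pq.L80.hm_inv (hg u)) hg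
  have g0 := pk.g0
  have eo : ∀ P : Pl K, P.ord (tot G') = P.ord (tot G) - P.ord (G u) := fun P => by
    rw [e, Pl.ord_mul _ (inv_ne_zero a0) g0, Pl.ord_inv]
    ring
  have ed : ∀ a : K, tot G' / a = tot G / (G u * a) := fun a => by
    rw [e, div_mul_eq_div_div, div_eq_inv_mul (tot G)]
  have ea : ∀ (P : Pl K) (a : K), a ≠ 0 →
      κ P + P.ord (G u) + P.ord a = κ P + P.ord (G u * a) := fun P a h => by
    rw [Pl.ord_mul _ a0 h, add_assoc]
  refine ⟨G', hG, ?_, ⟨pk.dim, pk.fm, e ▸ mul_ne_zero (inv_ne_zero a0) g0, fun P p t => ?_,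
    (pk.fin.union (pk.fm.fin (G u))).subset fun P h => ?_, fun P p => ?_, fun Q ξ nn sp le => ?_,
    fun a h₀ X k r t ha h0 fX inj m z fr kp => ?_⟩, fun m z Q ⟨φ, φ0, h1, h2⟩ => ?_⟩
  · have := v u
    rw [neg_add_cancel] at this
    rw [this]
    exact mul_ne_zero (inv_ne_zero a0) a0
  · rw [eo, t u _ (hg u) a0, (pk.reg P p t).2, sub_zero]
    exact ⟨(pk.reg P p t).1, rfl⟩
  · by_contra w
    rw [mem_union, not_or] at w
    exact h.2 (by rw [not_not.1 fun x => w.1 ⟨h.1, x⟩, zero_add]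
                  exact not_not.1 fun x => w.2 ⟨h.1, x⟩)
  · have := pk.eff P p
    rw [eo]
    omega
  · have a := pk.hw Q ξ nn sp le
    have b := le u _ (hg u) a0
    have f : ∑ᶠ E, ξ E * ((κ E + E.ord (G u) : ℤ) : ℝ) =
        ∑ᶠ E, ξ E * (κ E : ℝ) + ∑ᶠ E, ξ E * ((id E).ord (G u) : ℝ) := by
      rw [← finsum_add_distrib
        (pk.fin.subset fun E h => ⟨(sp E (left_ne_zero_of_mul h)).1,
          Int.cast_ne_zero.1 (right_ne_zero_of_mul h)⟩)
        ((pk.fm.fin (G u)).subset fun E h => ⟨(sp E (left_ne_zero_of_mul h)).1,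
          Int.cast_ne_zero.1 (right_ne_zero_of_mul h)⟩)]
      exact finsum_congr fun E => by rw [Int.cast_add, mul_add, id]
    rw [f, eo, Int.cast_sub]
    linarith
  · simp only [ed, ea _ _ ha]
    exact pk.av (G u * a) h₀ X k r t (mul_ne_zero a0 ha) h0 fX inj m
      (fun P p n => ⟨(z P p n).1, (ea P a ha).symm.trans (z P p n).2⟩) fr kp
  · refine ⟨(G u)⁻¹ ^ m * φ, mul_ne_zero (pow_ne_zero _ (inv_ne_zero a0)) φ0, fun P p => ?_, ?_⟩
    · have := h1 P p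
      rw [Pl.ord_mul _ (pow_ne_zero _ (inv_ne_zero a0)) φ0, Pl.ord_pow, Pl.ord_inv]
      linarith
    · rwa [← mul_assoc, ← mul_pow, mul_comm (tot G), ← e]

end Vale.Agent.P283R.Tb
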