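import Vale.Agent.P283R.Tb.St
import Vale.Agent.P283R.Pq.Lau80

/-!
# P283R, block TB: division by a term (row NRM)
-/

open Set

noncomputable section

namespace Vale.Agent.P283R.Tb

open Vale.Agent.P287D Vale.Agent.P297Z
open Pq (Hm Hg tot Tv cz)

/-- **NRM** -/
theorem nrm40 : NRM := by
  intro K _ _ c ρ s y T d q ε G κ u pk hg a0
  obtain ⟨G', hG, e, v⟩ := Pq.L80.shift (Pq.I80.y_ne pk.fm.rat.1) (Pq.L80.hm_inv (hg u)) hg
  have g0 := pk.g0
  have eo : ∀ P : Pl K, P.ord (tot G') = P.ord (tot G) - P.ord (G u) := fun P => by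
    rw [e, Pl.ord_mul _ (inv_ne_zero a0) g0, Pl.ord_inv]
    ring
  have ed : ∀ a : K, tot G' / a = tot G / (G u * a) := fun a => by
    rw [e, div_mul_eq_div_div, div_eq_inv_mul (tot G)]
  have ea : ∀ (P : Pl K) (a : K), a ≠ 0 →
      κ P + P.ord (G u) + P.ord a = κ P + P.ord (G u * a) := fun P a h => by
    rw [Pl.ord_mul _ a0 h, add_assoc]
  refine ⟨G', hG, ?_, ⟨pk.dim, pk.fm, e ▸ mul_ne_zero (inv_ne_zero a0) g0, fun P p t => ?_,
    (pk.fin.union (pk.fm.fin (G u))).subset fun P h => ?_, fun P p => ?_, fun Q ξ nn sp le => ?_,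
    fun a h₀ X k r t ha h0 fX inj m z fr kp => ?_⟩, fun m z Q ⟨φ, φ0, h1, h2⟩ => ?_⟩
  · have := v u
    rw [neg_add_cancel] at this
    rw [this]
    exact mul_ne_zero (inv_ne_zero a0) a0
  · rw [eo, t u _ (hg u) a0, (pk.reg P p t).2, sub_zero]
    exact ⟨(pk.reg P p t).1, rfl⟩
  · by_contra w
    rw [mem_union, not_or] at w
    exact h.2 (by rw [not_not.1 fun x => w.1 ⟨h.1, x⟩, zero_add]
                  exact not_not.1 fun x => w.2 ⟨h.1, x⟩)
  · have := pk.eff P p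
    rw [eo]
    omega
  · have a := pk.hw Q ξ nn sp le
    have b := le u _ (hg u) a0
    have f : ∑ᶠ E, ξ E * ((κ E + E.ord (G u) : ℤ) : ℝ) =
        ∑ᶠ E, ξ E * (κ E : ℝ) + ∑ᶠ E, ξ E * ((id E).ord (G u) : ℝ) := by
      rw [← finsum_add_distrib
        (pk.fin.subset fun E h => ⟨(sp E (left_ne_zero_of_mul h)).1,
          Int.cast_ne_zero.1 (right_ne_zero_of_mul h)⟩)
        ((pk.fm.fin (G u)).subset fun E h => ⟨(sp E (left_ne_zero_of_mul h)).1,
          Int.cast_ne_zero.1 (right_ne_zero_of_mul h)⟩)]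
      exact finsum_congr fun E => by rw [Int.cast_add, mul_add, id]
    rw [f, eo, Int.cast_sub]
    linarith
  · simp only [ed, ea _ _ ha]
    exact pk.av (G u * a) h₀ X k r t (mul_ne_zero a0 ha) h0 fX inj m
      (fun P p n => ⟨(z P p n).1, (ea P a ha).symm.trans (z P p n).2⟩) fr kp
  · refine ⟨(G u)⁻¹ ^ m * φ, mul_ne_zero (pow_ne_zero _ (inv_ne_zero a0)) φ0, fun P p => ?_, ?_⟩
    · have := h1 P p
      rw [Pl.ord_mul _ (pow_ne_zero _ (inv_ne_zero a0)) φ0, Pl.ord_pow, Pl.ord_inv]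
      linarith
    · rwa [← mul_assoc, ← mul_pow, mul_comm (tot G), ← e]

end Vale.Agent.P283R.Tb
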