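import Vale.Agent.P283R.Tb.Mco85
import Vale.Agent.P283R.Tb.Few96

/-!
# P283R, block TB: the places over hypersurfaces of the projective space
-/

open Set

noncomputable section

namespace Vale.Agent.P283R.Tb.O96

open Vale.Agent.P287D Vale.Agent.P283M Vale.Agent.P283R.To Vale.Agent.P297Z Pq C85
open MvPolynomial

variable {c ρ : ℕ} {K : Type} [Field K] [Algebra ℂ K] {s : Fin c → K} {y : Fin ρ → K} {E : Pl K}

theorem hz0 (h : D.Rat (fr s y)) (a : Hz s E) {f : MvPolynomial (Fin c) ℂ} (f0 : f ≠ 0) :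
    E.ord (aeval s f) = 0 := by
  obtain ⟨-, -, -, -, -, -, f7, -, -, f10, -⟩ := fac c ρ K s y h
  obtain ⟨b, n, b0, -, -, -, e⟩ := f10 f f0
  rw [e, Pl.ord_smul _ b0, f7 _ _ _ a]
  simp

/-- the rays of the projective space -/
def rays (c : ℕ) : Finset (Fin c → ℤ) :=
  insert (fun _ => -1) (Finset.univ.image fun i => Pi.single i 1)

theorem rays_card : (rays c).card ≤ c + 1 :=
  (Finset.card_insert_le _ _).trans (Nat.succ_le_succ (Finset.card_image_le.trans (by simp)))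

theorem ray (h : D.Rat (fr s y)) (a : Hz s E ∨ ∃ r, At s E r) :
    ∃ r ∈ rays c, ∃ k : ℕ, (fun i => E.ord (s i)) = k • r := by
  have z : (∀ i, E.ord (s i) = 0) → ∃ r ∈ rays c, ∃ k : ℕ, (fun i => E.ord (s i)) = k • r :=
    fun z => ⟨_, Finset.mem_insert_self _ _, 0, funext fun i => by simp [z]⟩
  obtain ⟨-, -, -, z4, z5, -⟩ := czr c ρ K s y h
  obtain a | ⟨_ | p, a⟩ := a
  · exact z fun i => by simpa using hz0 h a (X_ne_zero i)
  · refine ⟨_, Finset.mem_insert_self _ _, (mu s E none).toNat, funext fun i => ?_⟩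
    simp [z4 E a, a.1.le]
  by_cases n : Nc p
  · exact z (s0 h n a)
  obtain ⟨i, hi⟩ : ∃ i, p.l ∣ X i := by simpa [Nc] using n
  refine ⟨Pi.single i 1, Finset.mem_insert_of_mem (Finset.mem_image_of_mem _ (Finset.mem_univ i)),
    (E.ord (s i)).toNat, funext fun j => ?_⟩
  obtain rfl | ne := eq_or_ne j i
  · simp [z5 E (.inr ⟨p, a⟩) j]
  obtain ⟨-, -, -, -, -, f6, -, -, -, f10, -⟩ := fac c ρ K s y h
  obtain ⟨b, m, b0, -, -, k, e⟩ := f10 (X j) (X_ne_zero j)
  rw [aeval_X] at e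
  rw [e, Pl.ord_smul _ b0, f6 _ _ _ _ a, od, (k p).2 fun d => ne (X_dvd_X.1
    ((((pol c).1 p).1.irreducible.dvd_symm (X_prime (R := ℂ) (i := i)).irreducible hi).trans
      d)).symm]
  simp [ne]

theorem mn_hz (h : D.Rat (fr s y)) (a : Hz s E) : Mn s E := fun f m hm => by
  rw [hz0 h a (by rintro rfl; simp at hm)]
  exact Finset.sum_nonneg fun i _ => by simp [show E.ord (s i) = 0 by
    simpa using hz0 h a (X_ne_zero i)]

theorem mn_inf (h : D.Rat (fr s y)) (a : At s E none) : Mn s E := fun f m hm => by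
  obtain ⟨-, -, -, -, -, f6, -, -, -, f10, -⟩ := fac c ρ K s y h
  obtain ⟨b, n, b0, -, d, -, e⟩ := f10 f (by rintro rfl; simp at hm)
  have l : ∑ i, (m i : ℤ) ≤ f.totalDegree := by
    have := le_totalDegree hm
    rw [Finsupp.sum_fintype _ _ fun _ => rfl] at this
    exact_mod_cast this
  rw [e, Pl.ord_smul _ b0, f6 _ _ _ _ a]
  simp only [(czr c ρ K s y h).2.2.2.1 E a, ← Finset.sum_mul, Pi.zero_apply, zero_mul,
    Finset.sum_const_zero, zero_add]
  nlinarith [a.1]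

theorem pg (h : D.Rat (fr s y)) (a : Hz s E ∨ ∃ r, At s E r) :
    Mn s E ∨ ∃ p, At s E (some p) := by
  obtain a | ⟨_ | p, a⟩ := a
  exacts [.inl (mn_hz h a), .inl (mn_inf h a), .inr ⟨p, a⟩]

/-- the hypothesis of `mis96` -/
theorem le0 (a : Mn s E ∨ ∃ p, At s E (some p)) (z : ∀ i, E.ord (s i) = 0) (p : Pg c)
    (n : ¬ At s E (some p)) : E.ord (lam s p) ≤ 0 := by
  obtain a | ⟨p', a⟩ := a
  · obtain ⟨m, hm⟩ := support_nonempty.2 (F60.irr p).ne_zero
    simpa [z, lam] using a _ m hm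
  · exact (at_ne a fun e : p = p' => n (e ▸ a)).le

end Vale.Agent.P283R.Tb.O96
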