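import Vale.Agent.P283R.Tb.St

/-!
# P283R, block TB: the ordinary pages, the first clause of the text
-/

open Set

noncomputable section

namespace Vale.Agent.P283R.Tb

open Vale.Agent.P287D Vale.Agent.P283M
open Pq (Hm Hg tot Tv Hz At cz lam mu fr Pg od pol fac czr)

theorem ord24 : ORD := by
  intro K _ _ c ρ s y T d q ε g κ x
  obtain ⟨G, hG, e⟩ := x.fm.lau g x.g0 fun P a b => (x.reg P a b).1
  obtain ⟨p1, p2, -⟩ := pol c
  have f1 : {p : Pg c | ∃ i : Fin c, p.l ∣ MvPolynomial.X i}.Finite := by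
    rw [ofPred_exists]
    refine finite_iUnion fun i => Set.Subsingleton.finite fun p a p' b => p2 _ _ (a.trans ?_)
    exact ((p1 p').1.irreducible.associated_of_dvd MvPolynomial.X_prime.irreducible b).symm.dvd
  let B : Set (Pl K) := ({P | P ∈ T ∧ cz s y P ≠ 0} ∪ {P | P ∈ T ∧ κ P ≠ 0}) ∪
    ((⋃ i, {P | P ∈ T ∧ P.ord (y i) ≠ 0}) ∪ ⋃ u ∈ G.support, {P | P ∈ T ∧ P.ord (G u) ≠ 0})
  have f2 : B.Finite := (x.fm.finc.union x.fin).union ((finite_iUnion fun i => x.fm.fin _).union
    (G.support.finite_toSet.biUnion fun u _ => x.fm.fin _))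
  have f3 : (⋃ P ∈ B, {p : Pg c | At s P (some p)}).Finite := f2.biUnion fun P _ =>
    Set.Subsingleton.finite fun p a p' b =>
      Option.some.inj ((fac c ρ K s y x.fm.rat).2.2.2.1 P _ _ a b)
  have f4 := x.fm.mis.union (f1.union f3)
  have nb : ∀ P p, p ∉ f4.toFinset → At s P (some p) → P ∉ B := fun P p n a b =>
    n (f4.mem_toFinset.2 (.inr (.inr (mem_biUnion b a))))
  refine ⟨G, f4.toFinset, e, hG, fun p n => by_contra fun z => n (f4.mem_toFinset.2 (.inl z)),
    ⟨fun i p a => f4.mem_toFinset.2 (.inr (.inl ⟨i, a⟩)), fun P t p n a => ?_⟩,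
    fun P t p n a i _ => by_contra fun z => nb P p n a (.inr (.inl (mem_iUnion.2 ⟨i, t, z⟩))),
    fun P t p n a u u0 => by_contra fun z => nb P p n a
      (.inr (.inr (mem_biUnion (Finsupp.mem_support_iff.2 u0) ⟨t, z⟩)))⟩
  have z1 : cz s y P = 0 := by_contra fun z => nb P p n a (.inl (.inl ⟨t, z⟩))
  have z2 := (czr c ρ K s y x.fm.rat).1 P p a
  have z3 := a.1
  exact ⟨by omega, z1, by_contra fun z => nb P p n a (.inl (.inr ⟨t, z⟩))⟩


open MvPolynomial in
theorem ova24 : OVA := by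
  classical
  intro c K _ _ s P l hs hl H
  obtain ⟨p1, p2, -⟩ := pol c
  have ne : ∀ {g : MvPolynomial (Fin c) ℂ}, g ≠ 0 → aeval s g ≠ 0 := Pq.U60.aev_ne hs
  have mul : ∀ (k : ℕ) g, ¬ l ∣ g → P.ord (aeval s (l ^ k * g)) = k * P.ord (aeval s l) :=
    fun k g h => by
      rw [map_mul, map_pow, P.ord_mul (pow_ne_zero _ (ne hl.ne_zero))
        (ne (g := g) (by rintro rfl; exact h (dvd_zero l))), P.ord_pow, H g h, add_zero]
  have as : ∀ g, Associated l g → P.ord (aeval s g) = P.ord (aeval s l) := by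
    rintro _ ⟨u, rfl⟩
    simpa using mul 1 u fun h => hl.not_isUnit (isUnit_of_dvd_unit h u.isUnit)
  have m0 : 0 ≤ P.ord (aeval s l) := by
    by_contra hn
    have := H (l + 1) fun h => hl.not_dvd_one ((dvd_add_right dvd_rfl).1 h)
    rw [map_add, map_one, P.ord_add_eq_of_lt (ne hl.ne_zero) one_ne_zero
      (by rw [P.ord_one]; omega)] at this
    omega
  have fc : ∀ g : MvPolynomial (Fin c) ℂ, ∀ a ∈ g.support, ∃ k g', ¬ l ∣ g' ∧ g = l ^ k * g' :=
    fun g a ha => WfDvdMonoid.max_power_factor (ne_zero_iff.2 ⟨a, mem_support_iff.1 ha⟩)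
      hl.irreducible
  by_cases h : ∃ j, l ∣ X j
  · obtain ⟨j, hj⟩ := h
    have a1 := hl.irreducible.associated_of_dvd X_prime.irreducible hj
    have o : ∀ i, P.ord (s i) = P.ord (aeval s l) * (Pi.single j 1 : Fin c → ℤ) i := fun i => by
      by_cases e : i = j
      · subst e
        simpa using as _ a1
      · simpa [e] using H (X i) fun d => e (X_dvd_X.1 (a1.symm.dvd.trans d)).symm
    refine .inl ⟨fun g a ha => ?_, j, (P.ord (aeval s l)).toNat, fun i => by
      rw [Int.toNat_of_nonneg m0, o]⟩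
    obtain ⟨k, g', n, rfl⟩ := fc g a ha
    obtain ⟨w, e⟩ := ((a1.pow_pow (n := k)).symm.dvd).mul_right g'
    have le : k ≤ a j := by
      rw [e, mem_support_iff, X_pow_eq_monomial, coeff_monomial_mul'] at ha
      exact Finsupp.single_le_iff.1 (by_contra fun z => ha (if_neg z))
    rw [mul k g' n, dt, Finset.sum_eq_single j (fun i _ e => by simp [o i, e]) (by simp), o j]
    simpa using mul_le_mul_of_nonneg_right (Int.ofNat_le.2 le) m0
  · have o : ∀ i, P.ord (s i) = 0 := fun i => by simpa using H (X i) fun d => h ⟨i, d⟩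
    rcases m0.eq_or_lt with z | z
    · obtain ⟨j⟩ : Nonempty (Fin c) := by
        by_contra hn
        have := not_nonempty_iff.1 hn
        have e := eq_C_of_isEmpty l
        exact hl.not_isUnit (e ▸ (IsUnit.mk0 _ fun z => hl.ne_zero (by rw [e, z, C_0])).map C)
      refine .inl ⟨fun g a ha => ?_, j, 0, fun i => by simp [o]⟩
      obtain ⟨k, g', n, rfl⟩ := fc g a ha
      rw [mul k g' n, ← z]
      simp [dt, o]
    · let p : Pg c := ⟨Associates.mk l, Associates.irreducible_mk.2 hl.irreducible⟩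
      have a1 : Associated l p.l := (Associates.mk_eq_mk_iff_associated.1 (Quot.out_eq p.1)).symm
      refine .inr ⟨p, ⟨z.trans_eq (as _ a1).symm, fun p' => ?_⟩, o⟩
      by_cases e : p' = p
      · subst e
        simp [mu, od]
      · have : P.ord (lam s p') = 0 := H _ fun d => e (p2 _ _ (a1.symm.dvd.trans d)).symm
        simp [od, this, e]

end Vale.Agent.P283R.Tb
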