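import Vale.Agent.P283R.Tb.St
import Vale.Agent.P283R.Tb.Gq80
import Vale.Agent.P283R.Tb.Hel85
import Vale.Agent.P283R.Tb.Gt85

/-!
# P283R, block TB: few special pages
-/

open Set

noncomputable section

namespace Vale.Agent.P283R.Tb

open Vale.Agent.P287D Vale.Agent.P283M
open Pq (At Pg)

theorem f1_85 {c ρ : ℕ} {K : Type} [Field K] [Algebra ℂ K] {s : Fin c → K} {y : Fin ρ → K}
    {T : Set (Pl K)} (F : Fm s y (· ∈ T) id) : C85.F1 s y T :=
  { rat := F.rat
    fin := F.fin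
    finc := F.finc
    inv := F.inv
    mis := F.mis.subset fun _ h => h.2
    pg := fun E a => C85.pg_nc F.rat ((F.pg E a).imp id fun ⟨p, h⟩ => ⟨p, h.1⟩) }

/-- **PAGE** -/
theorem page85 : PAGE := fun d q hq => ⟨q * (d + 2 ^ (d + 2)) * (d + 2) + d,
  fun K _ _ c ρ s y T ε G κ I Q ξ ε0 pk od rp ps => by
  classical
  obtain ⟨-, -, -, f4, f5, -⟩ := Pq.fac c ρ K s y pk.fm.rat
  obtain ⟨c1, -⟩ := Pq.czr c ρ K s y pk.fm.rat
  obtain ⟨D, hD, d1, d2⟩ := pk.fm.gen {R | ξ R ≠ 0 ∧ Mv s R}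
    fun R a => ⟨a.2, R, (rp.sup R a.1).1, rfl⟩
  obtain ⟨u, hu, J, h1, h2⟩ := C85.hel (Q := Q) (ζ := ξ) (Is := D) gp0 (f1_85 pk.fm) ε0.le hq
    od.hg pk.g0 pk.hw pk.fin
    (fun E a => by
      have := pk.eff E a
      omega) ⟨rp.nn, rp.sup, fun u x hx x0 => rp.eq x ⟨x0, u, hx⟩,
      fun P a => ⟨(d1 a).2, (d1 a).1⟩, fun a h E z m => d2 a h E ⟨z, m⟩⟩
  obtain ⟨f, hf⟩ : ∃ f : Fin c → Option (Pg c), ∀ i (p : Pg c), p.l ∣ MvPolynomial.X i →
      f i = some p := by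
    refine ⟨fun i => if h : ∃ p : Pg c, p.l ∣ MvPolynomial.X i then some h.choose else none,
      fun i p h => ?_⟩
    have e : ∃ p : Pg c, p.l ∣ MvPolynomial.X i := ⟨p, h⟩
    have x := (MvPolynomial.X_prime (R := ℂ) (i := i)).irreducible
    simp only [dif_pos e]
    exact congrArg some ((Pq.pol c).2.1 _ _ (e.choose_spec.trans
      (((Pq.pol c).1 p).1.irreducible.dvd_symm x h)))
  have co : ∀ i (p : Pg c), p.l ∣ MvPolynomial.X i →
      p ∈ J ∪ (Finset.univ.image f).eraseNone := fun i p h => by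
    simp only [Finset.mem_eraseNone, Finset.mem_union, Finset.mem_image]
    exact .inr ⟨i, Finset.mem_univ i, hf i p h⟩
  refine ⟨u, J ∪ (Finset.univ.image f).eraseNone, hu, (Finset.card_union_le _ _).trans
    (Nat.add_le_add (h1.trans ?_) ((Finset.card_eraseNone_le _).trans
      (Finset.card_image_le.trans ?_))), co, fun P a p n b => ?_⟩
  · have := pk.dim
    exact Nat.mul_le_mul (Nat.mul_le_mul_left _ (Nat.add_le_add (by omega)
      (hD.trans (Nat.pow_le_pow_right two_pos (by omega))))) (by omega)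
  · have := pk.dim
    simp only [Finset.card_univ, Fintype.card_fin]
    omega
  by_cases z : p ∈ I
  · obtain ⟨k1, k2⟩ := h2 P a p (fun i h => n (co i p h)) b
      ⟨P, (ps P ⟨a, (f5 _ _ b).1, fun p' m k =>
        m (Option.some.inj (f4 _ _ _ b k) ▸ z)⟩).ne', b⟩ fun k => n (Finset.mem_union_left _ k)
    have a1 := c1 _ p b
    have a2 := pk.eff P a
    have a3 := pk.fm.inv P a (f5 _ _ b).1 G od.hg u hu
    simp only [id] at k1 k2 a3
    refine ⟨k1, le_antisymm (by nlinarith) (by omega), by omega⟩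
  · obtain ⟨k1, k2, k3⟩ := od.od.od P a p z b
    exact ⟨k1, k2, by rw [k3, od.g0 P a p z b u hu, add_zero]⟩⟩

/-- **GT** -/
theorem gt85 : GT := fun _ _ _ _ _ _ _ _ _ _ _ _ F O H => C85.gt (f1_85 F) O.ex O.od O.y0 H

/-- **PGR** -/
theorem pgr85 : PGR := fun _ _ => page85

/-- **GTR** -/
theorem gtr85 : GTR := fun _ _ => gt85

end Vale.Agent.P283R.Tb
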