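import Vale.Agent.P283R.Tb.St

/-!
# P283R, block TB: the projective space is a toric base
-/

open Set CategoryTheory AlgebraicGeometry

noncomputable section

namespace Vale.Agent.P283R.Tb

open Vale.Agent.P287D Vale.Agent.P297Z
open Pq (Hz At lam mu od Pg)

namespace Q90

variable {K : Type} [Field K] [Algebra ℂ K] {c : ℕ} {s : Fin c → K}

theorem ordv (h : AlgebraicIndependent ℂ s) (P : Pl K) {g : MvPolynomial (Fin c) ℂ} (g0 : g ≠ 0) :
    ∃ n : Pg c →₀ ℕ, (∀ p, n p ≠ 0 → p.l ∣ g) ∧ g.totalDegree = ∑ p ∈ n.support, n p * p.dg ∧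
      P.ord (MvPolynomial.aeval s g) = ∑ p ∈ n.support, n p * P.ord (lam s p) := by
  obtain ⟨p1, -, p3, p4⟩ := Pq.pol c
  obtain ⟨a, n, a0, e⟩ := p3 g g0
  have l0 : ∀ p : Pg c, lam s p ≠ 0 := fun p =>
    (map_ne_zero_iff _ h).2 (p1 p).1.ne_zero
  refine ⟨n, fun p hp => ?_, ?_, ?_⟩
  · rw [e, MvPolynomial.smul_eq_C_mul]
    exact ((dvd_pow_self _ hp).trans (Finset.dvd_prod_of_mem (fun p => p.l ^ n p)
      (Finsupp.mem_support_iff.2 hp))).mul_left _
  · refine Eq.trans (le_antisymm (e ▸ MvPolynomial.totalDegree_smul_le _ _) ?_) (p4 n)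
    rw [← inv_smul_smul₀ a0 (n.prod fun p k => p.l ^ k), ← e]
    exact MvPolynomial.totalDegree_smul_le _ _
  · rw [e, map_smul, P.ord_smul a0, Finsupp.prod, map_prod]
    simp only [map_pow]
    exact (P.ord_prod _ fun p _ => pow_ne_zero (n p) (l0 p)).trans
      (Finset.sum_congr rfl fun p _ => Pl.ord_pow _ _ _)

theorem key (h : AlgebraicIndependent ℂ s) (P : Pl K) (o : Hz s P ∨ ∃ r, At s P r) :
    (∃ l : MvPolynomial (Fin c) ℂ, Prime l ∧ ∀ g, ¬ l ∣ g → P.ord (MvPolynomial.aeval s g) = 0) ∨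
      ((∃ μ : ℕ, ∀ i, P.ord (s i) = μ * (-1)) ∧ ∀ g : MvPolynomial (Fin c) ℂ, ∀ a ∈ g.support,
        P.ord (MvPolynomial.aeval s g) ≤ ∑ i, a i * P.ord (s i)) := by
  classical
  have two : ∀ μ : ℕ, (∀ p, P.ord (lam s p) = -(μ * p.dg)) →
      (∃ μ : ℕ, ∀ i, P.ord (s i) = μ * (-1)) ∧ ∀ g : MvPolynomial (Fin c) ℂ, ∀ a ∈ g.support,
        P.ord (MvPolynomial.aeval s g) ≤ ∑ i, a i * P.ord (s i) := fun μ hμ => by
    have e : ∀ g : MvPolynomial (Fin c) ℂ, g ≠ 0 →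
        P.ord (MvPolynomial.aeval s g) = -(μ * g.totalDegree) := fun g g0 => by
      obtain ⟨n, -, a, b⟩ := ordv h P g0
      rw [b, a]
      push_cast
      rw [Finset.mul_sum, ← Finset.sum_neg_distrib]
      exact Finset.sum_congr rfl fun p _ => by rw [hμ]; ring
    have e1 : ∀ i, P.ord (s i) = μ * (-1) := fun i => by
      simpa using e _ (MvPolynomial.X_ne_zero i)
    refine ⟨⟨μ, e1⟩, fun g a ha => ?_⟩
    have l := MvPolynomial.le_totalDegree ha
    rw [Finsupp.sum_fintype _ _ fun _ => rfl] at l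
    have l' : (∑ i, (a i : ℤ)) ≤ g.totalDegree := by exact_mod_cast l
    rw [e g (MvPolynomial.ne_zero_iff.2 ⟨a, MvPolynomial.mem_support_iff.1 ha⟩)]
    simp only [e1, ← Finset.sum_mul]
    nlinarith [Int.natCast_nonneg μ]
  rcases o with o | ⟨_ | p, o1, o2⟩
  · exact .inr (two 0 fun p => by simpa using o p)
  · refine .inr (two (mu s P none).toNat fun p => ?_)
    rw [o2, Int.toNat_of_nonneg o1.le, od, Finsupp.sum_single_index (by simp)]
    ring
  · refine .inl ⟨p.l, ((Pq.pol c).1 p).1, fun g hg => ?_⟩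
    obtain ⟨n, a, -, b⟩ := ordv h P (g := g) fun e => hg (e ▸ dvd_zero _)
    rw [b]
    refine Finset.sum_eq_zero fun p' hp => ?_
    have ne : p' ≠ p := fun e => hg (e ▸ a p' (Finsupp.mem_support_iff.1 hp))
    rw [o2, od, Finsupp.single_eq_of_ne' ne, mul_zero, mul_zero]

open Sl Sl.Var Gl in
theorem up {X : Sl.Var} {s : Fin c → X.K} (h : AlgebraicIndependent ℂ s) (E : X.PrimeDiv)
    (o : Hz s (pq (X := X.o) E) ∨ ∃ r, At s (pq (X := X.o) E) r) :
    OverZeroSet s E ∨ ∃ v ∈ ({fun _ => -1} : Finset (Fin c → ℤ)), OverRay s v E := by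
  have e : ∀ g, ord g E = (pq (X := X.o) E).ord g := fun g => pq_ord (X := X.o) E g
  rcases key h _ o with ⟨l, a, b⟩ | ⟨⟨μ, a⟩, b⟩
  · exact .inl ⟨l, a, fun g hg => (e _).trans (b g hg)⟩
  · refine .inr ⟨_, Finset.mem_singleton_self _, ⟨μ, fun i => (e _).trans (a i)⟩, fun g m hm => ?_⟩
    simpa only [e] using b g m hm

end Q90

open Q90 Sl Sl.Var Gl in
/-- **PQT** -/
theorem pqt90 : PQT := by
  rintro X W (⟨c, r, s, y, a, b, v⟩ | ⟨r, s, y, a, b⟩)
  · refine ⟨c, r, s, y, {fun _ => -1}, a, .inr Nat.one_le_two_pow, b,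
      fun E hE => up (Pq.ind_left96 a) E ?_⟩
    obtain ⟨l, l1, l2⟩ := v E hE
    exact Pq.ovhr24 Pq.pol c _ s _ l (Pq.ind_left96 a) l1 fun n g h i j k m =>
      (pq_ord (X := X.o) E _).symm.trans ((l2 n g h i j k m).trans (pq_ord (X := X.o) E _))
  · have a' : AlgebraicIndependent ℂ (Fin.append (fun _ : Fin 1 => s) y) := by
      rw [Fin.append_left_eq_cons]
      exact AlgebraicIndependent.comp a _ (Fin.cast_injective _)
    refine ⟨1, r, fun _ => s, y, {fun _ => -1}, a', .inl one_le_two, fun x hx => ?_,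
      fun E _ => up (Pq.ind_left96 a') E (Pq.oner39 Pq.pol _ _ _ (Pq.ind_left96 a'))⟩
    obtain ⟨U, c, d, e, k⟩ := b x hx
    refine ⟨U, c, d, e, fun g hg => Submodule.span_mono ?_ (k g hg)⟩
    rintro _ ⟨i, φ, j, m, l⟩
    exact ⟨i, φ, by rwa [Set.range_const], m, l⟩

end Vale.Agent.P283R.Tb
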