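import Vale.Agent.P283R.Tb.St

/-!
# P283R, block TB: three rows as in the block WD
-/

open Set

noncomputable section

namespace Vale.Agent.P283R.Tb

open Vale.Agent.P287D Vale.Agent.P283M Cx Cy Vale.Agent.P297Z
open Vale.Agent.P283R.To (mon)
open Pq (Hm Hg tot Tv At cz lam mu fr Pg)
open Wd (Sb sb Wv Ps Pos)
open Wc (Dr Kt)

open Wc.W63 in
theorem w2r21 : W2R := by
  classical
  intro reg K _ _ c r ρ s y u T W q ε G κ Q ξ I J k N e π σ α W1 sc he rg pd wid cx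
  have fm := sc.pk.fm
  obtain ⟨-, f2, -, -, -, -, -, -, f9, -⟩ := Pq.fac60 c (r + ρ) K s (Fin.append y u) fm.rat
  have rq := fun φ => reg K c (r + ρ) s (Fin.append y u) T Q ξ φ fm sc.rep
  have l0 : ∀ p, lam s p ≠ 0 := fun p => by
    have := (f2 (Finsupp.single p 1) 0).1
    rw [Pq.hm, Finsupp.prod_single_index (by simp), zpow_one] at this
    exact left_ne_zero_of_mul this
  have u0 : ∀ j, u j ≠ 0 := fun j => by
    simpa using Pq.B25.y_ne fm.rat (Fin.natAdd r j)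
  have out : ∀ P ∈ T, P ∉ range e → Tv s (Fin.append y u) P ∨ ∃ p ∉ J, At s P (some p) :=
    fun P hP z => by
      by_contra! h
      exact z (rg ▸ ⟨hP, h.1, h.2⟩)
  have nin : ∀ P p, p ∉ J → At s P (some p) → P ∉ range e := fun P p a b z =>
    (rg ▸ z : P ∈ Kt s (Fin.append y u) T J).2.2 p a b
  have ol : ∀ P ∈ T, ∀ p ∉ J, At s P (some p) → ∀ p', P.ord (lam s p') = if p' = p then 1 else 0 :=
    fun P hP p a b p' => by
      rw [b.2 p', (sc.od.od P hP p a b).1, one_mul, Pq.od, Finsupp.single_apply]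
  refine ⟨fun n hn => ?_, fun p hp => ?_, fun m m0 => ?_⟩
  · have n0 : ∏ j, σ j ^ n j ≠ 0 := Finset.prod_ne_zero_iff.2 fun j _ => pow_ne_zero _ (cx.ne j)
    refine (rq _ n0 fun P hP => ?_).1
    simpa using (cx.sec 0 _ n0).1 (Submodule.subset_span ⟨n, hn, rfl⟩) P hP
  · obtain ⟨a, b, P₀, t, d⟩ := (pd.hI p).1 hp
    have el : algebraMap (Sb (fr s y)) K (π.l p) = lam s p := pd.hl p
    rw [el]
    refine pos_of he cx (fun φ f0 h => (rq φ f0 h).2) (l0 p) (pd.hb p) (fun P hP z => ?_) t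
      (nin P₀ p b d) (sc.pos P₀ t p a b d) (by rw [ol P₀ t p b d, if_pos rfl]; exact one_pos)
    rcases out P hP z with h | ⟨p', a', b'⟩
    · exact (((f9 P).1 h).1 p).ge
    · rw [ol P hP p' a' b']
      split_ifs <;> omega
  · have ew : hm u (π.cc m) m = (∏ p ∈ π.I, lam s p ^ π.κ p m) * mon u m := by
      rw [hm, Wd.Pg.cc, map_prod]
      congr 1
      refine Finset.prod_congr rfl fun p _ => ?_
      rw [map_zpow₀]
      exact congrArg (· ^ π.κ p m) (pd.hl p)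
    have p0 : ∏ p ∈ π.I, lam s p ^ π.κ p m ≠ 0 :=
      Finset.prod_ne_zero_iff.2 fun p _ => zpow_ne_zero _ (l0 p)
    have ow : ∀ P : Pl K, P.ord (hm u (π.cc m) m) =
        ∑ p ∈ π.I, π.κ p m * P.ord (lam s p) + ∑ j, m j * P.ord (u j) := fun P => by
      rw [ew, Pl.ord_mul _ p0 (To.mon_ne u0 m), To.ord_mon P u0,
        P.ord_prod _ fun p _ => zpow_ne_zero _ (l0 p)]
      simp only [Pl.ord_zpow]
    have oi : ∀ P ∈ T, ∀ p ∈ π.I, At s P (some p) → P.ord (hm u (π.cc m) m) =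
        (fun i => P.ord (u i)) ⬝ᵥ m + π.κ p m := fun P hP p hp b => by
      rw [ow, Finset.sum_congr rfl fun p' _ => by rw [ol P hP p ((pd.hI p).1 hp).2.1 b p']]
      simp only [mul_ite, mul_one, mul_zero, Finset.sum_ite_eq', if_pos hp, dotProduct]
      rw [add_comm, Finset.sum_congr rfl fun j _ => mul_comm _ _]
    obtain ⟨p, hp, v, hv, v', hv', ne⟩ := nonempty_of_ncard_ne_zero
      (Nat.one_le_iff_ne_zero.1 (W1.trans (wid.wid m m0)))
    obtain ⟨a, b, -⟩ := (pd.hI p).1 hp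
    obtain ⟨P₀, t, d, o⟩ : ∃ P₀ ∈ T, At s P₀ (some p) ∧ 0 < P₀.ord (hm u (π.cc m) m) := by
      have k1 := wid.vk p hp v hv m
      have k2 := wid.vk p hp v' hv' m
      obtain ⟨P, t, d, rfl⟩ := (pd.hV p v).1 hv
      obtain ⟨P', t', d', rfl⟩ := (pd.hV p v').1 hv'
      by_cases z : 0 < (fun i => P.ord (u i)) ⬝ᵥ m + π.κ p m
      · exact ⟨P, t, d, by rw [oi P t p hp d]; exact z⟩
      · exact ⟨P', t', d', by rw [oi P' t' p hp d']; omega⟩
    refine pos_of he cx (fun φ f0 h => (rq φ f0 h).2) (ew ▸ mul_ne_zero p0 (To.mon_ne u0 m))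
      (fun i => ?_) (fun P hP z => ?_) t (nin P₀ p b d) (sc.pos P₀ t p a b d) o
    · rw [ow, Wd.Pg.al, Pi.add_apply, Finset.sum_apply, Finset.sum_apply, neg_add, add_comm,
        ← Finset.sum_neg_distrib, ← Finset.sum_neg_distrib]
      congr 1
      · exact Finset.sum_congr rfl fun p _ => by simp [pd.hb]
      · exact Finset.sum_congr rfl fun j _ => by simp [pd.ha]
    · rcases out P hP z with h | ⟨p', a', b'⟩
      · obtain ⟨h1, h2⟩ := (f9 P).1 h
        have h3 : ∀ j, P.ord (u j) = 0 := fun j => by simpa using h2 (Fin.natAdd r j)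
        rw [ow]
        simp [h1 _, h3]
      · by_cases z' : p' ∈ π.I
        · rw [oi P hP p' z' b']
          exact wid.vk p' z' _ ((pd.hV p' _).2 ⟨P, hP, b', rfl⟩) m
        · have nI : p' ∉ I := fun h => z' ((pd.hI p').2 ⟨h, a', P, hP, b'⟩)
          rw [ow, Finset.sum_eq_zero fun p hp => by
            rw [ol P hP p' a' b', if_neg (ne_of_mem_of_not_mem hp z'), mul_zero],
            Finset.sum_eq_zero fun j _ => by rw [sc.u0 P hP p' nI b' j (u0 j), mul_zero]]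
          rfl

open Wc.I88 in
theorem ind21 : IND := by
  intro K _ _ c r ρ s y u T J κ fm od un p hp
  have fa := Pq.fac _ _ K s _ fm.rat
  have su := Pq.sums _ _ K s _ fm.rat
  have y0 : ∀ j, y j ≠ 0 := fun j => by
    have := fm.rat.ind.ne_zero (Fin.natAdd c (Fin.castAdd ρ j))
    rwa [fr, Fin.append_right, Fin.append_left] at this
  have one : ∀ w, ∀ a ∈ Hm s (Fin.append y u) w, a ≠ 0 → (∀ i, w (Fin.natAdd r i) = 0) →
      ∃ k : ℤ, ∀ P ∈ T, At s P (some p) → P.ord a = k := by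
    intro w a ha a0 hw
    obtain ⟨b, n, b0, rfl⟩ := fa.1 w a ha a0
    refine ⟨n p, fun P hP hA => ?_⟩
    rw [P.ord_smul b0, fa.2.2.2.2.2.1 P _ n w hA, (od.od P hP p hp hA).1, Fin.sum_univ_add]
    simp [hw, un P hP p hp hA _ (y0 _), Pq.od]
  have le : ∀ a ∈ Algebra.adjoin ℂ (range (fr s y)), a ≠ 0 → ∀ P ∈ T, ∀ P' ∈ T,
      At s P (some p) → At s P' (some p) → P.ord a ≤ P'.ord a := by
    intro a ha a0 P hP P' hP' hA hA'
    obtain ⟨G, g1, rfl, g2⟩ := Wc.I88.cmp (u := u) y0 ha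
    obtain ⟨w, w0, hw⟩ := su.2.1 G P' a0
    obtain ⟨k, hk⟩ := one w _ (g1 w) w0 (g2 w w0)
    have := fm.inv P hP (fa.2.2.2.2.1 P _ hA).1 G g1 w w0
    rw [id, hk P hP hA] at this
    rw [hk P' hP' hA'] at hw
    exact this.trans hw
  rintro P hP P' hP' hA hA' ⟨z, hz⟩ z0
  obtain ⟨a, ha, b, hb, rfl⟩ := IntermediateField.mem_adjoin_iff_div.1 hz
  have n0 : a / b ≠ 0 := fun e => z0 (Subtype.ext e)
  have a0 : a ≠ 0 := fun e => n0 (by rw [e, zero_div])
  have b0 : b ≠ 0 := fun e => n0 (by rw [e, div_zero])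
  change P.ord (a / b) = P'.ord (a / b)
  rw [div_eq_mul_inv, Pl.ord_mul _ a0 (inv_ne_zero b0), Pl.ord_mul _ a0 (inv_ne_zero b0),
    Pl.ord_inv, Pl.ord_inv, le_antisymm (le a ha a0 P hP P' hP' hA hA') (le a ha a0 P' hP' P hP hA' hA),
    le_antisymm (le b hb b0 P hP P' hP' hA hA') (le b hb b0 P' hP' P hP hA' hA)]

theorem nrm21 : NRM := by
  intro K _ _ c ρ s y T d q ε G κ u pk hg a0
  obtain ⟨G', hG, e, v⟩ := Pq.L80.shift (Pq.I80.y_ne pk.fm.rat.1) (Pq.L80.hm_inv (hg u)) hg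
  have g0 := pk.g0
  have eo : ∀ P : Pl K, P.ord (tot G') = P.ord (tot G) - P.ord (G u) := fun P => by
    rw [e, Pl.ord_mul _ (inv_ne_zero a0) g0, Pl.ord_inv]
    ring
  have ed : ∀ a : K, tot G' / a = tot G / (G u * a) := fun a => by
    rw [e, div_mul_eq_div_div, div_eq_inv_mul (tot G)]
  have ea : ∀ (P : Pl K) (a : K), a ≠ 0 →
      κ P + P.ord (G u) + P.ord a = κ P + P.ord (G u * a) := fun P a h => by
    rw [Pl.ord_mul _ a0 h, add_assoc]
  refine ⟨G', hG, ?_, ⟨pk.dim, pk.fm, e ▸ mul_ne_zero (inv_ne_zero a0) g0, fun P p t => ?_,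
    (pk.fin.union (pk.fm.fin (G u))).subset fun P h => ?_, fun P p => ?_, fun Q ξ nn sp le => ?_,
    fun a h₀ X k r t ha h0 fX inj m z fr kp => ?_⟩, fun m z Q ⟨φ, φ0, h1, h2⟩ => ?_⟩
  · have := v u
    rw [neg_add_cancel] at this
    rw [this]
    exact mul_ne_zero (inv_ne_zero a0) a0
  · rw [eo, t u _ (hg u) a0, (pk.reg P p t).2, sub_zero]
    exact ⟨(pk.reg P p t).1, rfl⟩
  · by_contra w
    rw [mem_union, not_or] at w
    exact h.2 (by rw [not_not.1 fun x => w.1 ⟨h.1, x⟩, zero_add]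
                  exact not_not.1 fun x => w.2 ⟨h.1, x⟩)
  · have := pk.eff P p
    rw [eo]
    omega
  · have a := pk.hw Q ξ nn sp le
    have b := le u _ (hg u) a0
    have f : ∑ᶠ E, ξ E * ((κ E + E.ord (G u) : ℤ) : ℝ) =
        ∑ᶠ E, ξ E * (κ E : ℝ) + ∑ᶠ E, ξ E * ((id E).ord (G u) : ℝ) := by
      rw [← finsum_add_distrib
        (pk.fin.subset fun E h => ⟨(sp E (left_ne_zero_of_mul h)).1,
          Int.cast_ne_zero.1 (right_ne_zero_of_mul h)⟩)
        ((pk.fm.fin (G u)).subset fun E h => ⟨(sp E (left_ne_zero_of_mul h)).1,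
          Int.cast_ne_zero.1 (right_ne_zero_of_mul h)⟩)]
      exact finsum_congr fun E => by rw [Int.cast_add, mul_add, id]
    rw [f, eo, Int.cast_sub]
    linarith
  · simp only [ed, ea _ _ ha]
    exact pk.av (G u * a) h₀ X k r t (mul_ne_zero a0 ha) h0 fX inj m
      (fun P p n => ⟨(z P p n).1, (ea P a ha).symm.trans (z P p n).2⟩) fr kp
  · refine ⟨(G u)⁻¹ ^ m * φ, mul_ne_zero (pow_ne_zero _ (inv_ne_zero a0)) φ0, fun P p => ?_, ?_⟩
    · have := h1 P p
      rw [Pl.ord_mul _ (pow_ne_zero _ (inv_ne_zero a0)) φ0, Pl.ord_pow, Pl.ord_inv]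
      linarith
    · rwa [← mul_assoc, ← mul_pow, mul_comm (tot G), ← e]

end Vale.Agent.P283R.Tb
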