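import Vale.Agent.P283R.Wc.All
import Vale.Agent.P283R.Sl.Tb

/-!
# P283R, block TB: torus actions with the orbit space open in a toric variety, the statements
-/

open Set CategoryTheory AlgebraicGeometry

noncomputable section

namespace Vale.Agent.P283R.Tb

open Vale.Agent.P287D Vale.Agent.P283M Cx Cy
open Vale.Agent.P283R.To (mon)
open Pq (Hm Hg tot Tv Hz At cz lam mu fr Pg ForR ForX)
open Wd (Sb sb Wv Ps Wx)
open Wc (Dr Ho Kt Rep Sec Av Lk Un Od Or Eqf Wi Ef Mo Gn Pd ForA ForB ForD)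

section defs

variable {K : Type} [Field K] [Algebra ℂ K] {ι : Type} {c ρ r : ℕ}

/-- the order of the Laurent monomial `s ^ m` -/
def dt (s : Fin c → K) (P : Pl K) (m : Fin c → ℤ) : ℤ := ∑ i, m i * P.ord (s i)

/-- the place is monomial on the polynomials in `s` -/
def Mv (s : Fin c → K) (P : Pl K) : Prop := ∀ g : MvPolynomial (Fin c) ℂ, ∀ a ∈ g.support,
  P.ord (MvPolynomial.aeval s g) ≤ dt s P fun i => a i

/-- the place lies over a hypersurface of the torus -/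
def Ax (s : Fin c → K) (P : Pl K) (p : Pg c) : Prop := At s P (some p) ∧ ∀ i, P.ord (s i) = 0

/-- the monomial `a` computes the order of the equation of the page -/
def Cm (s : Fin c → K) (P : Pl K) (p : Pg c) (a : Fin c →₀ ℕ) : Prop :=
  P.ord (lam s p) = dt s P fun i => a i

/-- `D` has the same dual cone as `A` -/
def Du (s : Fin c → K) (D : Finset (Pl K)) (A : Set (Pl K)) : Prop :=
  ↑D ⊆ A ∧ ∀ m, (∀ R ∈ D, 0 ≤ dt s R m) → ∀ R ∈ A, 0 ≤ dt s R m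

/-- the family `P` of the prime divisors, `w` selects those in the open set -/
structure Fm (s : Fin c → K) (y : Fin ρ → K) (w : ι → Prop) (P : ι → Pl K) : Prop where
  rat : D.Rat (fr s y)
  fin : ∀ a : K, {E | w E ∧ (P E).ord a ≠ 0}.Finite
  finc : {E | w E ∧ cz s y (P E) ≠ 0}.Finite
  inv : ∀ E, w E → ¬ Tv s y (P E) → ∀ G, Hg s y G → ∀ u, G u ≠ 0 →
    (P E).ord (tot G) ≤ (P E).ord (G u)
  lau : ∀ φ : K, φ ≠ 0 → (∀ E, w E → Tv s y (P E) → 0 ≤ (P E).ord φ) → ∃ G, Hg s y G ∧ φ = tot G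
  eqn : ∀ a : ι → ℤ, {E | a E ≠ 0}.Finite →
    ∃ φ : K, φ ≠ 0 ∧ ∀ E, w E → Tv s y (P E) → (P E).ord φ = a E
  kt : ∀ E, w E → Tv s y (P E) → cz s y (P E) = 0
  mis : {p : Pg c | ¬ ∃ E, w E ∧ At s (P E) (some p)}.Finite
  pg : ∀ E, w E → Mv s (P E) ∨ ∃ p, Ax s (P E) p
  gen : ∀ A : Set (Pl K), (∀ R ∈ A, Mv s R ∧ ∃ E, w E ∧ P E = R) →
    ∃ D : Finset (Pl K), D.card ≤ 2 ^ (c + 2) ∧ Du s D A

/-- the package -/
structure Pk (d q : ℕ) (ε : ℝ) (s : Fin c → K) (y : Fin ρ → K) (T : Set (Pl K)) (g : K)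
    (κ : Pl K → ℤ) : Prop where
  dim : c + ρ = d
  fm : Fm s y (· ∈ T) id
  g0 : g ≠ 0
  reg : ∀ P ∈ T, Tv s y P → 0 ≤ P.ord g ∧ κ P = 0
  fin : {P | P ∈ T ∧ κ P ≠ 0}.Finite
  eff : ∀ P ∈ T, q * cz s y P - P.ord g ≤ κ P
  hw : Pq.Hw ε q s y (· ∈ T) id g κ
  av : Av d q ε (cz s y) T g κ

/-- the wide state -/
structure Sc (W q : ℕ) (ε : ℝ) (s : Fin c → K) (y : Fin r → K) (u : Fin ρ → K) (T : Set (Pl K))
    (G : (Fin (r + ρ) → ℤ) →₀ K) (κ : Pl K → ℤ) (Q : Pl K) (ξ : Pl K → ℝ) (I J : Finset (Pg c)) :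
    Prop where
  pk : Pk (c + r + ρ) q ε s (Fin.append y u) T (tot G) κ
  hg : Hg s (Fin.append y u) G
  g0 : G 0 ≠ 0
  rep : Rep s (Fin.append y u) T Q ξ
  pos : ∀ P ∈ T, ∀ p ∈ I, p ∉ J → At s P (some p) → 0 < ξ P
  od : Od s (Fin.append y u) T J κ
  y1 : Un s T J y
  u0 : Un s T I u
  wi : Wi W s u T I J

end defs

/-! ### the rows on the field -/

/-- **DIC**: monomial places, superadditivity and the dichotomy -/
def DIC : Prop := ForR fun c _ K _ _ s _ =>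
  (∀ (P : Pl K) (g : MvPolynomial (Fin c) ℂ), g ≠ 0 →
    ∃ a ∈ g.support, dt s P (fun i => a i) ≤ P.ord (MvPolynomial.aeval s g)) ∧
  (∀ P p, At s P (some p) → (∀ i, ¬ p.l ∣ MvPolynomial.X i) → Ax s P p) ∧
  (∀ P, Mv s P → (∀ i, P.ord (s i) = 0) → Hz s P) ∧
  (∀ P p p', Ax s P p → p' ≠ p → ∀ a, Cm s P p' a) ∧
  (∀ (D : Finset (Pl K)) (A : Set (Pl K)) (p : Pg c), ∀ a ∈ p.l.support, (∀ R ∈ A, Mv s R) →
    Du s D A → (∀ R ∈ D, Cm s R p a) → ∀ R ∈ A, Cm s R p a) ∧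
  ∀ (Q : Pl K) (S : Finset (Pl K)) (ξ : Pl K → ℝ) (p : Pg c), (∀ P ∈ S, 0 ≤ ξ P) →
    (∀ P ∈ S, ξ P ≠ 0 → Mv s P ∨ ∃ p', p' ≠ p ∧ Ax s P p') →
    (∀ i, ∑ P ∈ S, ξ P * P.ord (s i) = Q.ord (s i)) →
    ∑ P ∈ S, ξ P * P.ord (lam s p) ≤ Q.ord (lam s p) ∧
      (∑ P ∈ S, ξ P * P.ord (lam s p) = Q.ord (lam s p) ↔
        ∃ a ∈ p.l.support, Cm s Q p a ∧ ∀ P ∈ S, ξ P ≠ 0 → Cm s P p a)

/-- **CZL**: the logarithmic form has at most simple poles -/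
def CZL : Prop := ForR fun _ _ _ _ _ s y => ∀ P, -1 + ∑ i, P.ord (s i) ≤ cz s y P

/-- **GP**: Gauss places over a point of the orbit of the cone of `D` -/
def GP : Prop := ForR fun c ρ K _ _ s y => ∀ (Q : Pl K) (D : Finset (Pl K)) (Em : Set (Pg c)),
  (∀ R ∈ D, Mv s R) →
  (∀ m, (∀ R ∈ D, 0 ≤ dt s R m) → 0 ≤ dt s Q m ∧ (dt s Q m = 0 → ∀ R ∈ D, dt s R m = 0)) →
  Em.Finite → (∀ p ∈ Em, ∃ a ∈ p.l.support, Cm s Q p a ∧ ∀ R ∈ D, Cm s R p a) →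
    ∃ m : Pg c → ℕ, (∀ p, m p = 0 → ∃ a ∈ p.l.support, Cm s Q p a ∧ ∀ R ∈ D, Cm s R p a) ∧
      (∀ p ∈ Em, m p = 0) ∧ ∀ (t : ℕ) (v : Fin ρ → ℤ),
        (v = 0 ∧ (∀ p, t * (m p + ∑ R ∈ D, R.ord (lam s p)) = 0) ∧
          0 ≤ t * (c + ∑ R ∈ D, ∑ i, R.ord (s i))) ∨
        ∃ (R' : Pl K) (e : ℕ), 0 < e ∧ (∀ j, v j = e * R'.ord (y j)) ∧
          (∀ p, e * R'.ord (lam s p) = t * (m p + ∑ R ∈ D, R.ord (lam s p))) ∧
          e * (cz s y R' + 1) ≤ t * (c + ∑ R ∈ D, ∑ i, R.ord (s i))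

/-- **GPR** -/
def GPR : Prop := DIC → GP

/-- **LAT**: few generators of a cone -/
def LAT : Prop := ∀ (c : ℕ) (α : Type) (v : α → Fin c → ℤ) (A : Set α) (N : Finset (Fin c → ℤ)),
  (c ≤ 2 ∨ N.card ≤ 2 ^ (c + 2)) → (∀ a ∈ A, ∃ n ∈ N, ∃ μ : ℕ, ∀ i, v a i = μ * n i) →
    ∃ D : Finset α, D.card ≤ 2 ^ (c + 2) ∧ ↑D ⊆ A ∧
      ∀ m : Fin c → ℤ, (∀ a ∈ D, 0 ≤ ∑ i, m i * v a i) → ∀ a ∈ A, 0 ≤ ∑ i, m i * v a i

/-- **OVA**: the first clause of the text -/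
def OVA : Prop := ∀ (c : ℕ) (K : Type) [Field K] [Algebra ℂ K] (s : Fin c → K) (P : Pl K)
  (l : MvPolynomial (Fin c) ℂ), AlgebraicIndependent ℂ s → Prime l →
    (∀ g, ¬ l ∣ g → P.ord (MvPolynomial.aeval s g) = 0) →
    (Mv s P ∧ ∃ (j : Fin c) (μ : ℕ), ∀ i, P.ord (s i) = μ * (Pi.single j 1 : Fin c → ℤ) i) ∨
      ∃ p, Ax s P p

/-! ### the rows on schemes -/

section sch

open Vale.Agent.P289 (Pt DForm dimension)
open Vale.Agent.P283M.Stm Vale.Agent.P283M.Stm.Var Vale.Agent.P283M.Br Vale.Agent.P283R.Gl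

/-- the prime divisors lie over divisors of the toric variety -/
def Ovm {c : ℕ} {X : Var} (W : X.X.Opens) (s : Fin c → X.K) : Prop :=
  ∀ E : X.PrimeDiv, E.1 ∈ W → Mv s (pq E) ∨ ∃ p, Ax s (pq E) p

/-- **MIS** -/
def MIS : Prop := ForX fun c _ X W s _ => Ovm W s →
  {p : Pg c | ¬ ∃ E : X.PrimeDiv, E.1 ∈ W ∧ At s (pq E) (some p)}.Finite

/-- **FM**: the prime divisors form a family -/
def FM : Prop := ForX fun c _ X W s y => Ovm W s →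
  (∀ A : Set (Pl X.K), (∀ R ∈ A, Mv s R ∧ ∃ E : X.PrimeDiv, E.1 ∈ W ∧ pq E = R) →
    ∃ D : Finset (Pl X.K), D.card ≤ 2 ^ (c + 2) ∧ Du s D A) →
  Fm s y (fun E : X.PrimeDiv => E.1 ∈ W) pq

end sch

/-- **FMR** -/
def FMR : Prop := MIS → FM

open Sl Sl.Var in
/-- **TXT**: from the text to the family -/
def TXT : Prop := ∀ (X : Sl.Var) (W : X.X.Opens) (x : Pt X.X), x.In W → ToricBase W →
  ∃ (c ρ : ℕ) (s : Fin c → X.K) (y : Fin ρ → X.K), Fm s y (fun E : X.o.PrimeDiv => E.1 ∈ W) Gl.pq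

/-- **TXTR** -/
def TXTR : Prop := OVA → LAT → FM → TXT

/-- **WT**: the theorem on the tier -/
def WT : Prop := ∀ (n q : ℕ) (ε : ℝ), 0 < q → 0 < ε → ∃ M : ℕ, 1 ≤ M ∧
  ∀ (c ρ : ℕ) (K : Type) [Field K] [Algebra ℂ K] (ι : Type) (u : Finset K) (Λ Γ Γ' : BD K)
    (s : Fin c → K) (y : Fin ρ → K) (w : ι → Prop) (P : ι → Pl K), c + ρ = n + 1 →
    Dat n u Λ Γ Γ' → Fm s y w P → Function.Injective P →
    (∀ R, R ∈ Cx.Tt n u Λ ↔ ∃ E, w E ∧ P E = R) →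
    (∀ R ∈ Cx.Tt n u Λ, dsc (n + 1) Γ R ≤ 0 ∧ ∃ m : ℤ, q * dsc (n + 1) Γ R = m) →
    (∀ R, Ov u R → ε ≤ 1 + dsc (n + 1) Γ R) → NefO n K u (-Γ) → Cpl n M u Λ Γ

open Sl Sl.Var in
/-- **ONT**: the class -/
def ONT : Prop := On fun _ _ Z f ω B z => FanoType f ω ∧ NefOver f (-logCan ω B) ∧
  ∃ W : Z.X.Opens, z.In W ∧ ToricBase (pre f W)

/-- **ONR** -/
def ONR : Prop := TXT → WT → ONT

open Sl Sl.Var in
/-- **PQT**: the old classes are contained -/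
def PQT : Prop := ∀ (X : Sl.Var) (W : X.X.Opens),
  (ProjectiveQuotient W ∨ ∃ r, ComplexityOne W r) → ToricBase W

/-! ### the reduction to the wide state -/

/-- **CD0**: the package of a pair -/
def CD0 : Prop := ForD fun n K _ _ u Λ Γ => ∀ (q c ρ : ℕ) (ε : ℝ) (ι : Type) (s : Fin c → K)
  (y : Fin ρ → K) (w : ι → Prop) (P : ι → Pl K), 0 < q → 0 < ε → c + ρ = n + 1 → Fm s y w P →
    Function.Injective P → (∀ R, R ∈ Tt n u Λ ↔ ∃ E, w E ∧ P E = R) →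
    (∀ R ∈ Tt n u Λ, dsc (n + 1) Γ R ≤ 0 ∧ ∃ m : ℤ, q * dsc (n + 1) Γ R = m) →
    (∀ R, Ov u R → ε ≤ 1 + dsc (n + 1) Γ R) → NefO n K u (-Γ) →
    ∃ g κ, Lk n q Γ (cz s y) (Tt n u Λ) g κ ∧ Pk (n + 1) q ε s y (Tt n u Λ) g κ

/-- **ORD** -/
def ORD : Prop := ForA fun _ _ _ _ _ s y T => ∀ d q ε g κ, Pk d q ε s y T g κ →
  ∃ G I, g = tot G ∧ Or s y T G κ I

/-- **CAR**: finiteness -/
def CAR : Prop := ForA fun _ _ _ _ _ s y T => ∀ J, Fm s y (· ∈ T) id → (Kt s y T J).Finite ∧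
  ∃ f, Ef s T J f

/-- **GT**: Goldman and Tucker -/
def GT : Prop := ForA fun K _ _ _ _ s y T => ∀ G κ I (Q : Pl K), Fm s y (· ∈ T) id →
  Or s y T G κ I → (∀ a : K, a ≠ 0 → (∀ P ∈ T, 0 ≤ P.ord a) → 0 ≤ Q.ord a) →
    ∃ (X : Set (Pl K)) (χ : K) (ξ : Pl K → ℝ), X.Finite ∧ X ⊆ Kt s y T I ∧ χ ≠ 0 ∧
      (∀ P ∈ T, 0 ≤ P.ord χ) ∧ (∀ P ∈ X, 0 < P.ord χ) ∧ Q.ord χ = 0 ∧ Rep s y (T \ X) Q ξ ∧
      ∀ P ∈ Kt s y (T \ X) I, 0 < ξ P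

/-- **DRP**: invariant primes are dropped -/
def DRP : Prop := ForA fun K _ _ _ _ s y T => ∀ d q ε g κ (X : Set (Pl K)), Pk d q ε s y T g κ →
  X.Finite → (∀ P ∈ X, ¬ Tv s y P) → Pk d q ε s y (T \ X) g κ

/-- the hypotheses of the count -/
structure Ct {K : Type} [Field K] [Algebra ℂ K] {c ρ : ℕ} (q : ℕ) (ε : ℝ) (s : Fin c → K)
    (y : Fin ρ → K) (T : Set (Pl K)) (G : (Fin ρ → ℤ) →₀ K) (κ : Pl K → ℤ) (Q : Pl K)
    (ζ : Pl K → ℝ) : Prop where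
  fm : Fm s y (· ∈ T) id
  e0 : 0 ≤ ε
  hg : Hg s y G
  g0 : tot G ≠ 0
  hw : Pq.Hw ε q s y (· ∈ T) id (tot G) κ
  fin : {P | P ∈ T ∧ κ P ≠ 0}.Finite
  eff : ∀ P ∈ T, q * cz s y P ≤ P.ord (tot G) + κ P
  rep : Rep s y T Q ζ

open Classical in
/-- **CNT**: the count -/
def CNT : Prop := ForA fun K _ _ c _ s y T => ∀ q ε G κ Q ζ (I : Set (Pg c)) (D : Finset (Pl K))
  (pt : Pl K → Pg c) (ξ : Pl K → ℚ), Ct q ε s y T G κ Q ζ →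
    (∀ p ∈ I, ∃ P, ζ P ≠ 0 ∧ Ax s P p) → (∀ P ∈ D, P ∈ T ∧ Ax s P (pt P) ∧ pt P ∈ I) →
    (∀ P, 0 ≤ ξ P) → (∀ p ∈ I, ∑ P ∈ D with pt P = p, ξ P * mu s P (some p) = 1) →
    ∃ u, G u ≠ 0 ∧ ∑ P ∈ D, ξ P * (P.ord (G u) + κ P : ℤ) ≤ q * (c + 2 ^ (c + 2))

/-- **HEL**: one term has the order zero outside of boundedly many pages -/
def HEL : Prop := ForA fun _ _ _ c ρ s y T => ∀ q ε G κ Q ζ, 1 ≤ q → Ct q ε s y T G κ Q ζ →
  ∃ u, G u ≠ 0 ∧ ∃ J : Finset (Pg c), J.card ≤ q * (c + 2 ^ (c + 2)) * (ρ + 2) ∧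
    ∀ P ∈ T, ∀ p ∉ J, Ax s P p → (∃ P', ζ P' ≠ 0 ∧ Ax s P' p) →
      mu s P (some p) = 1 ∧ P.ord (G u) + κ P = 0

/-- **PAGE**: few special pages -/
def PAGE : Prop := ∀ d q : ℕ, 0 < q → ∃ C : ℕ, ForA fun _ _ _ _ _ s y T => ∀ (ε : ℝ) G κ I Q ξ,
  0 < ε → Pk d q ε s y T (tot G) κ → Or s y T G κ I → Rep s y T Q ξ →
    (∀ P ∈ Kt s y T I, 0 < ξ P) →
    ∃ u J, G u ≠ 0 ∧ J.card ≤ C ∧ Od s y T J fun P => κ P + P.ord (G u)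

/-- **NRM**: division by a term -/
def NRM : Prop := ForA fun _ _ _ _ _ s y T => ∀ d q ε G κ u, Pk d q ε s y T (tot G) κ → Hg s y G →
  G u ≠ 0 → ∃ G', Hg s y G' ∧ G' 0 ≠ 0 ∧ Pk d q ε s y T (tot G') (fun P => κ P + P.ord (G u)) ∧
    ∀ m z Q, Sec q m z T (tot G') (fun P => κ P + P.ord (G u)) Q → Sec q m z T (tot G) κ Q

/-- **SPL**: the gap and the adapted frame -/
def SPL : Prop := ∀ (W : ℕ → ℕ) (d C₀ : ℕ), ∃ C : ℕ, ForA fun K _ _ c ρ s y T =>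
  ∀ κ (I J₀ : Finset (Pg c)), c + ρ = d → Fm s y (· ∈ T) id → J₀.card ≤ C₀ → Od s y T J₀ κ →
    Un s T I y → ∃ (J : Finset (Pg c)) (r ρ' : ℕ) (y' : Fin r → K) (u : Fin ρ' → K), J₀ ⊆ J ∧
      J.card ≤ C ∧ Eqf s y (Fin.append y' u) ∧ Un s T J y' ∧ Un s T I u ∧ Wi (W J.card) s u T I J

/-- **EQF**: change of the frame -/
def EQF : Prop := ForA fun K _ _ _ _ s y T => ∀ (ρ' : ℕ) (y' : Fin ρ' → K), Eqf s y y' →
  (∀ d q ε g κ, Pk d q ε s y T g κ → Pk d q ε s y' T g κ) ∧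
    (∀ Q ξ, Rep s y T Q ξ → Rep s y' T Q ξ) ∧ (∀ J κ, Od s y T J κ → Od s y' T J κ) ∧
    ∀ G, Hg s y G → G 0 ≠ 0 → ∃ G', Hg s y' G' ∧ G' 0 ≠ 0 ∧ tot G' = tot G

/-! ### the wide state -/

/-- **CA2**: Caratheodory in the wide state -/
def CA2 : Prop := ForB fun K _ _ c r ρ s y u T => ∀ W q ε G κ Q ξ I J,
  Sc W q ε s y u T G κ Q ξ I J → ∃ (ξ' : Pl K → ℝ) (t : Finset (Pl K)),
    Sc W q ε s y u T G κ Q ξ' I J ∧ t.card ≤ r + ρ + J.card + 1 + 2 ^ (c + 2) ∧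
      ∀ P ∈ Kt s (Fin.append y u) T J, ξ' P ≠ 0 → P ∈ t

/-- **REG**: regular functions at `Q` -/
def REG : Prop := ForA fun K _ _ _ _ s y T => ∀ Q ξ (φ : K), Fm s y (· ∈ T) id → Rep s y T Q ξ →
  φ ≠ 0 → (∀ P ∈ T, 0 ≤ P.ord φ) → 0 ≤ Q.ord φ ∧ ∀ P, 0 < ξ P → 0 < P.ord φ → 0 < Q.ord φ

/-- **IND**: the primes over one page agree on the small field -/
def IND : Prop := ForB fun K _ _ _ _ _ s y u T => ∀ J κ, Fm s (Fin.append y u) (· ∈ T) id →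
  Od s (Fin.append y u) T J κ → Un s T J y → ∀ p ∉ J, ∀ P ∈ T, ∀ P' ∈ T, At s P (some p) →
    At s P' (some p) → ∀ z : Sb (fr s y), z ≠ 0 → P.ord (z : K) = P'.ord (z : K)

/-- **GEN**: the generators -/
def GEN : Prop := ForB fun K _ _ c r _ s y u T => ∀ J κ f (k : ℕ) (e : Fin k → Pl K),
  Fm s (Fin.append y u) (· ∈ T) id → Od s (Fin.append y u) T J κ → Un s T J y → Ef s T J f →
    Function.Injective e → range e = Kt s (Fin.append y u) T J →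
    ∃ (E : ℕ) (s' : Fin E → Sb (fr s y)) (a' : Fin E → Fin k → ℤ),
      E ≤ k + 2 * (J.card + c + r + 1) ∧ Gn s y T J f e s' a'

/-- **PDX**: the pages exist -/
def PDX : Prop := ForB fun K _ _ _ _ _ s y u T => ∀ W I J (k : ℕ) (e : Fin k → Pl K),
  Fm s (Fin.append y u) (· ∈ T) id → Wi W s u T I J → ∃ π, Pd s y u T I J e π ∧ π.Wid W

/-- **WV1** -/
def WV1 : Prop := ForB fun K _ _ _ _ _ s y u T => ∀ W q ε G κ Q ξ I J f (k N E : ℕ)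
  (e : Fin k → Pl K) π (σ : Fin N → K) α (s' : Fin E → _) a', Sc W q ε s y u T G κ Q ξ I J →
    Function.Injective e → range e = Kt s (Fin.append y u) T J → Pd s y u T I J e π →
    Cox T (Dr e) σ α → Gn s y T J f e s' a' → Wv π u σ α s' a'

/-- **WV2** -/
def WV2 : Prop := ForB fun K _ _ _ _ _ s y u T => ∀ W q ε G κ Q ξ I J (k N : ℕ)
  (e : Fin k → Pl K) π (σ : Fin N → K) α, 1 ≤ W → Sc W q ε s y u T G κ Q ξ I J →
    Function.Injective e → range e = Kt s (Fin.append y u) T J → Pd s y u T I J e π → π.Wid W →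
    Cox T (Dr e) σ α → Ps π u σ α Q

/-- **MON**: few kept primes -/
def MON : Prop := ∀ (B q : ℕ) (ε : ℝ), 0 < q → 0 < ε → ∃ W m : ℕ, 2 ≤ m ∧
  ForB fun K _ _ c r ρ s y u T => ∀ G κ Q ξ I J f, c + r + ρ ≤ B → J.card ≤ B →
    Sc W q ε s y u T G κ Q ξ I J → Ef s T J f → (Kt s (Fin.append y u) T J).ncard ≤ B →
    ∃ φ : K, Mo s y J f φ ∧ (∀ P ∈ Kt s (Fin.append y u) T J, m * κ P ≤ P.ord φ) ∧
      Q.ord (tot G ^ m * φ) < q * m * (cz s (Fin.append y u) Q + 1)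

/-- **WID**: the wide state -/
def WID : Prop := ∀ (B q : ℕ) (ε : ℝ), 0 < q → 0 < ε → ∃ W m : ℕ, 2 ≤ m ∧
  ForB fun _ _ _ c r ρ s y u T => ∀ G κ Q ξ I J, c + r + ρ ≤ B → J.card ≤ B →
    Sc W q ε s y u T G κ Q ξ I J → Sec q m (cz s (Fin.append y u)) T (tot G) κ Q

/-- **PQ**: the theorem at one place -/
def PQ : Prop := ∀ (d q : ℕ) (ε : ℝ), 0 < q → 0 < ε → ∃ m : ℕ, 2 ≤ m ∧
  ForA fun K _ _ _ _ s y T => ∀ g κ (Q : Pl K), Pk d q ε s y T g κ →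
    (∀ a : K, a ≠ 0 → (∀ P ∈ T, 0 ≤ P.ord a) → 0 ≤ Q.ord a) → Sec q m (cz s y) T g κ Q

/-! ### the glue -/

/-- **MISR** -/
def MISR : Prop := DIC → MIS

/-- **CARR** -/
def CARR : Prop := DIC → CAR

/-- **GTR** -/
def GTR : Prop := DIC → CAR → GT

/-- **CNR** -/
def CNR : Prop := DIC → CZL → GP → CNT

/-- **HER** -/
def HER : Prop := CNT → HEL

/-- **PGR** -/
def PGR : Prop := DIC → HEL → PAGE

/-- **C2R** -/
def C2R : Prop := DIC → CAR → CA2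

/-- **W1R** -/
def W1R : Prop := IND → WV1

/-- **W2R** -/
def W2R : Prop := REG → WV2

/-- **MOR** -/
def MOR : Prop := CAR → GEN → PDX → WV1 → WV2 → MON

/-- **HLR**: integer Helly -/
def HLR : Prop := DRP → CAR → CA2 → MON → WID

/-- **PQR** -/
def PQR : Prop := ORD → GT → DRP → PAGE → NRM → SPL → EQF → WID → PQ

/-- **WTR** -/
def WTR : Prop := CD0 → PQ → WT

theorem ont (dic : DIC) (czl : CZL) (gpr : GPR) (lat : LAT) (ova : OVA) (misr : MISR) (fmr : FMR)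
    (txtr : TXTR) (onr : ONR) (cd0 : CD0) (ord : ORD) (carr : CARR) (gtr : GTR) (drp : DRP)
    (cnr : CNR) (her : HER) (pgr : PGR) (nrm : NRM) (spl : SPL) (eqf : EQF) (c2r : C2R) (reg : REG)
    (ind : IND) (gen : GEN) (pdx : PDX) (w1r : W1R) (w2r : W2R) (mor : MOR) (hlr : HLR) (pqr : PQR)
    (wtr : WTR) : ONT :=
  onr (txtr ova lat (fmr (misr dic))) (wtr cd0 (pqr ord (gtr dic (carr dic)) drp
    (pgr dic (her (cnr dic czl (gpr dic)))) nrm spl eqf (hlr drp (carr dic) (c2r dic (carr dic))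
      (mor (carr dic) gen pdx (w1r ind) (w2r reg)))))

end Vale.Agent.P283R.Tb
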