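import Vale.Agent.P283R.Tb.St

/-!
# P283R, block TB: the rows W2R, IND, MOR
-/

open Set

noncomputable section

namespace Vale.Agent.P283R.Tb

open Vale.Agent.P287D Vale.Agent.P283M Cx Cy
open Vale.Agent.P283R.To (mon)
open Pq (Hm Hg tot Tv Hz At cz lam mu fr Pg)
open Wd (Sb sb Wv Ps Wx Pos)
open Wc (Dr Kt Ef Mo Gn Pd)

open Vale.Agent.P297Z Wc.W63 in
/-- **W2R** -/
theorem w2r62 : W2R := by
  classical
  intro reg K _ _ c r ρ s y u T W q ε G κ Q ξ I J k N e π σ α W1 sc he rg pd wid cx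
  have fm := sc.pk.fm
  obtain ⟨-, f2, -, -, -, -, -, -, f9, -⟩ := Pq.fac60 c (r + ρ) K s (Fin.append y u) fm.rat
  have rq := fun φ => reg K c (r + ρ) s (Fin.append y u) T Q ξ φ fm sc.rep
  have l0 : ∀ p, lam s p ≠ 0 := fun p => by
    have := (f2 (Finsupp.single p 1) 0).1
    rw [Pq.hm, Finsupp.prod_single_index (by simp), zpow_one] at this
    exact left_ne_zero_of_mul this
  have u0 : ∀ j, u j ≠ 0 := fun j => by
    simpa using Pq.B25.y_ne fm.rat (Fin.natAdd r j)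
  have out : ∀ P ∈ T, P ∉ range e → Tv s (Fin.append y u) P ∨ ∃ p ∉ J, At s P (some p) :=
    fun P hP z => by
      by_contra! h
      exact z (rg ▸ ⟨hP, h.1, h.2⟩)
  have nin : ∀ P p, p ∉ J → At s P (some p) → P ∉ range e := fun P p a b z =>
    (rg ▸ z : P ∈ Kt s (Fin.append y u) T J).2.2 p a b
  have ol : ∀ P ∈ T, ∀ p ∉ J, At s P (some p) → ∀ p', P.ord (lam s p') = if p' = p then 1 else 0 :=
    fun P hP p a b p' => by
      rw [b.2 p', (sc.od.od P hP p a b).1, one_mul, Pq.od, Finsupp.single_apply]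
  refine ⟨fun n hn => ?_, fun p hp => ?_, fun m m0 => ?_⟩
  · have n0 : ∏ j, σ j ^ n j ≠ 0 := Finset.prod_ne_zero_iff.2 fun j _ => pow_ne_zero _ (cx.ne j)
    refine (rq _ n0 fun P hP => ?_).1
    simpa using (cx.sec 0 _ n0).1 (Submodule.subset_span ⟨n, hn, rfl⟩) P hP
  · obtain ⟨a, b, P₀, t, d⟩ := (pd.hI p).1 hp
    have el : algebraMap (Sb (fr s y)) K (π.l p) = lam s p := pd.hl p
    rw [el]
    refine pos_of he cx (fun φ f0 h => (rq φ f0 h).2) (l0 p) (pd.hb p) (fun P hP z => ?_) t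
      (nin P₀ p b d) (sc.pos P₀ t p a b d) (by rw [ol P₀ t p b d, if_pos rfl]; exact one_pos)
    rcases out P hP z with h | ⟨p', a', b'⟩
    · exact (((f9 P).1 h).1 p).ge
    · rw [ol P hP p' a' b']
      split_ifs <;> omega
  · have ew : hm u (π.cc m) m = (∏ p ∈ π.I, lam s p ^ π.κ p m) * mon u m := by
      rw [hm, Wd.Pg.cc, map_prod]
      congr 1
      refine Finset.prod_congr rfl fun p _ => ?_
      rw [map_zpow₀]
      exact congrArg (· ^ π.κ p m) (pd.hl p)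
    have p0 : ∏ p ∈ π.I, lam s p ^ π.κ p m ≠ 0 :=
      Finset.prod_ne_zero_iff.2 fun p _ => zpow_ne_zero _ (l0 p)
    have ow : ∀ P : Pl K, P.ord (hm u (π.cc m) m) =
        ∑ p ∈ π.I, π.κ p m * P.ord (lam s p) + ∑ j, m j * P.ord (u j) := fun P => by
      rw [ew, Pl.ord_mul _ p0 (To.mon_ne u0 m), To.ord_mon P u0,
        P.ord_prod _ fun p _ => zpow_ne_zero _ (l0 p)]
      simp only [Pl.ord_zpow]
    have oi : ∀ P ∈ T, ∀ p ∈ π.I, At s P (some p) → P.ord (hm u (π.cc m) m) =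
        (fun i => P.ord (u i)) ⬝ᵥ m + π.κ p m := fun P hP p hp b => by
      rw [ow, Finset.sum_congr rfl fun p' _ => by rw [ol P hP p ((pd.hI p).1 hp).2.1 b p']]
      simp only [mul_ite, mul_one, mul_zero, Finset.sum_ite_eq', if_pos hp, dotProduct]
      rw [add_comm, Finset.sum_congr rfl fun j _ => mul_comm _ _]
    obtain ⟨p, hp, v, hv, v', hv', ne⟩ := nonempty_of_ncard_ne_zero
      (Nat.one_le_iff_ne_zero.1 (W1.trans (wid.wid m m0)))
    obtain ⟨a, b, -⟩ := (pd.hI p).1 hp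
    obtain ⟨P₀, t, d, o⟩ : ∃ P₀ ∈ T, At s P₀ (some p) ∧ 0 < P₀.ord (hm u (π.cc m) m) := by
      have k1 := wid.vk p hp v hv m
      have k2 := wid.vk p hp v' hv' m
      obtain ⟨P, t, d, rfl⟩ := (pd.hV p v).1 hv
      obtain ⟨P', t', d', rfl⟩ := (pd.hV p v').1 hv'
      by_cases z : 0 < (fun i => P.ord (u i)) ⬝ᵥ m + π.κ p m
      · exact ⟨P, t, d, by rw [oi P t p hp d]; exact z⟩
      · exact ⟨P', t', d', by rw [oi P' t' p hp d']; omega⟩
    refine pos_of he cx (fun φ f0 h => (rq φ f0 h).2) (ew ▸ mul_ne_zero p0 (To.mon_ne u0 m))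
      (fun i => ?_) (fun P hP z => ?_) t (nin P₀ p b d) (sc.pos P₀ t p a b d) o
    · rw [ow, Wd.Pg.al, Pi.add_apply, Finset.sum_apply, Finset.sum_apply, neg_add, add_comm,
        ← Finset.sum_neg_distrib, ← Finset.sum_neg_distrib]
      congr 1
      · exact Finset.sum_congr rfl fun p _ => by simp [pd.hb]
      · exact Finset.sum_congr rfl fun j _ => by simp [pd.ha]
    · rcases out P hP z with h | ⟨p', a', b'⟩
      · obtain ⟨h1, h2⟩ := (f9 P).1 h
        have h3 : ∀ j, P.ord (u j) = 0 := fun j => by simpa using h2 (Fin.natAdd r j)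
        rw [ow]
        simp [h1 _, h3]
      · by_cases z' : p' ∈ π.I
        · rw [oi P hP p' z' b']
          exact wid.vk p' z' _ ((pd.hV p' _).2 ⟨P, hP, b', rfl⟩) m
        · have nI : p' ∉ I := fun h => z' ((pd.hI p').2 ⟨h, a', P, hP, b'⟩)
          rw [ow, Finset.sum_eq_zero fun p hp => by
            rw [ol P hP p' a' b', if_neg (ne_of_mem_of_not_mem hp z'), mul_zero],
            Finset.sum_eq_zero fun j _ => by rw [sc.u0 P hP p' nI b' j (u0 j), mul_zero]]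
          rfl

open Vale.Agent.P297Z in
/-- **IND** -/
theorem ind62 : IND := by
  intro K _ _ c r ρ s y u T J κ fm od un p hp
  have fa := Pq.fac _ _ K s _ fm.rat
  have su := Pq.sums _ _ K s _ fm.rat
  have y0 : ∀ j, y j ≠ 0 := fun j => by
    have := fm.rat.ind.ne_zero (Fin.natAdd c (Fin.castAdd ρ j))
    rwa [fr, Fin.append_right, Fin.append_left] at this
  have one : ∀ w, ∀ a ∈ Hm s (Fin.append y u) w, a ≠ 0 → (∀ i, w (Fin.natAdd r i) = 0) →
      ∃ k : ℤ, ∀ P ∈ T, At s P (some p) → P.ord a = k := by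
    intro w a ha a0 hw
    obtain ⟨b, n, b0, rfl⟩ := fa.1 w a ha a0
    refine ⟨n p, fun P hP hA => ?_⟩
    rw [P.ord_smul b0, fa.2.2.2.2.2.1 P _ n w hA, (od.od P hP p hp hA).1, Fin.sum_univ_add]
    simp [hw, un P hP p hp hA _ (y0 _), Pq.od]
  have le : ∀ a ∈ Algebra.adjoin ℂ (range (fr s y)), a ≠ 0 → ∀ P ∈ T, ∀ P' ∈ T,
      At s P (some p) → At s P' (some p) → P.ord a ≤ P'.ord a := by
    intro a ha a0 P hP P' hP' hA hA'
    obtain ⟨G, g1, rfl, g2⟩ := Wc.I88.cmp (u := u) y0 ha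
    obtain ⟨w, w0, hw⟩ := su.2.1 G P' a0
    obtain ⟨k, hk⟩ := one w _ (g1 w) w0 (g2 w w0)
    have := fm.inv P hP (fa.2.2.2.2.1 P _ hA).1 G g1 w w0
    rw [id, hk P hP hA] at this
    rw [hk P' hP' hA'] at hw
    exact this.trans hw
  rintro P hP P' hP' hA hA' ⟨z, hz⟩ z0
  obtain ⟨a, ha, b, hb, rfl⟩ := IntermediateField.mem_adjoin_iff_div.1 hz
  have n0 : a / b ≠ 0 := fun e => z0 (Subtype.ext e)
  have a0 : a ≠ 0 := fun e => n0 (by rw [e, zero_div])
  have b0 : b ≠ 0 := fun e => n0 (by rw [e, div_zero])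
  change P.ord (a / b) = P'.ord (a / b)
  rw [div_eq_mul_inv, Pl.ord_mul _ a0 (inv_ne_zero b0), Pl.ord_mul _ a0 (inv_ne_zero b0),
    Pl.ord_inv, Pl.ord_inv, le_antisymm (le a ha a0 P hP P' hP' hA hA') (le a ha a0 P' hP' P hP hA' hA),
    le_antisymm (le b hb b0 P hP P' hP' hA hA') (le b hb b0 P' hP' P hP hA' hA)]

namespace M62

variable {K : Type} [Field K] [Algebra ℂ K] {c ρ r k : ℕ}

theorem dot {e : Fin k → Pl K} (h : Function.Injective e) (δ : Fin k → ℤ) (i : Fin k) :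
    δ ⬝ᵥ Dr e (e i) = δ i := by
  simp [dotProduct, Dr, h.eq_iff]

theorem kap_eq {s : Fin c → K} {y : Fin r → K} {u : Fin ρ → K}
    (h : D.Rat (fr s (Fin.append y u))) (P : Pl K) :
    kap (zt (sb (fr s y)) u) P =
      cz s (Fin.append y u) P + P.ord (∏ j, Fin.append y u j) := by
  obtain ⟨a, ha⟩ := Cb.kap_int (fr s (Fin.append y u)) P
  rw [Wd.zt_sb, Pq.B25.app_app, Wd.kap_cs, cz, ha, Int.floor_intCast,
    To.ord_prod P (Pq.B25.y_ne h)]
  push_cast
  ring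

end M62

open M62

/-- **MOR** -/
theorem mor62 : MOR := by
  intro car gen pdx wv1 wv2 B q ε hq hε
  obtain ⟨W, m, hW, hm2, H⟩ := Wc.mur60 Wd.mnw (5 * B + 2) q ε hq hε
  refine ⟨W, m, hm2, ?_⟩
  intro K _ _ c r ρ s y u T G κ Q ξ I J f hB hJ sc ef hk
  have fm := sc.pk.fm
  obtain ⟨k, e, rng⟩ := (car K c _ s _ T J fm).1.fin_embedding
  have inj : Function.Injective e := e.injective
  have kB : k ≤ B := by
    rw [← rng, ncard_range_of_injective inj] at hk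
    simpa using hk
  obtain ⟨E, s', a', hE, gn⟩ := gen K c r ρ s y u T J κ f k e fm sc.od sc.y1 ef inj rng
  obtain ⟨π, pd, wid⟩ := pdx K c r ρ s y u T W I J k e fm sc.wi
  obtain ⟨γ, hγ, -, γ0⟩ := Wc.cmp9 K c r ρ s y u T G fm.rat sc.hg
  obtain ⟨ra, ex, -⟩ := Pq.B25.tower fm.rat
  have y0 := Pq.B25.y_ne fm.rat
  have h0 : ∏ j, Fin.append y u j ≠ 0 := Finset.prod_ne_zero_iff.2 fun j _ => y0 j
  have eT : ∀ i, e i ∈ Kt s (Fin.append y u) T J := fun i => rng ▸ mem_range_self i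
  have ft : Frm (zt (sb (fr s y)) u) := by
    refine Cb.fr_of ex.ff' ?_
    rw [Wd.zt_sb, Pq.B25.app_app]
    exact fm.rat.ind.comp _ (Fin.cast_injective _)
  obtain ⟨N, l, σ, α, F, dx⟩ := sc.pk.av 1 _ ∅ k e (zt (sb (fr s y)) u) one_ne_zero h0 finite_empty
    inj (fun i => ⟨(eT i).1, notMem_empty _⟩) (fun P hP n => by
      rw [rng] at n
      rw [P297Z.Pl.ord_one, add_zero]
      by_cases t : Tv s (Fin.append y u) P
      · exact ⟨fm.kt P hP.1 t, (sc.pk.reg P hP.1 t).2⟩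
      · have : ∃ p ∉ J, At s P (some p) := by
          by_contra z
          exact n ⟨hP.1, t, fun p hp a => z ⟨p, hp, a⟩⟩
        obtain ⟨p, hp, a⟩ := this
        exact (sc.od.od P hP.1 p hp a).2) ft (kap_eq fm.rat)
  simp only [sdiff_empty, div_one, P297Z.Pl.ord_one, add_zero] at dx
  let η : Sb (fr s y) := ∏ i, sb (fr s y) (Fin.natAdd c i)
  have hη : hm u η 1 = ∏ j, Fin.append y u j := by
    rw [Fin.prod_univ_add, hm, map_prod]
    simp only [mon, sb, fr, Fin.append_left, Fin.append_right, Pi.one_apply, zpow_one]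
    rfl
  rw [← hη, ← hγ] at dx
  obtain ⟨n, hn, lt⟩ := H (c + r) k ρ E (Sb (fr s y)) K N l (Pg c) (sb (fr s y)) u T (Dr e) σ α F η γ
    _ _ π s' a' Q (by omega) (by omega) (by omega)
    ⟨fun i => cz s (Fin.append y u) (e i), by ext i; simp⟩ ex
    ⟨Cb.fr_of ra.ff ra.ind, γ0 sc.g0, dx, wid,
      wv1 K c r ρ s y u T W q ε G κ Q ξ I J f k N E e π σ α s' a' sc inj rng pd dx.cox gn,
      wv2 K c r ρ s y u T W q ε G κ Q ξ I J k N e π σ α hW sc inj rng pd wid dx.cox⟩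
  have z0 : ∏ j, s' j ^ n j ≠ 0 := Finset.prod_ne_zero_iff.2 fun j _ => pow_ne_zero _ (gn.ne j)
  have ez : ((∏ j, s' j ^ n j : Sb (fr s y)) : K) = ∏ j, (s' j : K) ^ n j := by push_cast; rfl
  have φ0 : ∏ j, (s' j : K) ^ n j ≠ 0 := by rw [← ez]; exact_mod_cast z0
  refine ⟨∏ j, (s' j : K) ^ n j, gn.mo n, fun P hP => ?_, ?_⟩
  · rw [← rng] at hP
    obtain ⟨i, rfl⟩ := hP
    have := (gn.sec _ _ z0).1 (Submodule.subset_span ⟨n, hn, rfl⟩) _ (eT i).1
    rw [dot inj, ez] at this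
    simp only [Pi.neg_apply, Pi.smul_apply, smul_eq_mul] at this
    linarith
  · have g0 := sc.pk.g0
    have qm : (0 : ℝ) < (q * m : ℕ) := by exact_mod_cast Nat.mul_pos hq (by omega)
    change 0 < ld _ _ (_ * ∏ j, (s' j : K) ^ n j) Q at lt
    rw [ld, kap_eq fm.rat, hη, hγ, mul_pow, mul_assoc, sub_pos, div_lt_iff₀ qm,
      P297Z.Pl.ord_mul _ (pow_ne_zero _ (pow_ne_zero _ h0)) (mul_ne_zero (pow_ne_zero _ g0) φ0),
      P297Z.Pl.ord_pow, P297Z.Pl.ord_pow] at lt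
    have : ((Q.ord (tot G ^ m * ∏ j, (s' j : K) ^ n j) : ℤ) : ℝ) <
        q * m * (cz s (Fin.append y u) Q + 1) := by
      push_cast at lt
      linarith
    exact_mod_cast this

end Vale.Agent.P283R.Tb
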